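import Mathlib

/-!
# Row 176: length-two rewriting systems and their algebras

`ρ x y (some (x', y'))` is the relation `x y = x' y'`, `ρ x y none` is the relation `x y = 0`.
-/

set_option autoImplicit false

namespace Crest.Agent.R176

abbrev Rules (X : Type) := X → X → Option (X × X) → Prop

variable {X : Type}

inductive Step (ρ : Rules X) : List X → List X → Prop
  | mk (p s : List X) (x y x' y' : X) :
      ρ x y (some (x', y')) → Step ρ (p ++ x :: y :: s) (p ++ x' :: y' :: s)

/-- Equivalence of words. -/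
def Eqv (ρ : Rules X) : List X → List X → Prop := Relation.EqvGen (Step ρ)

/-- Zero words. -/
def Zr (ρ : Rules X) (w : List X) : Prop :=
  ∃ p s x y, ρ x y none ∧ Eqv ρ w (p ++ x :: y :: s)

variable {ρ : Rules X}

theorem Step.ctx {w w' : List X} (h : Step ρ w w') (a b : List X) :
    Step ρ (a ++ w ++ b) (a ++ w' ++ b) := by
  obtain ⟨p, s, x, y, x', y', h⟩ := h
  have := Step.mk (ρ := ρ) (a ++ p) (s ++ b) x y x' y' h
  simpa using this

theorem Step.length {w w' : List X} (h : Step ρ w w') : w.length = w'.length := by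
  obtain ⟨p, s, x, y, x', y', h⟩ := h
  simp

@[refl] theorem Eqv.refl (w : List X) : Eqv ρ w w := Relation.EqvGen.refl w
theorem Eqv.rfl {w : List X} : Eqv ρ w w := Relation.EqvGen.refl w
@[symm] theorem Eqv.symm {w w' : List X} (h : Eqv ρ w w') : Eqv ρ w' w :=
  Relation.EqvGen.symm _ _ h
@[trans] theorem Eqv.trans {a b c : List X} (h : Eqv ρ a b) (h' : Eqv ρ b c) : Eqv ρ a c :=
  Relation.EqvGen.trans _ _ _ h h'
theorem Step.eqv {w w' : List X} (h : Step ρ w w') : Eqv ρ w w' := Relation.EqvGen.rel _ _ h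
theorem Eqv.of_eq {w w' : List X} (h : w = w') : Eqv ρ w w' := h ▸ Eqv.rfl

instance : Trans (Eqv ρ) (Eqv ρ) (Eqv ρ) := ⟨Eqv.trans⟩

theorem Eqv.of_rule {x y x' y' : X} (h : ρ x y (some (x', y'))) : Eqv ρ [x, y] [x', y'] :=
  (Step.mk [] [] x y x' y' h).eqv

/-- To transport a property along `Eqv` it is enough to transport it both ways along steps. -/
theorem Eqv.iff_of_step {P : List X → Prop} (hP : ∀ w w', Step ρ w w' → (P w ↔ P w'))
    {w w' : List X} (h : Eqv ρ w w') : P w ↔ P w' := by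
  induction h with
  | rel _ _ h => exact hP _ _ h
  | refl => rfl
  | symm _ _ _ ih => exact ih.symm
  | trans _ _ _ _ _ ih ih' => exact ih.trans ih'

theorem Eqv.eq_of_step {α : Sort*} {f : List X → α} (hf : ∀ w w', Step ρ w w' → f w = f w')
    {w w' : List X} (h : Eqv ρ w w') : f w = f w' := by
  induction h with
  | rel _ _ h => exact hf _ _ h
  | refl => rfl
  | symm _ _ _ ih => exact ih.symm
  | trans _ _ _ _ _ ih ih' => exact ih.trans ih'

theorem Eqv.length {w w' : List X} (h : Eqv ρ w w') : w.length = w'.length :=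
  Eqv.eq_of_step (fun _ _ h => h.length) h

theorem Eqv.ctx {w w' : List X} (h : Eqv ρ w w') (a b : List X) :
    Eqv ρ (a ++ w ++ b) (a ++ w' ++ b) := by
  induction h with
  | rel _ _ h => exact (h.ctx a b).eqv
  | refl => rfl
  | symm _ _ _ ih => exact ih.symm
  | trans _ _ _ _ _ ih ih' => exact ih.trans ih'

theorem Eqv.append_left {w w' : List X} (h : Eqv ρ w w') (a : List X) :
    Eqv ρ (a ++ w) (a ++ w') := by simpa using h.ctx a []

theorem Eqv.append_right {w w' : List X} (h : Eqv ρ w w') (b : List X) :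
    Eqv ρ (w ++ b) (w' ++ b) := by simpa using h.ctx [] b

theorem Eqv.append {a a' b b' : List X} (h : Eqv ρ a a') (h' : Eqv ρ b b') :
    Eqv ρ (a ++ b) (a' ++ b') := (h.append_right b).trans (h'.append_left a')

theorem Eqv.cons {w w' : List X} (h : Eqv ρ w w') (x : X) : Eqv ρ (x :: w) (x :: w') :=
  h.append_left [x]

theorem Zr.of_eqv {w w' : List X} (h : Eqv ρ w w') (hz : Zr ρ w') : Zr ρ w := by
  obtain ⟨p, s, x, y, h1, h2⟩ := hz
  exact ⟨p, s, x, y, h1, h.trans h2⟩

theorem Eqv.zr_iff {w w' : List X} (h : Eqv ρ w w') : Zr ρ w ↔ Zr ρ w' :=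
  ⟨Zr.of_eqv h.symm, Zr.of_eqv h⟩

theorem Zr.of_rule {x y : X} (h : ρ x y none) : Zr ρ [x, y] := ⟨[], [], x, y, h, Eqv.rfl⟩

theorem Zr.ctx {w : List X} (h : Zr ρ w) (a b : List X) : Zr ρ (a ++ w ++ b) := by
  obtain ⟨p, s, x, y, h1, h2⟩ := h
  refine ⟨a ++ p, s ++ b, x, y, h1, ?_⟩
  simpa using h2.ctx a b

theorem Zr.append_left {w : List X} (h : Zr ρ w) (a : List X) : Zr ρ (a ++ w) := by
  simpa using h.ctx a []

theorem Zr.append_right {w : List X} (h : Zr ρ w) (b : List X) : Zr ρ (w ++ b) := by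
  simpa using h.ctx [] b

theorem Zr.cons {w : List X} (h : Zr ρ w) (x : X) : Zr ρ (x :: w) := h.append_left [x]

theorem Zr.of_infix {w w' : List X} (h : Zr ρ w) (hi : w <:+: w') : Zr ρ w' := by
  obtain ⟨a, b, rfl⟩ := hi
  exact h.ctx a b

theorem Zr.two_le {w : List X} (h : Zr ρ w) : 2 ≤ w.length := by
  obtain ⟨p, s, x, y, -, h2⟩ := h
  have := h2.length
  simp at this
  omega

theorem not_zr_nil : ¬ Zr ρ [] := fun h => by simpa using h.two_le
theorem not_zr_single (x : X) : ¬ Zr ρ [x] := fun h => by simpa using h.two_le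

/-- A property of words that holds for `w`, is kept by steps in both directions and excludes
zero pairs shows that `w` is not zero. -/
theorem not_zr_of_inv {P : List X → Prop} (hP : ∀ w w', Step ρ w w' → (P w ↔ P w'))
    (hz : ∀ p s x y, ρ x y none → ¬ P (p ++ x :: y :: s)) {w : List X} (hw : P w) :
    ¬ Zr ρ w := by
  rintro ⟨p, s, x, y, h1, h2⟩
  exact hz p s x y h1 ((Eqv.iff_of_step hP h2).1 hw)

/-- A letterwise invariant of the rules is an invariant of `Eqv`. -/
theorem Eqv.map_eq {S : Type} {sk : X → S}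
    (hsk : ∀ x y x' y', ρ x y (some (x', y')) → sk x' = sk x ∧ sk y' = sk y)
    {w w' : List X} (h : Eqv ρ w w') : w.map sk = w'.map sk := by
  refine Eqv.eq_of_step (f := fun w => w.map sk) ?_ h
  rintro _ _ ⟨p, s, x, y, x', y', h⟩
  obtain ⟨h1, h2⟩ := hsk _ _ _ _ h
  simp [h1, h2]

/-- Substitution of words for letters respecting the rules. -/
theorem Eqv.flatMap {Y : Type} {σ : Rules Y} {τ : Y → List X}
    (hm : ∀ y1 y2 z1 z2, σ y1 y2 (some (z1, z2)) → Eqv ρ (τ y1 ++ τ y2) (τ z1 ++ τ z2))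
    {u u' : List Y} (h : Eqv σ u u') : Eqv ρ (u.flatMap τ) (u'.flatMap τ) := by
  induction h with
  | rel _ _ h =>
    obtain ⟨p, s, x, y, x', y', h⟩ := h
    simpa using (hm _ _ _ _ h).ctx (p.flatMap τ) (s.flatMap τ)
  | refl => rfl
  | symm _ _ _ ih => exact ih.symm
  | trans _ _ _ _ _ ih ih' => exact ih.trans ih'

theorem Zr.flatMap {Y : Type} {σ : Rules Y} {τ : Y → List X}
    (hm : ∀ y1 y2 z1 z2, σ y1 y2 (some (z1, z2)) → Eqv ρ (τ y1 ++ τ y2) (τ z1 ++ τ z2))
    (hz : ∀ y1 y2, σ y1 y2 none → Zr ρ (τ y1 ++ τ y2))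
    {u : List Y} (h : Zr σ u) : Zr ρ (u.flatMap τ) := by
  obtain ⟨p, s, x, y, h1, h2⟩ := h
  refine Zr.of_eqv (Eqv.flatMap hm h2) ?_
  simpa using (hz _ _ h1).ctx (p.flatMap τ) (s.flatMap τ)

/-! ### The algebra -/

section alg
variable (k : Type) [CommRing k] (ρ)

inductive Rel : FreeAlgebra k X → FreeAlgebra k X → Prop
  | mv {x y x' y' : X} : ρ x y (some (x', y')) →
      Rel (FreeAlgebra.ι k x * FreeAlgebra.ι k y) (FreeAlgebra.ι k x' * FreeAlgebra.ι k y')
  | zr {x y : X} : ρ x y none → Rel (FreeAlgebra.ι k x * FreeAlgebra.ι k y) 0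

/-- The algebra presented by the rules. -/
abbrev B := RingQuot (Rel ρ k)

/-- A letter as an element of the algebra. -/
noncomputable def lt (x : X) : B ρ k := RingQuot.mkAlgHom k (Rel ρ k) (FreeAlgebra.ι k x)

/-- A word as an element of the algebra. -/
noncomputable def wd (w : List X) : B ρ k := (w.map (lt ρ k)).prod

variable {k ρ}

@[simp] theorem wd_nil : wd ρ k [] = 1 := by simp [wd]
@[simp] theorem wd_cons (x : X) (w : List X) : wd ρ k (x :: w) = lt ρ k x * wd ρ k w := by
  simp [wd]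
@[simp] theorem wd_append (a b : List X) : wd ρ k (a ++ b) = wd ρ k a * wd ρ k b := by
  simp [wd]
theorem wd_single (x : X) : wd ρ k [x] = lt ρ k x := by simp

theorem lt_mv {x y x' y' : X} (h : ρ x y (some (x', y'))) :
    lt ρ k x * lt ρ k y = lt ρ k x' * lt ρ k y' := by
  simp only [lt, ← map_mul]
  exact RingQuot.mkAlgHom_rel k (Rel.mv h)

theorem lt_zr {x y : X} (h : ρ x y none) : lt ρ k x * lt ρ k y = 0 := by
  simp only [lt, ← map_mul]
  rw [RingQuot.mkAlgHom_rel k (Rel.zr (k := k) h), map_zero]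

theorem Eqv.wd_eq {w w' : List X} (h : Eqv ρ w w') : wd ρ k w = wd ρ k w' := by
  refine Eqv.eq_of_step (f := wd ρ k) ?_ h
  rintro _ _ ⟨p, s, x, y, x', y', h⟩
  simp only [wd_append, wd_cons, ← mul_assoc]
  rw [mul_assoc (wd ρ k p), lt_mv h, ← mul_assoc]

theorem Zr.wd_eq {w : List X} (h : Zr ρ w) : wd ρ k w = 0 := by
  obtain ⟨p, s, x, y, h1, h2⟩ := h
  rw [h2.wd_eq]
  simp only [wd_append, wd_cons, ← mul_assoc]
  rw [mul_assoc (wd ρ k p), lt_zr h1]
  simp

/-- Algebra maps out of `B`. -/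
noncomputable def liftB {A : Type*} [Ring A] [Algebra k A] (f : X → A)
    (hm : ∀ x y x' y', ρ x y (some (x', y')) → f x * f y = f x' * f y')
    (hz : ∀ x y, ρ x y none → f x * f y = 0) : B ρ k →ₐ[k] A :=
  RingQuot.liftAlgHom k ⟨FreeAlgebra.lift k f, by
    rintro _ _ (h | h)
    · simpa using hm _ _ _ _ h
    · simpa using hz _ _ h⟩

@[simp] theorem liftB_lt {A : Type*} [Ring A] [Algebra k A] (f : X → A) (hm hz) (x : X) :
    liftB (ρ := ρ) (k := k) f hm hz (lt ρ k x) = f x := by
  simp [liftB, lt, RingQuot.liftAlgHom_mkAlgHom_apply]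

theorem liftB_wd {A : Type*} [Ring A] [Algebra k A] (f : X → A) (hm hz) (w : List X) :
    liftB (ρ := ρ) (k := k) f hm hz (wd ρ k w) = (w.map f).prod := by
  induction w with
  | nil => simp
  | cons x w ih => simp [ih]

/-- The words span the algebra. -/
theorem span_wd : Submodule.span k (Set.range (wd ρ k)) = ⊤ := by
  rw [eq_top_iff]
  rintro b -
  obtain ⟨a, rfl⟩ := RingQuot.mkAlgHom_surjective k (Rel ρ k) b
  induction a using FreeAlgebra.induction with
  | grade0 r =>
    rw [AlgHom.commutes, Algebra.algebraMap_eq_smul_one]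
    exact Submodule.smul_mem _ _ (Submodule.subset_span ⟨[], by simp⟩)
  | grade1 x => exact Submodule.subset_span ⟨[x], by simp [lt]⟩
  | mul a b ha hb =>
    rw [map_mul]
    have h := Submodule.mul_mem_mul ha hb
    rw [Submodule.span_mul_span] at h
    refine Submodule.span_mono ?_ h
    rintro _ ⟨_, ⟨u, rfl⟩, _, ⟨v, rfl⟩, rfl⟩
    exact ⟨u ++ v, by simp⟩
  | add a b ha hb => rw [map_add]; exact Submodule.add_mem _ ha hb

section rep
variable {M : Type*} [AddCommGroup M] [Module k M]

/-- Left multiplication by a letter on functions on words (acting on the right end). -/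
private def sh (k : Type) [CommRing k] (M : Type*) [AddCommGroup M] [Module k M] (x : X) :
    Module.End k (List X → M) where
  toFun f w := f (w ++ [x])
  map_add' _ _ := rfl
  map_smul' _ _ := rfl

/-- Functions on words that respect the rules. -/
private def good (ρ : Rules X) (k : Type) [CommRing k] (M : Type*) [AddCommGroup M] [Module k M] :
    Submodule k (List X → M) where
  carrier := {f | (∀ w w', Eqv ρ w w' → f w = f w') ∧ ∀ w, Zr ρ w → f w = 0}
  add_mem' := by
    rintro f g ⟨h1, h2⟩ ⟨h3, h4⟩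
    exact ⟨fun w w' h => by simp [h1 _ _ h, h3 _ _ h], fun w h => by simp [h2 _ h, h4 _ h]⟩
  zero_mem' := ⟨fun _ _ _ => rfl, fun _ _ => rfl⟩
  smul_mem' := by
    rintro c f ⟨h1, h2⟩
    exact ⟨fun w w' h => by simp [h1 _ _ h], fun w h => by simp [h2 _ h]⟩

private def shg (ρ : Rules X) (k : Type) [CommRing k] (M : Type*) [AddCommGroup M] [Module k M]
    (x : X) : Module.End k (good ρ k M) :=
  (sh k M x).restrict (fun _ hf =>
    ⟨fun _ _ h => hf.1 _ _ (h.append_right _), fun _ h => hf.2 _ (h.append_right _)⟩)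

private theorem shg_prod (w : List X) (f : good ρ k M) (u : List X) :
    ((w.map (shg ρ k M)).prod f : List X → M) u = (f : List X → M) (u ++ w) := by
  induction w generalizing u with
  | nil => simp
  | cons x w ih =>
    simp only [List.map_cons, List.prod_cons, Module.End.mul_apply]
    change ((w.map (shg ρ k M)).prod f : List X → M) (u ++ [x]) = _
    rw [ih]; simp

/-- A function on words that respects the rules extends to a linear map on `B`. -/
theorem exists_linear (f : List X → M) (h1 : ∀ w w', Eqv ρ w w' → f w = f w')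
    (h2 : ∀ w, Zr ρ w → f w = 0) : ∃ F : B ρ k →ₗ[k] M, ∀ w, F (wd ρ k w) = f w := by
  let Φ : B ρ k →ₐ[k] Module.End k (good ρ k M) := liftB (shg ρ k M)
    (fun x y x' y' h => by
      ext g u
      have e1 := shg_prod (k := k) [x, y] g u
      have e2 := shg_prod (k := k) [x', y'] g u
      simp only [List.map_cons, List.map_nil, List.prod_cons, List.prod_nil, mul_one] at e1 e2
      rw [e1, e2]
      exact g.2.1 _ _ ((Eqv.of_rule h).append_left u))
    (fun x y h => by
      ext g u
      have e1 := shg_prod (k := k) [x, y] g u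
      simp only [List.map_cons, List.map_nil, List.prod_cons, List.prod_nil, mul_one] at e1
      rw [e1]
      exact g.2.2 _ ((Zr.of_rule h).append_left u))
  refine ⟨(LinearMap.proj ([] : List X)) ∘ₗ (good ρ k M).subtype ∘ₗ
    (LinearMap.applyₗ (⟨f, h1, h2⟩ : good ρ k M)) ∘ₗ Φ.toLinearMap, fun w => ?_⟩
  simp only [LinearMap.comp_apply, AlgHom.toLinearMap_apply, Φ, liftB_wd]
  simpa using shg_prod (k := k) w ⟨f, h1, h2⟩ []

end rep

open Classical in
/-- Projection onto the span of the words with an `Eqv`-invariant property. -/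
theorem exists_proj (P : List X → Prop) (hP : ∀ w w', Eqv ρ w w' → (P w ↔ P w')) :
    ∃ F : B ρ k →ₗ[k] B ρ k, ∀ w, F (wd ρ k w) = if P w then wd ρ k w else 0 :=
  exists_linear _ (fun w w' h => by simp [hP _ _ h, h.wd_eq])
    (fun w h => by simp [h.wd_eq])

open Classical in
/-- The coefficient functional of a nonzero class. -/
theorem exists_coef (c : List X) (hc : ¬ Zr ρ c) :
    ∃ F : B ρ k →ₗ[k] k, ∀ w, F (wd ρ k w) = if Eqv ρ w c then 1 else 0 :=
  exists_linear _ (fun w w' h => by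
      have : Eqv ρ w c ↔ Eqv ρ w' c := ⟨h.symm.trans, h.trans⟩
      simp [this])
    (fun w h => by
      have : ¬ Eqv ρ w c := fun h' => hc (h'.zr_iff.1 h)
      simp [this])

theorem wd_eq_zero_iff [Nontrivial k] {w : List X} : wd ρ k w = 0 ↔ Zr ρ w := by
  refine ⟨fun h => ?_, Zr.wd_eq⟩
  by_contra hz
  obtain ⟨F, hF⟩ := exists_coef (k := k) w hz
  have := hF w
  rw [h, map_zero, if_pos Eqv.rfl] at this
  exact zero_ne_one this

theorem eqv_of_wd_eq [Nontrivial k] {w w' : List X} (hw : ¬ Zr ρ w)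
    (h : wd ρ k w' = wd ρ k w) : Eqv ρ w' w := by
  by_contra hz
  obtain ⟨F, hF⟩ := exists_coef (k := k) w hw
  have e := hF w'
  rw [h, hF w, if_pos Eqv.rfl, if_neg hz] at e
  exact one_ne_zero e

variable (k ρ) in
/-- The span of the words with property `P`. -/
noncomputable def Sp (P : List X → Prop) : Submodule k (B ρ k) :=
  Submodule.span k {b | ∃ w, P w ∧ wd ρ k w = b}

theorem wd_mem_Sp {P : List X → Prop} {w : List X} (h : P w) : wd ρ k w ∈ Sp ρ k P :=
  Submodule.subset_span ⟨w, h, rfl⟩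

end alg

end Crest.Agent.R176
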