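import Crest.Agent.R176.Rule

/-!
# 176-M: words given by functions, labels, cells and blocks
-/

set_option autoImplicit false

namespace Crest.Agent.R176

section wl
variable {X : Type} {ρ : Rules X}

/-- The word `f 0, …, f (n-1)`. -/
def wl (n : ℕ) (f : ℕ → X) : List X := (List.range n).map f

@[simp] theorem wl_length (n : ℕ) (f : ℕ → X) : (wl n f).length = n := by simp [wl]

theorem wl_congr {n : ℕ} {f g : ℕ → X} (h : ∀ t < n, f t = g t) : wl n f = wl n g :=
  List.map_congr_left fun t ht => h t (List.mem_range.1 ht)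

theorem wl_add (a b : ℕ) (f : ℕ → X) : wl (a + b) f = wl a f ++ wl b fun t => f (a + t) := by
  simp [wl, List.range_add, Function.comp_def]

theorem wl_succ (n : ℕ) (f : ℕ → X) : wl (n + 1) f = wl n f ++ [f n] := by
  simp [wl, List.range_succ]

theorem wl_succ' (n : ℕ) (f : ℕ → X) : wl (n + 1) f = f 0 :: wl n fun t => f (t + 1) := by
  simp [wl, List.range_succ_eq_map, Function.comp_def]

theorem wl_getD (w : List X) (d : X) : wl w.length (fun t => w.getD t d) = w := by
  apply List.ext_getElem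
  · simp
  · intro i h1 h2; simp [wl, List.getD_eq_getElem?_getD, List.getElem?_eq_getElem h2]

theorem wl_getD' {n : ℕ} (f : ℕ → X) (d : X) {t : ℕ} (ht : t < n) : (wl n f).getD t d = f t := by
  simp [wl, List.getD_eq_getElem?_getD, ht]

theorem wl_inj {n : ℕ} {f g : ℕ → X} (h : wl n f = wl n g) {t : ℕ} (ht : t < n) : f t = g t := by
  rw [← wl_getD' f (f 0) ht, h, wl_getD' g _ ht]

theorem mem_wl {n : ℕ} {f : ℕ → X} {x : X} : x ∈ wl n f ↔ ∃ t < n, f t = x := by simp [wl]

theorem wl_map {Y : Type} (n : ℕ) (f : ℕ → X) (g : X → Y) : (wl n f).map g = wl n (g ∘ f) := by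
  simp [wl]

theorem wl_split {n i : ℕ} (h : i + 1 < n) (f : ℕ → X) :
    wl n f = wl i f ++ [f i, f (i + 1)] ++ wl (n - (i + 2)) fun t => f (i + 2 + t) := by
  obtain ⟨m, rfl⟩ : ∃ m, n = i + 2 + m := ⟨n - (i + 2), by omega⟩
  rw [wl_add, wl_succ, wl_succ]
  simp

theorem Eqv.wl {n i : ℕ} {f f' : ℕ → X} (hi : i + 1 < n)
    (h : Eqv ρ [f i, f (i + 1)] [f' i, f' (i + 1)])
    (ho : ∀ j < n, j ≠ i → j ≠ i + 1 → f' j = f j) : Eqv ρ (wl n f) (wl n f') := by
  rw [wl_split hi f, wl_split hi f', wl_congr (f := f') (g := f) fun t ht => ho t (by omega)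
    (by omega) (by omega), wl_congr (f := fun t => f' (i + 2 + t)) (g := fun t => f (i + 2 + t))
    fun t ht => ho _ (by omega) (by omega) (by omega)]
  exact h.ctx _ _

theorem Zr.wl {n i : ℕ} {f : ℕ → X} (hi : i + 1 < n) (h : Zr ρ [f i, f (i + 1)]) :
    Zr ρ (wl n f) := by
  rw [wl_split hi f]; exact h.ctx _ _

theorem Eqv.bdry {n m : ℕ} {f g f' g' : ℕ → X} (h : Eqv ρ [f n, g 0] [f' n, g' 0])
    (hf : ∀ j < n, f' j = f j) (hg : ∀ j < m, g' (j + 1) = g (j + 1)) :
    Eqv ρ (R176.wl (n + 1) f ++ R176.wl (m + 1) g) (R176.wl (n + 1) f' ++ R176.wl (m + 1) g') := by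
  rw [wl_succ, wl_succ n f', wl_succ' m g, wl_succ' m g', wl_congr hf, wl_congr hg]
  simpa using h.ctx (R176.wl n f) (R176.wl m fun t => g (t + 1))

theorem Zr.bdry {n m : ℕ} {f g : ℕ → X} (h : Zr ρ [f n, g 0]) :
    Zr ρ (R176.wl (n + 1) f ++ R176.wl (m + 1) g) := by
  rw [wl_succ, wl_succ' m g]
  simpa using h.ctx (R176.wl n f) (R176.wl m fun t => g (t + 1))

/-- A change of one letter that is allowed next to any neighbour. -/
theorem Eqv.single {n t : ℕ} {f : ℕ → X} {y : X} (hn : 2 ≤ n) (ht : t < n)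
    (h0 : ∀ z, Eqv ρ [f t, z] [y, z]) (h1 : ∀ z, Eqv ρ [z, f t] [z, y]) :
    Eqv ρ (R176.wl n f) (R176.wl n (Function.update f t y)) := by
  by_cases h : t + 1 < n
  · refine Eqv.wl h ?_ fun j _ hj _ => Function.update_of_ne hj _ _
    simpa using h0 _
  · obtain ⟨i, rfl⟩ : ∃ i, t = i + 1 := ⟨t - 1, by omega⟩
    refine Eqv.wl (i := i) ht ?_ fun j _ _ hj => Function.update_of_ne hj _ _
    simpa using h1 _

theorem Zr.single {n t : ℕ} {f : ℕ → X} (hn : 2 ≤ n) (ht : t < n)
    (h0 : ∀ z, Zr ρ [f t, z]) (h1 : ∀ z, Zr ρ [z, f t]) : Zr ρ (R176.wl n f) := by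
  by_cases h : t + 1 < n
  · exact Zr.wl h (h0 _)
  · obtain ⟨i, rfl⟩ : ∃ i, t = i + 1 := ⟨t - 1, by omega⟩
    exact Zr.wl (i := i) ht (h1 _)

theorem Eqv.all {n : ℕ} {f g : ℕ → X} (hn : 2 ≤ n)
    (h0 : ∀ t < n, ∀ z, Eqv ρ [f t, z] [g t, z]) (h1 : ∀ t < n, ∀ z, Eqv ρ [z, f t] [z, g t]) :
    Eqv ρ (R176.wl n f) (R176.wl n g) := by
  have key : ∀ m ≤ n, Eqv ρ (R176.wl n f) (R176.wl n fun t => if t < m then g t else f t) := by
    intro m
    induction m with
    | zero => intro _; simpa using Eqv.rfl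
    | succ m ih =>
      intro hm
      refine (ih (by omega)).trans ((Eqv.single (t := m) (y := g m) hn (by omega) ?_ ?_).trans
        (Eqv.of_eq (wl_congr fun t _ => ?_)))
      · simpa using h0 m (by omega)
      · simpa using h1 m (by omega)
      · rcases eq_or_ne t m with rfl | h
        · simp
        · rw [Function.update_of_ne h]
          have : t < m + 1 ↔ t < m := by omega
          simp [this]
  exact (key n le_rfl).trans (Eqv.of_eq (wl_congr fun t ht => by simp [ht]))

end wl

namespace M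

/-! ### Elementary facts on views -/

section view
variable {W : ℕ}

theorem card_lt_E {n : ℕ} (h : n ≤ E) (hW : E ≤ W) : n < 2 ^ W :=
  (h.trans hW).trans_lt Nat.lt_two_pow_self

theorem HS.uniq (hW : E ≤ W) {x : Let W} {s s' : Stat} (h : HS x s) (h' : HS x s') : s = s' :=
  enc_inj (ro_inj ((enc_lt _).trans (card_lt_E (by unfold E; omega) hW))
    ((enc_lt _).trans (card_lt_E (by unfold E; omega) hW)) (h.symm.trans h'))

theorem HD.uniq (hW : E ≤ W) {x : Let W} {d d' : Dyn} (h : HD x d) (h' : HD x d') : d = d' :=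
  enc_inj (ro_inj ((enc_lt _).trans (card_lt_E (by unfold E; omega) hW))
    ((enc_lt _).trans (card_lt_E (by unfold E; omega) hW)) (h.symm.trans h'))

theorem Keep.refl (x : Let W) : Keep x x := ⟨rfl, rfl, rfl⟩
theorem Keep.symm {x y : Let W} (h : Keep x y) : Keep y x := ⟨h.1.symm, h.2.1.symm, h.2.2.symm⟩
theorem Keep.hs {x y : Let W} (h : Keep x y) {s : Stat} (hs : HS x s) : HS y s := h.2.1.trans hs
theorem Same.refl (x : Let W) : Same x x := ⟨Keep.refl x, rfl, .inl rfl⟩
theorem Same.hD {x y : Let W} (h : Same x y) {d : Dyn} (hd : HD x d) : HD y d := h.2.1.trans hd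
theorem Same.symm {x y : Let W} (h : Same x y) : Same y x :=
  ⟨h.1.symm, h.2.1.symm, h.2.2.imp Eq.symm fun ⟨d, h1, h2⟩ => ⟨d, h.hD h1, h2⟩⟩

/-- A letter with prescribed content. -/
noncomputable def mkL (a : Reg W) (s : Stat) (d : Dyn) (H : Hd W) (l : Reg W) : Let W
  | none => l
  | some .addr => a
  | some .stat => ro W (enc s)
  | some (.d .dyn) => ro W (enc d)
  | some (.d .pc) => H.pc
  | some (.d .opr) => ro W 0
  | some (.d .imm) => H.imm
  | some (.d .jj) => H.jj
  | some (.d .mask) => H.mask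
  | some (.d .pp) => H.pp

@[simp] theorem adr_mkL (a s d H l) : adr (mkL (W := W) a s d H l) = a := rfl
@[simp] theorem lab_mkL (a s d H l) : lab (mkL (W := W) a s d H l) = l := rfl
@[simp] theorem hd_mkL (a s d H l) : hd (mkL (W := W) a s d H l) = H := rfl
theorem HS_mkL (a s d H l) : HS (mkL (W := W) a s d H l) s := rfl
theorem HD_mkL (a s d H l) : HD (mkL (W := W) a s d H l) d := rfl
theorem keep_mkL {x : Let W} {s : Stat} (hs : HS x s) (d H) :
    Keep x (mkL (adr x) s d H (lab x)) := ⟨rfl, hs.symm, rfl⟩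

/-- Setting the label. -/
abbrev setL (x : Let W) (l : Reg W) : Let W := Function.update x none l

@[simp] theorem adr_setL (x : Let W) (l) : adr (setL x l) = adr x := by simp [adr]
@[simp] theorem lab_setL (x : Let W) (l) : lab (setL x l) = l := by simp [lab]
@[simp] theorem hd_setL (x : Let W) (l) : hd (setL x l) = hd x := by simp [hd]
@[simp] theorem HS_setL (x : Let W) (l s) : HS (setL x l) s ↔ HS x s := by simp [HS]
@[simp] theorem HD_setL (x : Let W) (l d) : HD (setL x l) d ↔ HD x d := by simp [HD]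
@[simp] theorem setL_lab (x : Let W) : setL x (lab x) = x := by simp [setL]

/-- Replacing the labels of a word. -/
def relab (w : List (Let W)) (l : List (Reg W)) : List (Let W) := List.zipWith setL w l

theorem relab_self (w : List (Let W)) : relab w (w.map lab) = w := by
  induction w with
  | nil => rfl
  | cons x w ih => simp only [relab, List.map_cons, List.zipWith_cons_cons, setL_lab] at ih ⊢; rw [ih]

theorem relab_wl (n : ℕ) (f : ℕ → Let W) (g : ℕ → Reg W) :
    relab (wl n f) (wl n g) = wl n fun t => setL (f t) (g t) := by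
  simp [relab, wl, List.zipWith_map, List.zipWith_self]

theorem relab_append {w w' : List (Let W)} {l l' : List (Reg W)} (h : w.length = l.length) :
    relab (w ++ w') (l ++ l') = relab w l ++ relab w' l' := List.zipWith_append h

end view

section rules
variable {V : ℕ} [hV : Fact (E ≤ V)]

theorem EW : E ≤ 2 ^ V := Fact.out

theorem Same.eqv0 {x y : Let (2 ^ V)} (h : Same x y) (z) : Eqv (rho V) [x, z] [y, z] :=
  (VR.junk h (Same.refl z)).eqv
theorem Same.eqv1 {x y : Let (2 ^ V)} (h : Same x y) (z) : Eqv (rho V) [z, x] [z, y] :=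
  (VR.junk (Same.refl z) h).eqv

theorem relab_perm {l l' : List (Reg (2 ^ V))} (hp : l.Perm l') :
    ∀ w : List (Let (2 ^ V)), (∀ x ∈ w.tail, adr x ≠ ro _ 0) → w.length = l.length →
      Eqv (rho V) (relab w l) (relab w l') := by
  induction hp with
  | nil => intro w _ _; rfl
  | cons a _ ih =>
    rintro (_ | ⟨x, w⟩) hw hl
    · simp at hl
    · exact (ih w (fun y hy => hw y (List.mem_of_mem_tail hy)) (by simpa using hl)).cons _
  | swap a b l =>
    rintro (_ | ⟨x, _ | ⟨y, w⟩⟩) hw hl
    · simp at hl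
    · simp at hl
    · have : VR (setL x b) (setL y a) (setL x a) (setL y b) :=
        .lsw (by simpa using hw y (by simp)) (by simp) (by simp)
      exact this.eqv.append_right (relab w l)
  | trans h1 _ ih1 ih2 =>
    intro w hw hl
    exact (ih1 w hw hl).trans (ih2 w hw (hl.trans h1.length_eq))

theorem zr_of_dup {w : List (Let (2 ^ V))} (hw : ∀ x ∈ w.tail, adr x ≠ ro _ 0)
    (hd : ¬ (w.map lab).Nodup) : Zr (rho V) w := by
  obtain ⟨a, ha⟩ := List.exists_duplicate_iff_not_nodup.2 hd
  obtain ⟨l, hl⟩ := (List.duplicate_iff_sublist.1 ha).exists_perm_append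
  have := relab_perm hl w hw (by simp)
  rw [relab_self] at this
  refine Zr.of_eqv this ?_
  have hlen := hl.length_eq
  rcases w with _ | ⟨x, _ | ⟨y, w⟩⟩
  · simp at hlen
  · simp at hlen
  · have : VZ (setL x a) (setL y a) := .leq (by simpa using hw y (by simp)) (by simp)
    exact this.zr.append_right (relab w l)

theorem adr_succ {x y : Let (2 ^ V)} (h : ¬ Zr (rho V) [x, y]) : adr y = inc (adr x) := by
  by_contra h'; exact h (VZ.succ h').zr

theorem adr_add (w : List (Let (2 ^ V))) (x y : Let (2 ^ V)) (h : ¬ Zr (rho V) (x :: w ++ [y])) :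
    adr y = ro _ (rv (adr x) + w.length + 1) := by
  induction w generalizing x with
  | nil => exact adr_succ h
  | cons z w ih =>
    have h1 : adr z = inc (adr x) := adr_succ fun hz => h (hz.append_right (w ++ [y]))
    rw [ih z fun hz => h (hz.cons x), h1, rv_inc, ro_eq_iff]
    simp [add_assoc, add_comm 1]

theorem putR_static {W : ℕ} (u : Bool → Let W) (β τ r) (γ : Bool) :
    adr (putR u β τ r γ) = adr (u γ) ∧ putR u β τ r γ (some .stat) = u γ (some .stat) := by
  unfold putR
  split_ifs with h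
  · exact ⟨rfl, rfl⟩
  · push Not at h
    rcases eq_or_ne γ β with rfl | hγ
    · simp [adr, Function.update_of_ne h.1.symm, Function.update_of_ne h.2.symm]
    · simp [Function.update_of_ne hγ]

theorem res_static (s : St V) : ∀ y, res s = some y → ∀ γ,
    adr (y γ) = adr (s.u γ) ∧ y γ (some .stat) = s.u γ (some .stat) := by
  induction s using St.ind with
  | stop s r h =>
    intro y hy γ
    rw [res_stop h] at hy
    subst hy
    obtain ⟨ph, H, u⟩ := s
    cases ph <;> simp only [mstep] at h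
    · simp at h
    · simp at h
    · split at h <;> simp at h
    · simp only [Sum.inr.injEq, Option.some.injEq] at h; subst h; exact ⟨rfl, rfl⟩
  | step s s' h ih =>
    intro y hy γ
    rw [res_step h] at hy
    have := ih y hy γ
    obtain ⟨ph, H, u⟩ := s
    cases ph <;> simp only [mstep] at h
    · simp only [Sum.inl.injEq] at h; subst h; exact this
    · simp only [Sum.inl.injEq] at h; subst h; exact this
    · split at h
      · simp at h
      · simp only [Sum.inl.injEq] at h; subst h
        exact ⟨this.1.trans (putR_static _ _ _ _ _).1, this.2.trans (putR_static _ _ _ _ _).2⟩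
    · simp at h

end rules

end M

end Crest.Agent.R176
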