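import Crest.Agent.R176.Blk

/-!
# 176-M: cells, blocks, and the link with the interpreter
-/

set_option autoImplicit false

namespace Crest.Agent.R176.M

section cell
variable {h : ℕ}

/-- The content of cell `t` of the block that stores the upper letter `u`. -/
def cell (c : Fin 1024) (u : Let h) (t : ℕ) : Stat × (DT → Bool) :=
  if t < h then (.y c (bit (adr u) t) (bit (u (some .stat)) t), fun τ => bit (u (some (.d τ))) t)
  else (.l c, fun τ => decide (τ = .dyn) && bit (lab u) (t - h))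

/-- The upper letter after a change of the data in cell `t`. -/
def setc (u : Let h) (t : ℕ) (a : DT → Bool) : Let h
  | none => fun j => if j + h = t then a .dyn else u none j
  | some .addr => u (some .addr)
  | some .stat => u (some .stat)
  | some (.d τ) => fun j => if j = t then a τ else u (some (.d τ)) j

@[simp] theorem adr_setc (u : Let h) (t a) : adr (setc u t a) = adr u := rfl

theorem cell_kind (c : Fin 1024) (u : Let h) (t : ℕ) : (cell c u t).1.kind = decide (t < h) := by
  unfold cell; split_ifs with ht <;> simp [Stat.kind, ht]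

theorem cell_c (c : Fin 1024) (u : Let h) (t : ℕ) : (cell c u t).1.c = c := by
  unfold cell; split_ifs <;> rfl

theorem cell_okq (c : Fin 1024) (u : Let h) (t : ℕ) : Okq (cell c u t).1 (cell c u t).2 := by
  unfold cell; split_ifs
  · simp [Okq, Stat.kind]
  · intro _ τ hτ; simp [hτ]

theorem cell_setc_ne (c : Fin 1024) (u : Let h) {t t' : ℕ} (a) (ht' : t' < 2 * h) (hne : t' ≠ t) :
    cell c (setc u t a) t' = cell c u t' := by
  unfold cell; split_ifs with h1
  · refine Prod.ext rfl (funext fun τ => ?_)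
    simp [bit_lt _ h1, setc, hne]
  · refine Prod.ext rfl (funext fun τ => ?_)
    have : t' - h < h := by omega
    have e : ¬ (t' - h + h = t) := by omega
    simp [bit_lt _ this, setc, e, lab]

theorem cell_setc_self (c : Fin 1024) (u : Let h) {t : ℕ} {a} (ht : t < 2 * h)
    (ha : Okq (cell c u t).1 a) : cell c (setc u t a) t = ((cell c u t).1, a) := by
  unfold cell at ha ⊢; split_ifs at ha ⊢ with h1
  · refine Prod.ext rfl (funext fun τ => ?_)
    simp [bit_lt _ h1, setc]
  · refine Prod.ext rfl (funext fun τ => ?_)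
    have : t - h < h := by omega
    have e : t - h + h = t := by omega
    rcases eq_or_ne τ .dyn with rfl | hτ
    · simp [bit_lt _ this, setc, e, lab]
    · simp [hτ, ha rfl τ hτ]

theorem setc_cell (c : Fin 1024) (u : Let h) (t : ℕ) : setc u t (cell c u t).2 = u := by
  funext τ j
  rcases τ with _ | _ | _ | τ
  · simp only [setc]
    split_ifs with hj
    · subst hj; simp [cell, lab]
    · rfl
  · rfl
  · rfl
  · simp only [setc]
    split_ifs with hj
    · subst hj; simp [cell]
    · rfl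

theorem setc_setc (u : Let h) (t : ℕ) (a a') : setc (setc u t a) t a' = setc u t a' := by
  funext τ j
  rcases τ with _ | _ | _ | τ <;> simp only [setc] <;> split_ifs <;> rfl

theorem cell_inj {c c' : Fin 1024} {u u' : Let h}
    (H : ∀ t < 2 * h, cell c u t = cell c' u' t) : u = u' := by
  funext τ j
  have hj := j.2
  rcases τ with _ | _ | _ | τ
  · have := congrFun (congrArg Prod.snd (H (j + h) (by omega))) .dyn
    simpa [cell, lab] using this
  · have := congrArg Prod.fst (H j (by omega))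
    simp [cell, adr] at this; exact this.2.1
  · have := congrArg Prod.fst (H j (by omega))
    simp [cell, adr] at this; exact this.2.2
  · have := congrFun (congrArg Prod.snd (H j (by omega))) τ
    simpa [cell] using this

theorem cbit_cell (c : Fin 1024) (u : Let h) (τ : Option Tr) (j : Fin h) :
    cbit (cell c u (if τ.isSome then j else j + h)).1 (cell c u (if τ.isSome then j else j + h)).2 τ
      = u τ j := by
  rcases τ with _ | _ | _ | τ <;> simp [cell, cbit, Stat.sa, Stat.ss, lab, adr]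

theorem put_cell (c : Fin 1024) (u : Bool → Let h) (β : Bool) (τ : Option Tr) (j : Fin h)
    (b : Bool) : putR u β τ (Function.update (u β τ) j b) =
      Function.update u β (setc (u β) (if τ.isSome then j else j + h)
        (cput (cell c (u β) (if τ.isSome then j else j + h)).2 τ b)) := by
  have hj := j.2
  rcases τ with _ | _ | _ | τ
  · simp only [putR, reduceCtorEq, or_self, if_false]
    congr 1
    funext σ i
    have hi := i.2
    rcases σ with _ | _ | _ | σ
    · simp [setc, cput, Function.update_apply, Fin.ext_iff]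
    · simp [setc]
    · simp [setc]
    · have : ¬ (i : ℕ) = j + h := by omega
      simp [setc, this]
  · simp [putR, cput, setc_cell]
  · simp [putR, cput, setc_cell]
  · simp only [putR, Option.some.injEq, reduceCtorEq, or_self, if_false]
    congr 1
    funext σ i
    have hi := i.2
    rcases σ with _ | _ | _ | σ
    · have : ¬ (i : ℕ) + h = j := by omega
      simp [setc, this]
    · simp [setc]
    · simp [setc]
    · rcases eq_or_ne σ τ with rfl | hσ
      · simp [setc, cput, Function.update_apply, Fin.ext_iff]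
      · have : ¬ (some (Tr.d σ) = some (Tr.d τ)) := by simpa using hσ
        simp only [Function.update_of_ne this, setc, cput, Function.update_of_ne hσ,
          Option.isSome_some, if_true]
        split_ifs with hij
        · obtain rfl : i = j := Fin.ext hij
          simp [cell]
        · rfl

/-- `u` with the label of `u'`. -/
abbrev mix (u u' : Let h) : Let h := setL u (lab u')

theorem cell_mix (c : Fin 1024) (u u' : Let h) (t : ℕ) :
    cell c (mix u u') t = if t < h then cell c u t else cell c u' t := by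
  unfold cell; split_ifs <;> simp [mix, setL, adr, lab]

end cell

theorem Ins.rd_isSome (I : Ins) : I.rd.isSome = I.tr.isSome := by simp [Ins.rd]
theorem Ins.wr_isSome (I : Ins) : I.wr.isSome = I.tr.isSome := by simp [Ins.wr]

section link
variable {W : ℕ}

theorem place {H : Hd W} {t : ℕ} (ht : t < 2 * 2 ^ W) {p : Bool} (hk : decide (t < 2 ^ W) = p)
    (hj : H.jj = ro W t) : t = if p then (idx H.jj : ℕ) else idx H.jj + 2 ^ W := by
  have : (idx H.jj : ℕ) = t % 2 ^ W := by simp [idx, hj, rv_ro]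
  rw [this]
  subst hk
  by_cases h1 : t < 2 ^ W
  · simp [h1, Nat.mod_eq_of_lt h1]
  · simp only [h1, decide_false, Bool.false_eq_true, if_false]
    rw [Nat.mod_eq_sub_mod (by omega), Nat.mod_eq_of_lt (by omega)]; omega

theorem link {γ : Bool} {ph : Phs} {H : Hd W} {U : Bool → Let (2 ^ W)} {c : Fin 1024} {t : ℕ}
    (ht : t < 2 * 2 ^ W) (hr : Ready γ ph (cell c (U γ) t).1 (ro W t) H) :
    mstep ⟨ph, H, U⟩ = match cstep (cell c (U γ) t).1 (cell c (U γ) t).2 ph H with
      | some o => .inl ⟨o.2.1, o.2.2, Function.update U γ (setc (U γ) t o.1)⟩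
      | none => .inr none := by
  cases ph with
  | F => simp [mstep, cstep, setc_cell]
  | S1 I c0 =>
    obtain ⟨rfl, hk, hj⟩ := hr
    rw [cell_kind, ← I.rd_isSome] at hk
    have e := place ht hk hj
    simp only [mstep, cstep, setc_cell, Function.update_eq_self]
    rw [e, cbit_cell]
  | S2 I c0 a =>
    obtain ⟨rfl, hk, hj⟩ := hr
    rw [cell_kind, ← I.wr_isSome] at hk
    have e := place ht hk hj
    simp only [mstep, cstep]
    rw [e, cbit_cell]
    cases fin2 I c0 a (U I.β' I.wr (idx H.jj)) H with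
    | none => rfl
    | some o => simp only [Option.map_some]; rw [put_cell c]
  | rel => exact hr.elim

theorem target (ph : Phs) (H : Hd W) (hph : ph ≠ .rel) : ∃ γ t, t < 2 * 2 ^ W ∧
    ∀ (c : Fin 1024) (u : Let (2 ^ W)), Ready γ ph (cell c u t).1 (ro W t) H := by
  have key : ∀ p : Bool, ∃ t, t < 2 * 2 ^ W ∧ decide (t < 2 ^ W) = p ∧ H.jj = ro W t := by
    intro p
    have := rv_lt H.jj
    cases p
    · refine ⟨rv H.jj + 2 ^ W, by omega, by simp, ?_⟩
      rw [eq_ro_iff]; simp [Nat.mod_eq_of_lt this]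
    · exact ⟨rv H.jj, by omega, by simpa, by simp⟩
  cases ph with
  | F => exact ⟨false, 0, by positivity, fun _ _ => trivial⟩
  | S1 I c0 =>
    obtain ⟨t, h1, h2, h3⟩ := key I.tr.isSome
    exact ⟨I.β, t, h1, fun c u => ⟨rfl, by rw [cell_kind, h2], h3⟩⟩
  | S2 I c0 a =>
    obtain ⟨t, h1, h2, h3⟩ := key I.tr.isSome
    exact ⟨I.β', t, h1, fun c u => ⟨rfl, by rw [cell_kind, h2], h3⟩⟩
  | rel => exact absurd rfl hph

theorem cstep_okq {γ : Bool} {ph : Phs} {s : Stat} {r : Reg W} {H : Hd W} {a o}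
    (hr : Ready γ ph s r H) (hc : cstep s a ph H = some o) : Okq s a ↔ Okq s o.1 := by
  cases ph with
  | F => simp only [cstep, Option.some.injEq] at hc; subst hc; rfl
  | S1 I c0 => simp only [cstep, Option.some.injEq] at hc; subst hc; rfl
  | S2 I c0 b =>
    simp only [cstep, Option.map_eq_some_iff] at hc
    obtain ⟨o', -, rfl⟩ := hc
    refine imp_congr_right fun hk => forall₂_congr fun τ hτ => ?_
    have : I.wr = none := by
      have := hr.2.1
      rw [hk, ← I.wr_isSome] at this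
      simpa using this.symm
    simp [this, cput, Function.update_of_ne hτ]
  | rel => exact hr.elim

/-- The information carried by a block. -/
structure BI (W : ℕ) where
  c : Fin 1024
  u : Let (2 ^ W)
  tok : Tok
  H : Hd W

def mrk (p t : ℕ) (k : Tok) : Mark := if t < p then .R else if t = p then .tok k else .L

theorem mrk_self (p : ℕ) (k : Tok) : mrk p p k = .tok k := by simp [mrk]
theorem mrk_ne {p t : ℕ} (h : t ≠ p) (k k' : Tok) : mrk p t k = mrk p t k' := by simp [mrk, h]
theorem mrk_eq_tok {p t : ℕ} {k k' : Tok} (h : mrk p t k = .tok k') : t = p ∧ k = k' := by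
  unfold mrk at h; split_ifs at h <;> simp_all
theorem mrk_eq_R {p t : ℕ} {k : Tok} : mrk p t k = .R ↔ t < p := by
  unfold mrk; split_ifs <;> simp_all
theorem mrk_eq_L {p t : ℕ} {k : Tok} : mrk p t k = .L ↔ p < t := by
  unfold mrk; split_ifs <;> simp only [reduceCtorEq, false_iff, true_iff] <;> omega

/-- `f 0, …, f (2·2^W - 1)` is a block with information `b` and token at place `p`. -/
structure VB (f : ℕ → Let W) (b : BI W) (p : ℕ) : Prop where
  lt : p < 2 * 2 ^ W
  adr : ∀ t < 2 * 2 ^ W, adr (f t) = ro W t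
  hs : ∀ t < 2 * 2 ^ W, HS (f t) (cell b.c b.u t).1
  hD : ∀ t < 2 * 2 ^ W, HD (f t) ⟨(cell b.c b.u t).2, mrk p t b.tok⟩
  hd : b.tok.IsAct → hd (f p) = b.H
  lab : ∀ t < 2 * 2 ^ W, ∀ t' < 2 * 2 ^ W, (t < 2 ^ W ↔ t' < 2 ^ W) → lab (f t) = lab (f t') → t = t'

def Good (b : BI W) : Prop := (b.c : ℕ) = rv (adr b.u) % 1024

variable {f f' : ℕ → Let W} {b b' : BI W} {p p' : ℕ}

theorem VB.congr (h : VB f b p) (e : ∀ t < 2 * 2 ^ W, f' t = f t) : VB f' b p where
  lt := h.lt
  adr t ht := e t ht ▸ h.adr t ht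
  hs t ht := e t ht ▸ h.hs t ht
  hD t ht := e t ht ▸ h.hD t ht
  hd ha := e p h.lt ▸ h.hd ha
  lab t ht t' ht' h1 h2 := h.lab t ht t' ht' h1 (by rwa [e t ht, e t' ht'] at h2)

theorem VB.tok_at (hW : E ≤ W) (h : VB f b p) {t : ℕ} (ht : t < 2 * 2 ^ W) {a k}
    (hd : HD (f t) ⟨a, .tok k⟩) : t = p ∧ b.tok = k ∧ a = (cell b.c b.u t).2 := by
  have := (h.hD t ht).uniq hW hd
  simp only [Dyn.mk.injEq] at this
  exact ⟨(mrk_eq_tok this.2).1, (mrk_eq_tok this.2).2, this.1.symm⟩

/-- General update lemma. -/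
theorem VB.upd (h : VB f b p) (hp : p' < 2 * 2 ^ W) (hk : ∀ t < 2 * 2 ^ W, Keep (f t) (f' t))
    (hc : ∀ t < 2 * 2 ^ W, (cell b'.c b'.u t).1 = (cell b.c b.u t).1)
    (hD : ∀ t < 2 * 2 ^ W, HD (f' t) ⟨(cell b'.c b'.u t).2, mrk p' t b'.tok⟩)
    (hH : b'.tok.IsAct → M.hd (f' p') = b'.H) : VB f' b' p' where
  lt := hp
  adr t ht := (hk t ht).1.trans (h.adr t ht)
  hs t ht := hc t ht ▸ (hk t ht).hs (h.hs t ht)
  hD := hD
  hd := hH
  lab t ht t' ht' h1 h2 := h.lab t ht t' ht' h1 (by rwa [(hk t ht).2.2, (hk t' ht').2.2] at h2)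

theorem VB.same (hW : E ≤ W) (h : VB f b p) (hs : ∀ t < 2 * 2 ^ W, Same (f t) (f' t)) :
    VB f' b p := by
  refine h.upd h.lt (fun t ht => (hs t ht).1) (fun _ _ => rfl)
    (fun t ht => (hs t ht).hD (h.hD t ht)) fun ha => ?_
  rcases (hs p h.lt).2.2 with e | ⟨d, h1, h2⟩
  · exact e.trans (h.hd ha)
  · obtain ⟨β, ph, e⟩ := ha
    have := h1.uniq hW (h.hD p h.lt)
    subst this
    exact (h2 ⟨β, ph, by simp [mrk_self, e]⟩).elim

/-- Changing the cell of the token. -/
theorem VB.setTok (h : VB f b p) {y : Let W} {a k} (hk : Keep (f p) y) (hy : HD y ⟨a, .tok k⟩)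
    (ha : Okq (cell b.c b.u p).1 a) {H : Hd W} (hH : k.IsAct → M.hd y = H)
    (e : ∀ t < 2 * 2 ^ W, t ≠ p → f' t = f t) (ep : f' p = y) :
    VB f' ⟨b.c, setc b.u p a, k, H⟩ p := by
  refine h.upd h.lt (fun t ht => ?_) (fun t ht => ?_) (fun t ht => ?_) (by rwa [ep])
  · rcases eq_or_ne t p with rfl | hne
    · rwa [ep]
    · rw [e t ht hne]; exact Keep.refl _
  · rcases eq_or_ne t p with rfl | hne
    · simp only [cell_setc_self _ _ ht ha]
    · simp only [cell_setc_ne _ _ _ ht hne]
  · rcases eq_or_ne t p with rfl | hne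
    · simp only [cell_setc_self _ _ ht ha, mrk_self, ep]; exact hy
    · simp only [cell_setc_ne _ _ _ ht hne, e t ht hne, mrk_ne hne k b.tok]; exact h.hD t ht

theorem VB.setTok' (h : VB f b p) {y : Let W} {k} (hk : Keep (f p) y)
    (hy : HD y ⟨(cell b.c b.u p).2, .tok k⟩) {H : Hd W} (hH : k.IsAct → M.hd y = H)
    (e : ∀ t < 2 * 2 ^ W, t ≠ p → f' t = f t) (ep : f' p = y) :
    VB f' ⟨b.c, b.u, k, H⟩ p := by
  simpa [setc_cell] using h.setTok hk hy (cell_okq _ _ _) hH e ep

/-- Moving the token to a neighbouring cell `q`. -/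
theorem VB.move (h : VB f b p) {q : ℕ} (hq : q < 2 * 2 ^ W) (hpq : q = p + 1 ∨ p = q + 1)
    (k1 : Keep (f p) (f' p)) (k2 : Keep (f q) (f' q))
    (d1 : HD (f' p) ⟨(cell b.c b.u p).2, mrk q p b.tok⟩)
    (d2 : HD (f' q) ⟨(cell b.c b.u q).2, .tok b.tok⟩)
    (hH : b.tok.IsAct → M.hd (f' q) = M.hd (f p))
    (e : ∀ t < 2 * 2 ^ W, t ≠ p → t ≠ q → f' t = f t) : VB f' b q := by
  refine h.upd hq (fun t ht => ?_) (fun _ _ => rfl) (fun t ht => ?_)
    fun ha => (hH ha).trans (h.hd ha)
  · rcases eq_or_ne t p with rfl | h1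
    · exact k1
    rcases eq_or_ne t q with rfl | h2
    · exact k2
    rw [e t ht h1 h2]; exact Keep.refl _
  · rcases eq_or_ne t p with rfl | h1
    · exact d1
    rcases eq_or_ne t q with rfl | h2
    · rw [mrk_self]; exact d2
    have : mrk q t b.tok = mrk p t b.tok := by
      have : t < q ↔ t < p := by omega
      simp [mrk, h1, h2, this]
    rw [e t ht h1 h2, this]; exact h.hD t ht

theorem VB.relab (h : VB f b p) (g : ℕ → Reg W) (e : ∀ t < 2 * 2 ^ W, f' t = setL (f t) (g t))
    (hg : ∀ t < 2 * 2 ^ W, ∀ t' < 2 * 2 ^ W, (t < 2 ^ W ↔ t' < 2 ^ W) → g t = g t' → t = t') :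
    VB f' b p where
  lt := h.lt
  adr t ht := by rw [e t ht, adr_setL, h.adr t ht]
  hs t ht := by rw [e t ht, HS_setL]; exact h.hs t ht
  hD t ht := by rw [e t ht, HD_setL]; exact h.hD t ht
  hd ha := by rw [e p h.lt, hd_setL, h.hd ha]
  lab t ht t' ht' h1 h2 := hg t ht t' ht' h1 (by simpa [e t ht, e t' ht'] using h2)

theorem VB.uniq (hW : E ≤ W) (h : VB f b p) (h' : VB f b' p') :
    p = p' ∧ b.c = b'.c ∧ b.u = b'.u ∧ b.tok = b'.tok ∧ (b.tok.IsAct → b.H = b'.H) := by
  have h1 := h'.tok_at hW h.lt (by simpa [mrk_self] using h.hD p h.lt)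
  obtain ⟨rfl, h2, -⟩ := h1
  have h0 : 0 < 2 * 2 ^ W := by positivity
  refine ⟨rfl, ?_, cell_inj (c := b.c) (c' := b'.c) fun t ht => Prod.ext ?_ ?_, h2.symm,
    fun ha => (h.hd ha).symm.trans (h'.hd (h2 ▸ ha))⟩
  · rw [← cell_c b.c b.u 0, (h.hs 0 h0).uniq hW (h'.hs 0 h0), cell_c]
  · exact (h.hs t ht).uniq hW (h'.hs t ht)
  · exact congrArg Dyn.data ((h.hD t ht).uniq hW (h'.hD t ht))

theorem VB.setH (h : VB f b p) (hb : ¬ b.tok.IsAct) (H : Hd W) : VB f ⟨b.c, b.u, b.tok, H⟩ p :=
  ⟨h.lt, h.adr, h.hs, h.hD, fun ha => (hb ha).elim, h.lab⟩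

/-- The canonical block. -/
noncomputable def can (b : BI W) (p t : ℕ) : Let W :=
  mkL (ro W t) (cell b.c b.u t).1 ⟨(cell b.c b.u t).2, mrk p t b.tok⟩ b.H (ro W t)

theorem ro_half {t t' : ℕ} (ht : t < 2 * 2 ^ W) (ht' : t' < 2 * 2 ^ W)
    (h1 : t < 2 ^ W ↔ t' < 2 ^ W) (h2 : ro W t = ro W t') : t = t' := by
  by_cases h : t < 2 ^ W
  · exact ro_inj h (h1.1 h) h2
  · have h' := mt h1.2 h
    rw [ro_eq_iff, Nat.mod_eq_sub_mod (by omega), Nat.mod_eq_sub_mod (a := t') (by omega),
      Nat.mod_eq_of_lt (by omega), Nat.mod_eq_of_lt (by omega)] at h2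
    omega

theorem ro_eq_zero {t : ℕ} (ht : t < 2 * 2 ^ W) : ro W t = ro W 0 ↔ t = 0 ∨ t = 2 ^ W := by
  have h0 := Nat.two_pow_pos W
  constructor
  · intro h
    by_cases h1 : t < 2 ^ W
    · exact .inl (ro_inj h1 h0 h)
    · refine .inr (ro_half ht (by omega) (by omega) (h.trans ?_))
      rw [ro_eq_iff]; simp
  · rintro (rfl | rfl)
    · rfl
    · rw [ro_eq_iff]; simp

theorem VB.can (b : BI W) {p : ℕ} (hp : p < 2 * 2 ^ W) : VB (can b p) b p :=
  ⟨hp, fun _ _ => rfl, fun _ _ => rfl, fun _ _ => rfl, fun _ => rfl,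
    fun _ ht _ ht' h1 h2 => ro_half ht ht' h1 h2⟩

end link

end Crest.Agent.R176.M
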