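import Crest.Agent.R176.Basic

/-!
# Row 176: interfaces between the parts of the proof

* `Lev`  : one level of a self-simulating hierarchy of rewriting systems;
* `Hier` : the whole hierarchy with its growth conditions (built in `Mach*.lean`);
* `Ph`   : phases of long words (input of the group part);
* `StData` : a finitely presented group with Steinberg-type relations.
-/

set_option autoImplicit false

namespace Crest.Agent.R176

/-- Role of a block in the simulation of the upper level. -/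
inductive Role | idle | left | right
  deriving DecidableEq

/-- A territory: the two halves of a block, followed by the two halves of a second block
(both empty for a territory made of one block). -/
abbrev Quad (X : Type) := List X × List X × List X × List X

namespace Quad
variable {X : Type}
/-- The word of a territory. -/
def fl (t : Quad X) : List X := t.1 ++ t.2.1 ++ t.2.2.1 ++ t.2.2.2
/-- `t` with the second halves of its blocks taken from `t'`. -/
def sw (t t' : Quad X) : Quad X := (t.1, t'.2.1, t.2.2.1, t'.2.2.2)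
end Quad

/-- `b` is a block: a word of length `2 h` whose first letter has position `0` modulo `2 h`. -/
def IsBlk {X : Type} (h : ℕ) (pos : X → ℕ) (b : List X) : Prop :=
  b.length = 2 * h ∧ ∃ x r, b = x :: r ∧ pos x % (2 * h) = 0

/-- `t` is a territory: an idle block, or a left block followed by a right block. -/
def IsTerr {X : Type} (h : ℕ) (pos : X → ℕ) (role : List X → Role) (t : Quad X) : Prop :=
  t.1.length = h ∧ IsBlk h pos (t.1 ++ t.2.1) ∧
    ((role (t.1 ++ t.2.1) = .idle ∧ t.2.2.1 = [] ∧ t.2.2.2 = []) ∨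
     (role (t.1 ++ t.2.1) = .left ∧ t.2.2.1.length = h ∧ IsBlk h pos (t.2.2.1 ++ t.2.2.2) ∧
        role (t.2.2.1 ++ t.2.2.2) = .right))

/-- The system `ρ` on `X` simulates the system `σ` on `Y`; `sx`, `sy` are the skeletons. -/
structure Lev {X Y SX SY : Type} (ρ : Rules X) (σ : Rules Y) (sx : X → SX) (sy : Y → SY) where
  /-- half of the block length -/
  h : ℕ
  h_ge : 64 ≤ h
  pos : SX → ℕ
  pos_succ : ∀ x y, ¬ Zr ρ [x, y] → pos (sx y) ≡ pos (sx x) + 1 [MOD 1024 * (2 * h)]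
  τ : Y → List X
  τ_len : ∀ y, (τ y).length = 2 * h
  τ_mv : ∀ y1 y2 z1 z2, σ y1 y2 (some (z1, z2)) → Eqv ρ (τ y1 ++ τ y2) (τ z1 ++ τ z2)
  τ_zr : ∀ y1 y2, σ y1 y2 none → Zr ρ (τ y1 ++ τ y2)
  τ_nz : ∀ u : List Y, ¬ Zr σ u → ¬ Zr ρ (u.flatMap τ)
  up : List SX → SY
  up_τ : ∀ y, up ((τ y).map sx) = sy y
  role : List X → Role
  role_compat : ∀ b b', IsBlk h (pos ∘ sx) b → IsBlk h (pos ∘ sx) b' → ¬ Zr ρ (b ++ b') →
    (role b = .left ↔ role b' = .right)
  idle : ∀ b, IsBlk h (pos ∘ sx) b → role b = .idle → ¬ Zr ρ b → ∃ y, Eqv ρ b (τ y)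
  pair : ∀ b b', IsBlk h (pos ∘ sx) b → IsBlk h (pos ∘ sx) b' → role b = .left →
    role b' = .right → ¬ Zr ρ (b ++ b') → ∃ y y', Eqv ρ (b ++ b') (τ y ++ τ y')
  /-- number of types of territories -/
  T : ℕ
  θ : Quad X → Fin T
  /-- boundary territories -/
  bd : Quad X → Prop
  bd_sw : ∀ t t', bd (t.sw t') ↔ bd t
  R : ℕ
  bd_one : ∀ (t t' : Quad X) (M : List (Quad X)), IsTerr h (pos ∘ sx) role t →
    IsTerr h (pos ∘ sx) role t' → (∀ b ∈ M, IsTerr h (pos ∘ sx) role b) → M.length + 2 ≤ R →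
    ¬ Zr ρ (t.fl ++ M.flatMap Quad.fl ++ t'.fl) → bd t → ¬ bd t'
  kill : ∀ (t t' : Quad X) (M : List (Quad X)), IsTerr h (pos ∘ sx) role t →
    IsTerr h (pos ∘ sx) role t' → (∀ b ∈ M, IsTerr h (pos ∘ sx) role b) →
    ¬ Zr ρ (t.fl ++ M.flatMap Quad.fl ++ t'.fl) → θ t = θ t' →
    ¬ bd t → ¬ bd t' → (∀ b ∈ M, ¬ bd b) →
    IsTerr h (pos ∘ sx) role (t.sw t') ∧ IsTerr h (pos ∘ sx) role (t'.sw t) ∧
      θ (t.sw t') = θ t ∧ θ (t'.sw t) = θ t' ∧ t.sw t' ≠ t ∧
      Eqv ρ (t.fl ++ M.flatMap Quad.fl ++ t'.fl)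
        ((t.sw t').fl ++ M.flatMap Quad.fl ++ (t'.sw t).fl)

/-- The hierarchy. -/
structure Hier where
  X : ℕ → Type
  S : ℕ → Type
  fin : ∀ n, Finite (X n)
  ne : ∀ n, Nonempty (X n)
  ρ : ∀ n, Rules (X n)
  sk : ∀ n, X n → S n
  sk_inv : ∀ n x y x' y', ρ n x y (some (x', y')) → sk n x' = sk n x ∧ sk n y' = sk n y
  L : ∀ n, Lev (ρ n) (ρ (n + 1)) (sk n) (sk (n + 1))
  grow_h : ∀ c : ℕ, ∃ n, c * 256 ^ n < 2 * (L (n + 1)).h
  grow_nil : ∀ A : ℕ, ∃ n,
    2 * ((A * ∏ i ∈ Finset.range (n + 1), (1 + Nat.card (X i))) ^ 4 * (L n).T) + 2 ≤ (L n).R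

/-- Phases: a nonzero word of length at least `m i` knows its position modulo `N i`. -/
structure Ph {X : Type} (ρ : Rules X) where
  φ : ℕ → List X → ℤ
  m : ℕ → ℕ
  N : ℕ → ℕ
  m0 : m 0 = 1
  m_lt : ∀ i, m i < m (i + 1)
  mN : ∀ i, 128 * m (i + 1) ≤ N i
  NN : ∀ i, 128 * N i ≤ N (i + 1)
  dvd : ∀ i, 16 ∣ N i
  grow : ∀ c : ℕ, ∃ i, c * 256 ^ i * N i < N (i + 1)
  inv : ∀ i w w', Eqv ρ w w' → φ i w = φ i w'
  E : ∀ i p q s, ¬ Zr ρ (p ++ q ++ s) → m i ≤ q.length →
    φ i q ≡ φ i (p ++ q ++ s) + p.length [ZMOD N i]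

/-- A finitely presented group `G`, generated by elements `y w` (`w` a short nonempty word),
mapping to the units `1 + w` of the algebra, with Steinberg-type relations for all words. -/
structure StData {X : Type} (ρ : Rules X) where
  G : Type
  [grp : Group G]
  fp : Group.IsFinitelyPresented G
  π : G →* (B ρ (ZMod 2))ˣ
  y : List X → G
  π_y : ∀ w, w ≠ [] → ((π (y w) : (B ρ (ZMod 2))ˣ) : B ρ (ZMod 2)) = 1 + wd ρ (ZMod 2) w
  y_eqv : ∀ w w', Eqv ρ w w' → y w = y w'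
  y_zr : ∀ w, Zr ρ w → y w = 1
  y_sq : ∀ w, w ≠ [] → y w * y w = 1
  st : ∀ a b, a ≠ [] → b ≠ [] → Zr ρ (b ++ a ++ b) →
    y a * y b * (y a)⁻¹ = y b * y (a ++ b) * y (b ++ a) * y (a ++ b ++ a)
  gen : Subgroup.closure {g | ∃ w : List X, w ≠ [] ∧ w.length ≤ 8 ∧ y w = g} = ⊤

attribute [instance] StData.grp

/-- All matrices with entries in the span of the nonempty words are nilpotent. -/
def MatNil {X : Type} (ρ : Rules X) : Prop :=
  ∀ (l : ℕ) (A : Matrix (Fin l) (Fin l) (B ρ (ZMod 2))),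
    (∀ i j, A i j ∈ Sp ρ (ZMod 2) (fun w => w ≠ [])) → IsNilpotent A

/-- There are arbitrarily long nonzero words. -/
def Long {X : Type} (ρ : Rules X) : Prop := ∀ n, ∃ w : List X, n ≤ w.length ∧ ¬ Zr ρ w

end Crest.Agent.R176
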