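import Crest.Agent.R176.Defs

/-!
# 176-F: the two final statements from the interfaces

`algebra_final`: `R = B ρ (ZMod 2)`.  Grading `𝒜 n = Sp (|w| = n)` (or `(range ι)^n`); build the
`GradedAlgebra` with `GradedAlgebra.ofAlgHom` (`liftB` sending a letter to `DirectSum.of _ 1`, as in
Mathlib's `TensorAlgebra.gradedAlgebra`/`ExteriorAlgebra` grading), or with `exists_proj` for
`|w| = n` and `span_wd`.  `𝒜 0 = 1`.  `Infinite`: nonzero words of different lengths are different
elements (`eqv_of_wd_eq`; prefixes of nonzero words are nonzero).  Presentation: `X ≃ Fin m`, `rel`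
= finite set of pairs `(ι x ι y, ι x' ι y')`, `(ι x ι y, 0)`; build the `AlgEquiv` from `liftB` and
`RingQuot.liftAlgHom`.  `proj 0 b = 0 ⇒ b ∈ Sp (w ≠ [])`.

`group_final`: `G = D.G`.  Every `π g - 1` lies in `Sp (w ≠ [])` (`gen`, `y_sq`, `π_y`), is nilpotent
(`MatNil` for `1 × 1` matrices), so `(π g)^(2^n) = 1 + (π g - 1)^(2^n) = 1` in characteristic 2.
Infinite: `π (y w) = 1 + wd w`.  Residually finite: `I d = Sp (d ≤ |w|)` is a two-sided ideal with
finite quotient (spanned over `ZMod 2` by the finitely many shorter words), every nonzero element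
avoids some `I d` (`exists_proj`/`exists_coef`, `span_wd`);
`Group.residuallyFinite_of_forall_exists_finite_monoidHom` (or the subgroup
`{g | π g - 1 ∈ I d}` and `residuallyFinite_iff_exists_finiteIndex`).
-/

set_option autoImplicit false

namespace Crest.Agent.R176

namespace FinAux

variable {X : Type} {ρ : Rules X} {k : Type} [CommRing k]

theorem Sp_ind {P : List X → Prop} (N : Submodule k (B ρ k)) (h : ∀ w, P w → wd ρ k w ∈ N) :
    Sp ρ k P ≤ N := Submodule.span_le.2 (by rintro _ ⟨w, hw, rfl⟩; exact h w hw)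

theorem top_ind (N : Submodule k (B ρ k)) (h : ∀ w, wd ρ k w ∈ N) (b : B ρ k) : b ∈ N := by
  have : Submodule.span k (Set.range (wd ρ k)) ≤ N :=
    Submodule.span_le.2 (by rintro _ ⟨w, rfl⟩; exact h w)
  rw [span_wd] at this
  exact this Submodule.mem_top

theorem Sp_mono {P Q : List X → Prop} (h : ∀ w, P w → Q w) : Sp ρ k P ≤ Sp ρ k Q :=
  Sp_ind _ fun w hw => wd_mem_Sp (h w hw)

theorem mem_true (b : B ρ k) : b ∈ Sp ρ k (fun _ => True) :=
  top_ind _ (fun _ => wd_mem_Sp trivial) b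

theorem mul_mem {P Q R : List X → Prop} (h : ∀ u v, P u → Q v → R (u ++ v)) {a b : B ρ k}
    (ha : a ∈ Sp ρ k P) (hb : b ∈ Sp ρ k Q) : a * b ∈ Sp ρ k R := by
  have h1 := Submodule.mul_mem_mul ha hb
  rw [Sp, Sp, Submodule.span_mul_span] at h1
  refine Submodule.span_mono ?_ h1
  rintro _ ⟨_, ⟨u, hu, rfl⟩, _, ⟨v, hv, rfl⟩, rfl⟩
  exact ⟨u ++ v, h u v hu hv, by simp⟩

theorem exists_len (P : ℕ → Prop) : ∃ F : B ρ k →ₗ[k] B ρ k,
    (∀ b ∈ Sp ρ k (fun w => P w.length), F b = b) ∧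
    (∀ b ∈ Sp ρ k (fun w => ¬ P w.length), F b = 0) ∧
    (∀ b, F b ∈ Sp ρ k (fun w => P w.length)) ∧
    ∀ b, b - F b ∈ Sp ρ k (fun w => ¬ P w.length) := by
  obtain ⟨F, hF⟩ := exists_proj (ρ := ρ) (k := k) (fun w => P w.length)
    fun w w' h => by rw [h.length]
  refine ⟨F, fun b hb => ?_, fun b hb => ?_, fun b => ?_, fun b => ?_⟩
  · exact Sp_ind (LinearMap.eqLocus F LinearMap.id) (fun w hw => by simp [hF, hw]) hb
  · exact Sp_ind (LinearMap.ker F) (fun w hw => by simp [hF, hw]) hb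
  · refine top_ind (Submodule.comap F (Sp ρ k fun w => P w.length)) (fun w => ?_) b
    rw [Submodule.mem_comap, hF]
    split_ifs with h
    exacts [wd_mem_Sp h, zero_mem _]
  · refine top_ind (Submodule.comap (LinearMap.id - F) (Sp ρ k fun w => ¬ P w.length))
      (fun w => ?_) b
    rw [Submodule.mem_comap, LinearMap.sub_apply, LinearMap.id_apply, hF]
    split_ifs with h
    · simp
    · simpa using wd_mem_Sp h

theorem exists_seq [Nontrivial k] (hl : Long ρ) : ∃ w : ℕ → List X, (∀ n, w n ≠ []) ∧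
    Function.Injective fun n => wd ρ k (w n) := by
  have : ∀ n, ∃ w : List X, w.length = n + 1 ∧ ¬ Zr ρ w := fun n => by
    obtain ⟨w, h1, h2⟩ := hl (n + 1)
    exact ⟨w.take (n + 1), by simp [h1], fun h => h2 (h.of_infix (List.take_prefix _ _).isInfix)⟩
  choose w h1 h2 using this
  refine ⟨w, fun n h => by simpa [h] using h1 n, fun n m h => ?_⟩
  have := (eqv_of_wd_eq (h2 m) h).length
  rw [h1, h1] at this
  omega

theorem isInternal : DirectSum.IsInternal fun n : ℕ => Sp ρ k (fun w => w.length = n) := by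
  rw [DirectSum.isInternal_submodule_iff_iSupIndep_and_iSup_eq_top]
  refine ⟨fun i => ?_, eq_top_iff.2 fun b _ => top_ind _ (fun w => ?_) b⟩
  · obtain ⟨F, h1, h2, -⟩ := exists_len (ρ := ρ) (k := k) (· = i)
    refine Submodule.disjoint_def.2 fun b hb hb' => ?_
    have : (⨆ j, ⨆ (_ : j ≠ i), Sp ρ k fun w => w.length = j) ≤ Sp ρ k fun w => ¬ w.length = i :=
      iSup₂_le fun j hj => Sp_mono fun w hw => hw ▸ hj
    rw [← h1 b hb, h2 b (this hb')]
  · exact Submodule.mem_iSup_of_mem w.length (wd_mem_Sp rfl)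

/-- The grading by the length. -/
@[reducible] noncomputable def grading :
    GradedAlgebra fun n : ℕ => Sp ρ k (fun w => w.length = n) :=
  { isInternal.chooseDecomposition with
    one_mem := by simpa using wd_mem_Sp (ρ := ρ) (k := k) (P := fun w => w.length = 0) (w := []) rfl
    mul_mem := fun _ _ _ _ ha hb => mul_mem (fun u v hu hv => by simp [hu, hv]) ha hb }

theorem present [Finite X] : ∃ (m : ℕ) (rel : Finset (FreeAlgebra k (Fin m) × FreeAlgebra k (Fin m))),
    Nonempty (B ρ k ≃ₐ[k] RingQuot fun x y : FreeAlgebra k (Fin m) => (x, y) ∈ rel) := by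
  classical
  obtain ⟨m, ⟨e⟩⟩ := Finite.exists_equiv_fin X
  have := Fintype.ofFinite X
  let rel : Finset (FreeAlgebra k (Fin m) × FreeAlgebra k (Fin m)) :=
    (Finset.univ.filter fun t : X × X × Option (X × X) => ρ t.1 t.2.1 t.2.2).image fun t =>
      (FreeAlgebra.ι k (e t.1) * FreeAlgebra.ι k (e t.2.1),
        t.2.2.elim 0 fun z => FreeAlgebra.ι k (e z.1) * FreeAlgebra.ι k (e z.2))
  let r := fun x y : FreeAlgebra k (Fin m) => (x, y) ∈ rel
  let f : B ρ k →ₐ[k] RingQuot r := liftB (fun x => RingQuot.mkAlgHom k r (FreeAlgebra.ι k (e x)))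
    (fun x y x' y' h => by
      rw [← map_mul, ← map_mul]
      exact RingQuot.mkAlgHom_rel k (Finset.mem_image.2 ⟨(x, y, some (x', y')), by simpa, rfl⟩))
    (fun x y h => by
      rw [← map_mul, ← map_zero (RingQuot.mkAlgHom k r)]
      exact RingQuot.mkAlgHom_rel k (Finset.mem_image.2 ⟨(x, y, none), by simpa, rfl⟩))
  let g : RingQuot r →ₐ[k] B ρ k := RingQuot.liftAlgHom k
    ⟨FreeAlgebra.lift k fun i => lt ρ k (e.symm i), fun a b h => by
      obtain ⟨⟨x, y, z⟩, h1, h2⟩ := Finset.mem_image.1 h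
      obtain ⟨rfl, rfl⟩ := Prod.ext_iff.1 h2
      rcases z with _ | ⟨x', y'⟩
      · simpa using lt_zr (k := k) (Finset.mem_filter.1 h1).2
      · simpa using lt_mv (k := k) (Finset.mem_filter.1 h1).2⟩
  have hg : ∀ i, g (RingQuot.mkAlgHom k r (FreeAlgebra.ι k i)) = lt ρ k (e.symm i) := fun i => by
    simp [g, RingQuot.liftAlgHom_mkAlgHom_apply]
  have hf : ∀ x, f (lt ρ k x) = RingQuot.mkAlgHom k r (FreeAlgebra.ι k (e x)) := fun x =>
    liftB_lt _ _ _ x
  refine ⟨m, rel, ⟨AlgEquiv.ofAlgHom f g ?_ ?_⟩⟩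
  · refine RingQuot.ringQuot_ext' k _ _ (FreeAlgebra.hom_ext (funext fun i => ?_))
    change f (g (RingQuot.mkAlgHom k r (FreeAlgebra.ι k i))) =
      RingQuot.mkAlgHom k r (FreeAlgebra.ι k i)
    rw [hg, hf, e.apply_symm_apply]
  · refine RingQuot.ringQuot_ext' k _ _ (FreeAlgebra.hom_ext (funext fun x => ?_))
    change g (f (lt ρ k x)) = lt ρ k x
    simp [hg, hf]

theorem one_add_pow {R : Type*} [Ring R] (h2 : (2 : R) = 0) (x : R) (n : ℕ) :
    (1 + x) ^ 2 ^ n = 1 + x ^ 2 ^ n := by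
  induction n with
  | zero => simp
  | succ n ih =>
    rw [pow_succ, pow_mul, pow_mul, ih]
    have : (1 + x ^ 2 ^ n) ^ 2 = 1 + 2 * x ^ 2 ^ n + (x ^ 2 ^ n) ^ 2 := by noncomm_ring
    rw [this, h2, zero_mul, add_zero]

/-- The congruence subgroups. -/
def cong {G : Type} [Group G] (π : G →* (B ρ k)ˣ) (d : ℕ) : Subgroup G where
  carrier := {g | (π g : B ρ k) - 1 ∈ Sp ρ k fun w => ¬ w.length < d}
  one_mem' := by simp
  mul_mem' := fun {g h} hg hh => by
    have e : (π (g * h) : B ρ k) - 1 = π g * (π h - 1) + (π g - 1) := by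
      rw [map_mul, Units.val_mul, mul_sub, mul_one]; abel
    rw [Set.mem_ofPred_eq, e]
    exact add_mem (mul_mem (fun u v _ hv => by simp at hv ⊢; omega) (mem_true _) hh) hg
  inv_mem' := fun {g} hg => by
    have e : (π g⁻¹ : B ρ k) - 1 = -(π g⁻¹ * (π g - 1)) := by
      rw [mul_sub, ← Units.val_mul, ← map_mul, inv_mul_cancel, map_one, Units.val_one, mul_one,
        neg_sub]
    rw [Set.mem_ofPred_eq, e]
    exact neg_mem (mul_mem (fun u v _ hv => by simp at hv ⊢; omega) (mem_true _) hg)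

theorem mem_cong {G : Type} [Group G] (π : G →* (B ρ k)ˣ) (d : ℕ) (g : G) :
    g ∈ cong π d ↔ (π g : B ρ k) - 1 ∈ Sp ρ k fun w => ¬ w.length < d := Iff.rfl

theorem cong_index [Finite X] [Finite k] {G : Type} [Group G] (π : G →* (B ρ k)ˣ) (d : ℕ) :
    (cong π d).FiniteIndex := by
  obtain ⟨F, -, -, h3, h4⟩ := exists_len (ρ := ρ) (k := k) (· < d)
  have : Module.Finite k (Sp ρ k fun w => w.length < d) :=
    Module.Finite.span_of_finite k ((List.finite_length_lt X d).image (wd ρ k))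
  have : Finite (Sp ρ k fun w => w.length < d) := Module.finite_of_finite k
  have : Finite (G ⧸ cong π d) := by
    refine Finite.of_injective (fun c : G ⧸ cong π d =>
      (⟨F (π c.out), h3 _⟩ : Sp ρ k fun w => w.length < d)) fun c c' h => ?_
    rw [← c.out_eq, ← c'.out_eq]
    refine QuotientGroup.eq.2 ?_
    have h' : F (π c.out) = F (π c'.out) := congrArg Subtype.val h
    have h5 := h4 ((π c'.out : B ρ k) - π c.out)
    rw [map_sub, h', sub_self, sub_zero] at h5
    have e : (π (c.out⁻¹ * c'.out) : B ρ k) - 1 = π c.out⁻¹ * (π c'.out - π c.out) := by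
      rw [mul_sub, ← Units.val_mul, ← Units.val_mul, ← map_mul, ← map_mul]; simp
    rw [mem_cong, e]
    exact mul_mem (fun u v _ hv => by simp at hv ⊢; omega) (mem_true _) h5
  exact Subgroup.finiteIndex_of_finite_quotient

theorem exists_notMem {b : B ρ k} (hb : b ≠ 0) : ∃ d, b ∉ Sp ρ k fun w => ¬ w.length < d := by
  let S : ℕ → Submodule k (B ρ k) := fun d => Sp ρ k fun w => w.length < d
  have hS : Monotone S := fun i j hij => Sp_mono fun w hw => lt_of_lt_of_le hw hij
  have h0 : ∀ w : List X, wd ρ k w ∈ S (w.length + 1) := fun w => wd_mem_Sp (Nat.lt_succ_self _)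
  have : b ∈ iSup S := top_ind _ (fun w => Submodule.mem_iSup_of_mem (w.length + 1) (h0 w)) b
  obtain ⟨d, hd⟩ := (Submodule.mem_iSup_of_directed S hS.directed_le).1 this
  obtain ⟨F, h1, h2, -⟩ := exists_len (ρ := ρ) (k := k) (· < d)
  exact ⟨d, fun h => hb (by rw [← h1 b hd, h2 b h])⟩

end FinAux

open FinAux

theorem algebra_final {X : Type} [Finite X] (ρ : Rules X) (hn : MatNil ρ) (hl : Long ρ) :
    ∃ (R : Type) (_ : Ring R) (_ : Algebra (ZMod 2) R) (𝒜 : ℕ → Submodule (ZMod 2) R)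
      (_ : GradedAlgebra 𝒜),
      Infinite R ∧ 𝒜 0 = 1 ∧
      (∃ (m : ℕ) (rel : Finset (FreeAlgebra (ZMod 2) (Fin m) × FreeAlgebra (ZMod 2) (Fin m))),
        Nonempty (R ≃ₐ[ZMod 2] RingQuot fun x y : FreeAlgebra (ZMod 2) (Fin m) => (x, y) ∈ rel)) ∧
      ∀ (l : ℕ) (A : Matrix (Fin l) (Fin l) R), (∀ i j, GradedRing.proj 𝒜 0 (A i j) = 0) →
        IsNilpotent A := by
  classical
  obtain ⟨w, -, hw⟩ := exists_seq (k := ZMod 2) hl
  let := grading (ρ := ρ) (k := ZMod 2)
  refine ⟨B ρ (ZMod 2), inferInstance, inferInstance, _, grading, Infinite.of_injective _ hw, ?_,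
    present, fun l A hA => hn l A fun i j => ?_⟩
  · rw [Submodule.one_eq_span, Sp]
    congr 1
    ext b
    simp [eq_comm]
  · rw [← DirectSum.sum_support_decompose (fun n : ℕ => Sp ρ (ZMod 2) fun w => w.length = n)
      (A i j)]
    refine Submodule.sum_mem _ fun n _ => ?_
    rcases Nat.eq_zero_or_pos n with rfl | h
    · have := hA i j
      rw [GradedRing.proj_apply] at this
      rw [this]
      exact zero_mem _
    · exact Sp_mono (fun w hw h0 => by simp [h0] at hw; omega) (SetLike.coe_mem _)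

theorem group_final {X : Type} [Finite X] (ρ : Rules X) (hn : MatNil ρ) (hl : Long ρ)
    (D : StData ρ) (hinj : Function.Injective D.π) :
    ∃ (G : Type) (_ : Group G),
      Infinite G ∧ Group.IsFinitelyPresented G ∧ Group.ResiduallyFinite G ∧ IsPGroup 2 G := by
  obtain ⟨w, hw0, hw⟩ := exists_seq (k := ZMod 2) hl
  refine ⟨D.G, inferInstance, Infinite.of_injective (fun n => D.y (w n)) fun n m h => hw ?_, D.fp,
    Group.residuallyFinite_iff_exists_finiteIndex.2 fun g hg => ?_, fun g => ?_⟩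
  · have h1 := D.π_y _ (hw0 n)
    rw [show D.y (w n) = D.y (w m) from h, D.π_y _ (hw0 m)] at h1
    exact (add_left_cancel h1).symm
  · obtain ⟨d, hd⟩ := exists_notMem (b := (D.π g : B ρ (ZMod 2)) - 1) fun h => hg (hinj (by
      rw [map_one]; exact Units.ext (sub_eq_zero.1 h)))
    exact ⟨cong D.π d, cong_index _ d, hd⟩
  · have h1 : g ∈ cong D.π 1 := by
      refine (D.gen.ge.trans ((Subgroup.closure_le _).2 ?_)) (Subgroup.mem_top g)
      rintro _ ⟨w, h0, -, rfl⟩
      rw [SetLike.mem_coe, mem_cong, D.π_y w h0, add_sub_cancel_left]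
      exact wd_mem_Sp (by simpa using h0)
    obtain ⟨N, hN⟩ := hn 1 (Matrix.scalar (Fin 1) ((D.π g : B ρ (ZMod 2)) - 1)) fun i j => by
      rw [Subsingleton.elim j i, Matrix.scalar_apply, Matrix.diagonal_apply_eq]
      exact Sp_mono (fun w hw => by simpa using hw) h1
    rw [← map_pow, ← map_zero (Matrix.scalar (Fin 1)), Matrix.scalar_inj] at hN
    refine ⟨N, hinj (Units.ext ?_)⟩
    have h2 : (2 : B ρ (ZMod 2)) = 0 := by
      rw [← map_ofNat (algebraMap (ZMod 2) (B ρ (ZMod 2))) 2, show (2 : ZMod 2) = 0 from rfl,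
        map_zero]
    have := one_add_pow h2 ((D.π g : B ρ (ZMod 2)) - 1) N
    rw [add_sub_cancel, pow_eq_zero_of_le (Nat.lt_two_pow_self).le hN, add_zero] at this
    rw [map_pow, Units.val_pow_eq_pow_val, this, map_one, Units.val_one]

end Crest.Agent.R176
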