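import Crest.Agent.R176.G1b

/-!
# 176-G1: the finitely presented group with Steinberg-type relations

Notation: `|w|` length, `R = B ρ (ZMod 2)`, `adj j u v : φ j v ≡ φ j u + |u| [ZMOD N j]`
("`v` may follow `u` at level `j`"), `c(P,Q) = Q⁻¹ * P * Q * P⁻¹`, capital letters `A = y a` etc.

**Facts from `Ph`.** `0 < m j`, `j < m j`-type growth, `m (j+1) * 128 ≤ N j`, `N j ≥ 256`.
(E1) `¬Zr (u++v)`, `m j ≤ |u|` ⇒ `φ j u ≡ φ j (u++v)`;  `m j ≤ |v|` ⇒ `φ j v ≡ φ j (u++v) + |u|`;
hence both ⇒ `adj j u v`.  For `n ≥ k ≥ 1` there is `J` with `k * m J ≤ n < k * m (J+1)`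
(`Nat.findGreatest`, `m 0 = 1`).  (SQ) `w ≠ []` ⇒ `Zr (w++w)` (level `J` with
`m J ≤ |w| < m (J+1)`: `N J ∣ |w|` impossible).  So `(1 + wd w)^2 = 1` (char 2): units `U w`.

**The group.** `G = PresentedGroup rels` on `{w : List X // w ≠ [] ∧ w.length ≤ 8}` (finite,
`List.finite_length_le`), `rels` = finite set of: `x_w x_w'⁻¹` (`Eqv w w'`), `x_w` (`Zr w`), `x_w^2`,
`x_a x_b x_a⁻¹ x_{ab}⁻¹ x_b⁻¹` (`|a|+|b| ≤ 8`, `Zr (b++a)`); (e.g. rels = union of images of finite
types; instance at Mathlib/GroupTheory/FinitelyPresentedGroup.lean:152).  `π = PresentedGroup.toGroup`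
with `x_w ↦ U w` (in `R`: `ba = 0, aa = 0 = bb ⇒ (1+a)(1+b)(1+a) = (1+b)(1+ab)`).
Define `y` by recursion on length: `y [] = 1`; `|w| ≤ 8`: generator; `Zr w`: `1`; otherwise
`y w = c(y (take h w), y (drop h w))`, `h = |w|/2`.  `π (y w) = U w` by induction (for nonzero
`w = ab` with the half cut, `ba` is zero: level `J` with `8 m J ≤ |w|-1 < 8 m (J+1)`).

**Stage `S(L)`** (`L ≥ 8`): (Y0) `|w| ≤ L`: `Eqv w w' → y w = y w'`, `Zr w → y w = 1`;
(R2) `|a|+|b| ≤ L`, `m j ≤ |a|,|b|`, `¬adj j b a` ⇒ `A B A⁻¹ = B * y(a++b)`.  `S(8)` from `rels`.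

(R3 from `S(L)`): `|u|,|v| ≤ L`, `8 m j ≤ L`, `m j ≤ |u|,|v|`, `¬adj j u v`, `¬adj j v u` ⇒ `U,V`
commute.  Induction on `|u|+|v|`: if `≤ L` use R2 (`u++v` is zero).  Else split the longer one, say
`u = u1 ++ u2` (nonzero wlog, `|u| > L/2 ≥ 4 m j`), cut `p ∈ {h-1,h,h+1}`, `h=|u|/2`, avoiding
`φ u + p ≡ φ v` and `φ u + p ≡ φ v + |v|` (mod `N j ≥ 3`, each excludes at most one `p`); then `u1,u2` are
non-adjacent to `v` both ways, and `U = c(U1,U2)` by R2 at a level `j'` with
`4 m j' ≤ |u| < 4 m (j'+1)`.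

(Group lemma CM) `[A,B]=1`, `AEA⁻¹=EX`, `EBE⁻¹=BY`, `X∥E`, `X∥Y`, `Y∥B` ⇒ `c(A,Y)=c(X,B)`.
(`Y=B⁻¹EBE⁻¹`, `Z=c(X,B)`: `AYA⁻¹ = Y·EZE⁻¹`, `EZE⁻¹ = Y⁻¹ZY = Z`.)

Step `S(L) → S(L+1)`.  Fix `J` with `8 m J ≤ L < 8 m (J+1)` (so `L+1 < N J / 8`), words `w` of
length `L+1`, `C(a,b) = c(A,B)`.  A cut is balanced if both sides have length `≥ m J`.
* (CMJ) `w = a e b`, all three of length `≥ m J`, `adj J a e`, `adj J e b` ⇒
  `C(a, eb) = C(ae, b)`: CM with `X = y(ae)`, `Y = y(eb)`; `[A,B]`, `AEA⁻¹`, `EBE⁻¹` by R2(L),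
  `X∥E, X∥Y, Y∥B` by R3 at level `J` (if `ae` is zero `X = 1`; else `φ(ae) ≡ φ a`; same for `eb`);
  all needed non-adjacencies say `N J ∤ n` for some `0 < n ≤ L+1`.
* `Val w g := ∃` balanced cut `(a,b)` of `w`, `a,b` nonzero, `adj J a b`, `C(a,b) = g`.
  If `g ≠ 1` and `Val w g` then EVERY balanced cut of `w` has these properties (move the cut by CMJ
  when the two cut points differ by `≥ m J`; a zero side would give `C = 1`; otherwise pass through the
  cut `m J` or `|w| - m J`).  Hence `Val · g` is invariant under `Step` both ways (choose a balanced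
  cut not splitting the two changed letters; use Y0(L), `Ph.inv`), and excludes zero pairs
  (`not_zr_of_inv`).  This gives Y0(L+1), and: (V) every balanced cut `(a,b)` of `w` with `a,b`
  nonzero and `adj J a b` has `C(a,b) = y w` (both sides `1` if `w` is zero).
* R2(L+1) for `(a,b)` at level `j0`, wlog `a,b` nonzero; want `C(a,b) = y(ab)`.
  Balanced: if `adj J a b` use (V); else if `adj J b a`, (V) for the zero word `ba` gives
  `C(b,a) = 1`, so `A,B` commute, and `ab` is zero; else R3.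
  `|a| < m J` (so `j0 < J`): if `¬adj j0 a b` use R3 at `j0`.  Else write `b = e b'` with
  `|e| ∈ {m J, m J+1, m J+2}` such that `N j0 ∤ |e|`, `N j0 ∤ |a|+|e|`; CM gives `C(a,eb') = C(ae,b')`
  (`[A,B']`, `AEA⁻¹` by R2(L) at level `j0`, note `N j0 ∤ |w|` since `adj j0 a b`, `¬adj j0 b a`;
  the rest at level `J`, if `ae` is nonzero `φ J e ≡ φ J (ae) + |a|`); if `ae` is zero both sides are
  `1`, else (V).  `|b| < m J`: symmetric, `a = a' e`, `N j0 ∤ |e|`, `N j0 ∤ |e|+|b|`; for `Y∥B` use
  R2(L) for the pair `(eb, b)` at level `j0` (`|e|+2|b| ≤ L`, `ebb` is zero by SQ).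

So Y0, R2 hold for all lengths, and R3 for all lengths.
**`y_sq`**: induction; long nonzero `w = ab` (half cut): `A B A⁻¹ = B Z`, `B² = 1`, `Z∥B` (R3) ⇒ `Z²=1`.
**`st`** for `|a| ≤ |b|`: (i) `¬adj j b a` for some `j` with `m j ≤ |a|,|b|`: R2 (`ba`, `aba` zero).
(ii) `¬adj j a b`: `A B A⁻¹ = B y(ba)`: R2 gives `B A B⁻¹ = A T`, `T = y(ba)`; if `ba` is nonzero, `T∥A`
(R2 for `(ba,a)`, `baa` zero) and `T∥B` (R2 for `(b,ba)`), use involutions. (i),(ii) need no
length comparison.  If `|b| < 8`, (i) or (ii) holds at level 0.  (iii) `|b| ≥ 8`, `b` nonzero: cut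
`b = b1 b2` near the middle with `¬adj 0 b1 a`, `¬adj 0 a b2`; `A B1 A⁻¹ = B1 y(ab1)`,
`A B2 A⁻¹ = B2 y(b2a)`, `B = c(B1,B2)`; at the level `J'` with `8 m J' ≤ |b| < 8 m (J'+1)` all words
`u ∈ {b1, ab1}`, `v ∈ {b2, b2a}`, `uv` are zero or have the expected phase, so R2 gives
`U V U⁻¹ = V y(uv)`, the `u`'s commute, the `v`'s commute, and the `y(uv)` commute with all of them;
expand `c(B1 P, B2 Q) = y(b) y(ab) y(ba) y(aba)`.
For `|b| < |a|`: `aba` is zero (level of `|a|`), the case above for `(b,a)` gives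
`B A B⁻¹ = A y(ba) y(ab) y(bab)` with `y(bab) = 1` by hypothesis; so `ABA = y(ba) y(ab) B`, and
`(ABA)² = 1` turns this into `B y(ab) y(ba)`.
**`gen`**: generators are `y w`, `|w| ≤ 8` (`PresentedGroup.closure_range_of`).
-/

set_option autoImplicit false

namespace Crest.Agent.R176

namespace G1

open List

variable {X : Type} {ρ : Rules X} {P : Ph ρ} {G : Type} [Group G] {y : List X → G}

/-- proves `x ≠ z` from `z = x + n` or `x = z + n` -/
local macro "nee " n:term : tactic => `(tactic| first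
  | exact ne_of $n (by omega) (by omega) (by simp only [length_append]; push_cast; ring1)
  | exact ne_of $n (by omega) (by omega) (by push_cast; ring1)
  | exact (ne_of $n (by omega) (by omega) (by simp only [length_append]; push_cast; ring1)).symm
  | exact (ne_of $n (by omega) (by omega) (by push_cast; ring1)).symm)

section All
variable (S : ∀ L, St P y (L + 8))
include S

theorem zrA {w : List X} (h : Zr ρ w) : y w = 1 := (S w.length).zr w (by omega) h

theorem r2A {j : ℕ} {a b : List X} {α β : ZMod (P.N j)} (ha : Has P j a α) (hb : Has P j b β)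
    (h : α ≠ β + b.length) : cc (y a) (y b) = y (a ++ b) :=
  (S (a.length + b.length)).r2 j a b α β (by omega) ha hb h

theorem commA {j : ℕ} {u v : List X} {α β : ZMod (P.N j)} (hu : Has P j u α) (hv : Has P j v β)
    (h3 : β ≠ α + u.length) (h4 : α ≠ β + v.length) : Commute (y u) (y v) :=
  (S (8 * P.m j + u.length + v.length)).comm (by omega) (by omega) (by omega) hu hv h3 h4

theorem sqA (h8 : ∀ w, w ≠ [] → w.length ≤ 8 → y w * y w = 1) :
    ∀ (n : ℕ) (w : List X), w.length ≤ n → w ≠ [] → y w * y w = 1 := by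
  intro n
  induction n with
  | zero => intro w h hw; exact h8 w hw (by omega)
  | succ n ih =>
    intro w h hw
    by_cases h1 : w.length ≤ 8
    · exact h8 w hw h1
    by_cases hz : Zr ρ w
    · rw [zrA S hz, mul_one]
    obtain ⟨a, b, rfl, h2⟩ := split_at w (p := w.length / 2) (by omega)
    rw [length_append] at *
    obtain ⟨j, α, a0, a1, a2, a3⟩ := cut_level P hz (by omega) (by omega) (by omega)
    have e1 : cc (y a) (y b) = y (a ++ b) := r2A S a1 a2 (by nee (a.length + b.length))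
    have e2 : Commute (y (a ++ b)) (y b) :=
      commA S a0 a2 (by nee b.length) (by nee (a.length + b.length))
    have e3 := ih b (by omega) (length_pos_iff.1 (by omega))
    have e4 := conj_eq (y a) (y b)
    rw [e1] at e4
    calc y (a ++ b) * y (a ++ b) = y b * (y b * y (a ++ b)) * y (a ++ b) := by
          rw [← mul_assoc, e3, one_mul]
      _ = (y a * y b * (y a)⁻¹) * (y a * y b * (y a)⁻¹) := by
          rw [e4]; conv_lhs => rw [← e2.eq]
          group
      _ = y a * (y b * y b) * (y a)⁻¹ := by group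
      _ = 1 := by rw [e3]; group

theorem st_i {j : ℕ} {a b : List X} {α β : ZMod (P.N j)} (ha : Has P j a α) (hb : Has P j b β)
    (h : α ≠ β + b.length) : y a * y b * (y a)⁻¹ = y b * y (a ++ b) := by
  rw [conj_eq, r2A S ha hb h]

theorem st_ii (hsq : ∀ w, w ≠ [] → y w * y w = 1) {j : ℕ} {a b : List X} {α β : ZMod (P.N j)}
    (ha0 : a ≠ []) (hb0 : b ≠ []) (ha : Has P j a α) (hb : Has P j b β)
    (h : β ≠ α + a.length) : y a * y b * (y a)⁻¹ = y b * y (b ++ a) := by
  have e1 := st_i S hb ha h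
  have e2 : Commute (y b) (y (b ++ a)) := by
    by_cases h1 : α = β + b.length
    · rw [← cc_eq_one, r2A S hb (hb.right a) fun e => h (by
        rw [h1]; simp only [length_append] at e; push_cast at e; linear_combination e),
        ← append_assoc]
      exact zrA S ((sq_zr (P := P) hb0).append_right a)
    · rw [zrA S (hb.zr ha h1)]; exact Commute.one_right _
  have e3 : (y a)⁻¹ = y a := inv_eq_of_mul_eq_one_right (hsq a ha0)
  calc y a * y b * (y a)⁻¹ = (y a)⁻¹ * (y b * y a * (y b)⁻¹) * y b := by rw [e3]; group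
    _ = _ := by rw [e1, e2.eq]; group

theorem st_le (hsq : ∀ w, w ≠ [] → y w * y w = 1) {a b : List X} (ha0 : a ≠ []) (hb0 : b ≠ [])
    (hl : a.length ≤ b.length) :
    y a * y b * (y a)⁻¹ = y b * y (a ++ b) * y (b ++ a) * y (a ++ b ++ a) := by
  have la := length_pos_iff.2 ha0
  have m0 := P.m0
  have ha := has_self (P := P) (j := 0) (u := a) (by omega)
  have hb := has_self (P := P) (j := 0) (u := b) (by omega)
  generalize ph P 0 a = α at ha
  generalize ph P 0 b = β at hb
  by_cases h1 : α = β + b.length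
  swap
  · have := hb.zr ha h1
    rw [st_i S ha hb h1, zrA S this, append_assoc, zrA S (this.append_left a), mul_one, mul_one]
  by_cases h2 : β = α + a.length
  swap
  · have := ha.zr hb h2
    rw [st_ii S hsq ha0 hb0 ha hb h2, zrA S this, zrA S (this.append_right a), mul_one, mul_one]
  have hN := N_ge P 0
  have hlen : 64 ≤ b.length := by
    by_contra hc
    exact ne_of (a.length + b.length) (by omega) (by omega) rfl
      (show α = α + (a.length + b.length : ℕ) by push_cast; linear_combination h1 + h2)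
  by_cases hz : Zr ρ b
  · rw [zrA S hz, zrA S (hz.append_left a), zrA S (hz.append_right a), zrA S (hz.ctx a a)]
    group
  obtain ⟨p, p1, p2, p3, p4⟩ := avoid (j := 0) 0 (b.length : ZMod (P.N 0)) (b.length / 2)
  obtain ⟨b, c, rfl, rfl⟩ := split_at b (p := p) (by omega)
  rw [length_append] at *
  have b0 := hb.pre hz (by omega)
  have c0 := hb.suf hz (by omega)
  have e1 := st_i S ha b0 fun e => p4 (by linear_combination h1 - e)
  have e2 := st_ii S hsq ha0 (length_pos_iff.1 (by omega)) ha c0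
    fun e => p3 (by linear_combination e - h2)
  obtain ⟨J, γ, B, b1, c1, hJ⟩ := cut_level P hz (by omega) (by omega) (by omega)
  have hJ' : 2 * a.length + b.length + c.length < P.N J := by omega
  have ab : Has P J (a ++ b) (γ - a.length) := Has.left a (b1.cast (by ring))
  have ca := c1.right a
  have abc : Has P J (a ++ (b ++ c)) (γ - a.length) := Has.left a (B.cast (by ring))
  have abca := abc.right a
  have r1 : cc (y b) (y c) = y (b ++ c) := r2A S b1 c1 (by nee (b.length + c.length))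
  have r2 : cc (y (a ++ b)) (y c) = y (a ++ (b ++ c)) := by
    rw [← append_assoc]; exact r2A S ab c1 (by nee (a.length + b.length + c.length))
  have r3 : cc (y b) (y (c ++ a)) = y (b ++ c ++ a) := by
    rw [append_assoc]; exact r2A S b1 ca (by nee (a.length + b.length + c.length))
  have r4 : cc (y (a ++ b)) (y (c ++ a)) = y (a ++ (b ++ c) ++ a) := by
    rw [r2A S ab ca (by nee (2 * a.length + b.length + c.length))]; simp
  have k1 : Commute (y (b ++ c)) (y (c ++ a)) :=
    commA S B ca (by nee c.length) (by nee (a.length + b.length + c.length))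
  have k2 : Commute (y (a ++ (b ++ c))) (y (c ++ a)) :=
    commA S abc ca (by nee c.length) (by nee (2 * a.length + b.length + c.length))
  have k3 : Commute (y (a ++ (b ++ c))) (y b) :=
    commA S abc b1 (by nee (b.length + c.length)) (by nee (a.length + b.length))
  have k4 : Commute (y (a ++ (b ++ c) ++ a)) (y b) :=
    commA S abca b1 (by nee (a.length + b.length + c.length)) (by nee (a.length + b.length))
  have k5 : cc (y b * y (a ++ b)) (y c) = y (b ++ c) * y (a ++ (b ++ c)) := by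
    rw [cc_mul_left (r2 ▸ k3), r1, r2]
  calc y a * y (b ++ c) * (y a)⁻¹ = cc (y a * y b * (y a)⁻¹) (y a * y c * (y a)⁻¹) := by
        rw [← r1]; unfold cc; group
    _ = _ := by
        rw [e1, e2, cc_mul_right (k5 ▸ k1.mul_left k2), k5, cc_mul_left (r4 ▸ k4), r3, r4,
          mul_assoc (y (b ++ c) * _)]

theorem stA (hsq : ∀ w, w ≠ [] → y w * y w = 1) {a b : List X} (ha0 : a ≠ []) (hb0 : b ≠ [])
    (hz : Zr ρ (b ++ a ++ b)) :
    y a * y b * (y a)⁻¹ = y b * y (a ++ b) * y (b ++ a) * y (a ++ b ++ a) := by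
  rcases le_total a.length b.length with hl | hl
  · exact st_le S hsq ha0 hb0 hl
  have la := length_pos_iff.2 ha0
  have lb := length_pos_iff.2 hb0
  have e1 := st_le S hsq hb0 ha0 hl
  obtain ⟨J, h1, h2⟩ := level P 1 a.length one_pos la
  have A := has_self (P := P) (j := J) (u := a) (by omega)
  have e2 : Zr ρ (a ++ b ++ a) := (A.right b).zr A
    (ne_of (a.length + b.length) (by omega) (by omega) (by rw [length_append]))
  have inv : ∀ w, w ≠ [] → (y w)⁻¹ = y w := fun w hw => inv_eq_of_mul_eq_one_right (hsq w hw)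
  rw [zrA S hz, mul_one] at e1
  rw [zrA S e2, mul_one]
  have e3 : (y a)⁻¹ * y b * y a = y (b ++ a) * y (a ++ b) * y b := by
    calc _ = (y a)⁻¹ * (y b * y a * (y b)⁻¹) * y b := by group
      _ = _ := by rw [e1]; group
  calc y a * y b * (y a)⁻¹ = ((y a)⁻¹ * y b * y a)⁻¹ := by
        simp only [mul_inv_rev, inv a ha0, inv b hb0, mul_assoc]
    _ = _ := by
        rw [e3]
        simp only [mul_inv_rev, inv b hb0, inv (a ++ b) (by simp [ha0]),
          inv (b ++ a) (by simp [ha0]), mul_assoc]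

end All

/-! ### The group -/

theorem two_eq (r : B ρ (ZMod 2)) : r + r = 0 := by
  rw [← two_smul (ZMod 2) r, show (2 : ZMod 2) = 0 from rfl, zero_smul]

theorem sq_one (P : Ph ρ) {w : List X} (hw : w ≠ []) :
    (1 + wd ρ (ZMod 2) w) * (1 + wd ρ (ZMod 2) w) = 1 := by
  have h1 := (sq_zr (P := P) hw).wd_eq (k := ZMod 2)
  rw [wd_append] at h1
  rw [add_mul, mul_add, mul_add, h1, one_mul, one_mul, mul_one, add_zero, add_assoc, two_eq,
    add_zero]

theorem cc_U (P : Ph ρ) {a b : List X} (ha : a ≠ []) (hb : b ≠ []) (hz : Zr ρ (b ++ a))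
    {A B' : (B ρ (ZMod 2))ˣ} (hA : (A : B ρ (ZMod 2)) = 1 + wd ρ (ZMod 2) a)
    (hB : (B' : B ρ (ZMod 2)) = 1 + wd ρ (ZMod 2) b) :
    ((cc A B' : (B ρ (ZMod 2))ˣ) : B ρ (ZMod 2)) = 1 + wd ρ (ZMod 2) (a ++ b) := by
  have i1 : A⁻¹ = A :=
    inv_eq_of_mul_eq_one_right (Units.ext (by rw [Units.val_mul, hA]; exact sq_one P ha))
  have i2 : B'⁻¹ = B' :=
    inv_eq_of_mul_eq_one_right (Units.ext (by rw [Units.val_mul, hB]; exact sq_one P hb))
  have h1 := (sq_zr (P := P) ha).wd_eq (k := ZMod 2)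
  have h2 := (sq_zr (P := P) hb).wd_eq (k := ZMod 2)
  have h3 := hz.wd_eq (k := ZMod 2)
  rw [wd_append] at h1 h2 h3
  unfold cc
  rw [i1, i2, mul_assoc (B' * A), Units.val_mul, Units.val_mul, hA, hB, wd_append]
  generalize wd ρ (ZMod 2) a = s at *
  generalize wd ρ (ZMod 2) b = t at *
  have h4 : (1 + t) * (1 + s) = 1 + s + t := by
    rw [add_mul, mul_add t, h3, one_mul, mul_one, add_zero]
  rw [h4]
  have h5 : (1 + s + t) * (1 + s + t) =
      1 + s * t + ((s + t) + (s + t)) + (s * s + t * t + t * s) := by noncomm_ring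
  rw [h5, two_eq, h1, h2, h3]
  simp

abbrev Gen (X : Type) := {w : List X // w ≠ [] ∧ w.length ≤ 8}

instance [Finite X] : Finite (Gen X) :=
  ((List.finite_length_le X 8).subset fun _ h => h.2 : Set.Finite {w : List X | w ≠ [] ∧ _})

variable (P) in
noncomputable def U (w : Gen X) : (B ρ (ZMod 2))ˣ :=
  ⟨1 + wd ρ (ZMod 2) w, 1 + wd ρ (ZMod 2) w, sq_one P w.2.1, sq_one P w.2.1⟩

def shp (t : Gen X × Gen X × Gen X × Fin 4) : FreeGroup (Gen X) :=
  ![.of t.1 * (FreeGroup.of t.2.1)⁻¹, .of t.1, .of t.1 * .of t.1,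
    cc (.of t.1) (.of t.2.1) * (FreeGroup.of t.2.2.1)⁻¹] t.2.2.2

variable (P) in
def rels : Set (FreeGroup (Gen X)) := {r | r ∈ Set.range shp ∧ FreeGroup.lift (U P) r = 1}

instance [Finite X] : Finite (rels P) := (Set.finite_range shp).subset fun _ h => h.1

variable (P) in
open Classical in
noncomputable def yy (w : List X) : PresentedGroup (rels P) :=
  if h : w.length ≤ 8 then (if h' : w = [] then 1 else .of ⟨w, h', h⟩)
  else if Zr ρ w then 1 else cc (yy (w.take (w.length / 2))) (yy (w.drop (w.length / 2)))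
termination_by w.length
decreasing_by all_goals simp; omega

theorem yy_gen (w : Gen X) : yy P w = .of w := by
  rw [yy, dif_pos w.2.2, dif_neg w.2.1]

theorem yy_df : Df ρ (yy P) := by
  refine ⟨fun w h1 h2 => ?_, fun a b h1 h2 h3 => ?_⟩
  · rw [yy, dif_neg (by omega), if_pos h2]
  · rw [yy, dif_neg (by simp; omega), if_neg h3, length_append, ← h2]
    simp

theorem rel_one (t : Gen X × Gen X × Gen X × Fin 4) (h : FreeGroup.lift (U P) (shp t) = 1) :
    PresentedGroup.mk (rels P) (shp t) = 1 := PresentedGroup.one_of_mem ⟨⟨t, rfl⟩, h⟩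

theorem map_cc {H : Type} [Group H] (f : G →* H) (A B : G) : f (cc A B) = cc (f A) (f B) := by
  simp [cc]

theorem yy_zr {w : List X} (hw : w.length ≤ 8) (h : Zr ρ w) : yy P w = 1 := by
  have h0 : w ≠ [] := by rintro rfl; exact not_zr_nil h
  let g : Gen X := ⟨w, h0, hw⟩
  exact (yy_gen g).trans (rel_one (g, g, g, 1) (Units.ext (by simp [shp, U, g, h.wd_eq])))

theorem yy_sq {w : List X} (h0 : w ≠ []) (hw : w.length ≤ 8) : yy P w * yy P w = 1 := by
  let g : Gen X := ⟨w, h0, hw⟩
  rw [show yy P w = _ from yy_gen g]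
  exact rel_one (g, g, g, 2) (Units.ext (by simpa [shp, U, g] using sq_one P h0))

theorem yy_st : St P (yy P) 8 := by
  refine ⟨fun w w' hw h => ?_, fun w hw h => yy_zr hw h, fun j a b α β hL ha hb hne => ?_⟩
  · have hl := h.length
    by_cases h0 : w = []
    · subst h0
      rw [length_eq_zero_iff.1 hl.symm]
    let g : Gen X := ⟨w, h0, hw⟩
    let g' : Gen X := ⟨w', length_pos_iff.1 (hl ▸ length_pos_iff.2 h0), hl ▸ hw⟩
    rw [show yy P w = _ from yy_gen g, show yy P w' = _ from yy_gen g', ← mul_inv_eq_one]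
    refine rel_one (g, g', g, 0) ?_
    have : U P g = U P g' := Units.ext (by simp [U, g, g', h.wd_eq])
    simp [shp, this]
  · by_cases hza : Zr ρ a
    · rw [yy_zr (by omega) hza, cc_one_left, yy_zr (by simpa using hL) (hza.append_right _)]
    by_cases hzb : Zr ρ b
    · rw [yy_zr (w := b) (by omega) hzb, cc_one_right,
        yy_zr (by simpa using hL) (hzb.append_left _)]
    have la := (ha.resolve_left hza).1
    have lb := (hb.resolve_left hzb).1
    have hm := m_pos P j
    let g : Gen X := ⟨a, length_pos_iff.1 (by omega), by omega⟩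
    let g' : Gen X := ⟨b, length_pos_iff.1 (by omega), by omega⟩
    let g'' : Gen X := ⟨a ++ b, length_pos_iff.1 (by simp; omega), by simpa using hL⟩
    rw [show yy P a = _ from yy_gen g, show yy P b = _ from yy_gen g',
      show yy P (a ++ b) = _ from yy_gen g'', ← mul_inv_eq_one]
    refine rel_one (g, g', g'', 3) ?_
    have : cc (U P g) (U P g') = U P g'' :=
      Units.ext (cc_U P g.2.1 g'.2.1 (hb.zr ha hne) rfl rfl)
    simp [shp, map_cc, this]

theorem pi_yy : ∀ (n : ℕ) (w : List X), w.length ≤ n → w ≠ [] →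
    ((PresentedGroup.toGroup (rels := rels P) (fun _ h => h.2) (yy P w) : (B ρ (ZMod 2))ˣ) :
      B ρ (ZMod 2)) = 1 + wd ρ (ZMod 2) w := by
  intro n
  induction n with
  | zero => intro w h hw; exact absurd (length_eq_zero_iff.1 (by omega)) hw
  | succ n ih =>
    intro w h hw
    by_cases h1 : w.length ≤ 8
    · rw [show yy P w = _ from yy_gen ⟨w, hw, h1⟩, PresentedGroup.toGroup.of]
      rfl
    by_cases hz : Zr ρ w
    · rw [yy_df.zr w (by omega) hz, hz.wd_eq]; simp
    obtain ⟨a, b, rfl, h2⟩ := split_at w (p := w.length / 2) (by omega)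
    rw [length_append] at *
    obtain ⟨j, α, -, a1, a2, a3⟩ := cut_level P hz (by omega) (by omega) (by omega)
    have ha : a ≠ [] := length_pos_iff.1 (by omega)
    have hb : b ≠ [] := length_pos_iff.1 (by omega)
    rw [yy_df.nz a b (by omega) h2 hz, map_cc]
    exact cc_U P ha hb (a2.zr a1 (by nee (a.length + b.length))) (ih a (by omega) ha)
      (ih b (by omega) hb)

end G1

open G1 in
theorem exists_stData {X : Type} [Finite X] (ρ : Rules X) (P : Ph ρ) : Nonempty (StData ρ) := by
  have S := (yy_st (P := P)).forall yy_df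
  have hsq := fun w hw => sqA S (fun _ => yy_sq) _ w le_rfl hw
  refine ⟨{ G := PresentedGroup (rels P)
            fp := inferInstance
            π := PresentedGroup.toGroup (rels := rels P) (fun _ h => h.2)
            y := yy P
            π_y := fun w hw => pi_yy _ w le_rfl hw
            y_eqv := fun w w' h => (S w.length).eqv w w' (by omega) h
            y_zr := fun w h => zrA S h
            y_sq := hsq
            st := fun a b ha hb hz => stA S hsq ha hb hz
            gen := ?_ }⟩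
  rw [eq_top_iff, ← PresentedGroup.closure_range_of]
  refine Subgroup.closure_mono ?_
  rintro _ ⟨g, rfl⟩
  exact ⟨g, g.2.1, g.2.2, yy_gen g⟩

end Crest.Agent.R176
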