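import Crest.Agent.R176.Defs

/-! # 176-G1, part a: phases, a commutator lemma, and the stage induction -/

set_option autoImplicit false

namespace Crest.Agent.R176.G1

open List

/-! ### Commutators -/

section Grp
variable {G : Type} [Group G]

/-- `A B A⁻¹ = B * cc A B` -/
def cc (A B : G) : G := B⁻¹ * A * B * A⁻¹

theorem conj_eq (A B : G) : A * B * A⁻¹ = B * cc A B := by unfold cc; group

theorem cc_eq_one {A B : G} : cc A B = 1 ↔ Commute A B := by
  unfold cc
  rw [mul_inv_eq_one, mul_assoc, inv_mul_eq_iff_eq_mul]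
  rfl

theorem cc_one_left (B : G) : cc 1 B = 1 := cc_eq_one.2 (Commute.one_left _)
theorem cc_one_right (A : G) : cc A 1 = 1 := cc_eq_one.2 (Commute.one_right _)

theorem comm_cc {A B V : G} (h1 : Commute A V) (h2 : Commute B V) : Commute (cc A B) V :=
  ((h2.inv_left.mul_left h1).mul_left h2).mul_left h1.inv_left

theorem CM {A E B X Y : G} (hAB : Commute A B) (hX : cc A E = X) (hY : cc E B = Y)
    (hXE : Commute X E) (hXY : Commute X Y) (hYB : Commute Y B) : cc A Y = cc X B := by
  have e1 : A * E * A⁻¹ = E * X := hX ▸ conj_eq A E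
  have e2 : E * B * E⁻¹ = B * Y := hY ▸ conj_eq E B
  have e3 : A * B * A⁻¹ = B := by rw [hAB.eq]; group
  have e4 : E * X * E⁻¹ = X := by rw [← hXE.eq]; group
  have e5 : A * Y * A⁻¹ = Y * (E * cc X B * E⁻¹) := by
    calc A * Y * A⁻¹ = (A * B * A⁻¹)⁻¹ * (A * E * A⁻¹) * (A * B * A⁻¹) * (A * E * A⁻¹)⁻¹ := by
          rw [← hY]; unfold cc; group
      _ = _ := by rw [e1, e3, ← hY]; unfold cc; group
  have e6 : E * cc X B * E⁻¹ = cc X B := by
    have h : Commute (B⁻¹ * X * B) Y := (hYB.symm.inv_left.mul_left hXY).mul_left hYB.symm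
    calc E * cc X B * E⁻¹ =
          (E * B * E⁻¹)⁻¹ * (E * X * E⁻¹) * (E * B * E⁻¹) * (E * X * E⁻¹)⁻¹ := by
          unfold cc; group
      _ = Y⁻¹ * (B⁻¹ * X * B * Y) * X⁻¹ := by rw [e2, e4]; group
      _ = _ := by rw [h.eq]; unfold cc; group
  rw [e6, conj_eq] at e5
  exact mul_left_cancel e5

theorem cc_mul_left {A A' V : G} (h : Commute (cc A' V) A) :
    cc (A * A') V = cc A V * cc A' V := by
  calc cc (A * A') V = V⁻¹ * A * V * (cc A' V * A⁻¹) := by unfold cc; group
    _ = _ := by rw [h.inv_right.eq]; unfold cc; group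

theorem cc_mul_right {A V V' : G} (h : Commute (cc A V) V') :
    cc A (V * V') = cc A V * cc A V' := by
  calc cc A (V * V') = V'⁻¹ * (cc A V * V') * cc A V' := by unfold cc; group
    _ = _ := by rw [h.eq]; group

end Grp

/-! ### Phases -/

variable {X : Type} {ρ : Rules X} (P : Ph ρ)

theorem m_gt (j : ℕ) : j < P.m j := by
  induction j with
  | zero => rw [P.m0]; exact Nat.one_pos
  | succ j ih => exact lt_of_le_of_lt ih (P.m_lt j)

theorem m_pos (j : ℕ) : 0 < P.m j := lt_of_le_of_lt (Nat.zero_le _) (m_gt P j)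

theorem N_ge (j : ℕ) : 128 ≤ P.N j := by
  have := P.mN j
  have := m_pos P (j + 1)
  omega

theorem level (k n : ℕ) (hk : 0 < k) (h : k ≤ n) : ∃ J, k * P.m J ≤ n ∧ 128 * n < k * P.N J := by
  have hex : ∃ j, n < k * P.m (j + 1) :=
    ⟨n, by have := m_gt P (n + 1); nlinarith⟩
  classical
  refine ⟨Nat.find hex, ?_, ?_⟩
  · rcases h0 : Nat.find hex with _ | J
    · rw [P.m0]; omega
    · exact not_lt.1 (Nat.find_min hex (m := J) (by omega))
  · have h1 := Nat.find_spec hex
    have h2 := P.mN (Nat.find hex)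
    nlinarith

/-- phases modulo `N j` -/
def ph (j : ℕ) (w : List X) : ZMod (P.N j) := (P.φ j w : ZMod (P.N j))

theorem ph_E {j : ℕ} {p q s : List X} (h : ¬ Zr ρ (p ++ q ++ s)) (hq : P.m j ≤ q.length) :
    ph P j q = ph P j (p ++ q ++ s) + p.length := by
  have := (ZMod.intCast_eq_intCast_iff _ _ _).2 (P.E j p q s h hq)
  push_cast at this
  exact this

variable {P}

theorem ne_of {j : ℕ} {x y : ZMod (P.N j)} (n : ℕ) (h0 : 0 < n) (h1 : n < P.N j)
    (h : y = x + n) : x ≠ y := by
  intro e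
  have : (n : ZMod (P.N j)) = 0 := by rw [e] at h; simpa using h
  exact absurd (Nat.le_of_dvd h0 ((ZMod.natCast_eq_zero_iff _ _).1 this)) (not_le.2 h1)

theorem avoid {j : ℕ} (γ δ : ZMod (P.N j)) (h : ℕ) :
    ∃ p : ℕ, h ≤ p ∧ p ≤ h + 2 ∧ (p : ZMod (P.N j)) ≠ γ ∧ (p : ZMod (P.N j)) ≠ δ := by
  have hN := N_ge P j
  have a1 : ((h : ℕ) : ZMod (P.N j)) ≠ (h + 1 : ℕ) := ne_of 1 (by omega) (by omega) (by simp)
  have a2 : ((h : ℕ) : ZMod (P.N j)) ≠ (h + 2 : ℕ) := ne_of 2 (by omega) (by omega) (by simp)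
  have a3 : ((h + 1 : ℕ) : ZMod (P.N j)) ≠ (h + 2 : ℕ) :=
    ne_of 1 (by omega) (by omega) (by push_cast; ring)
  by_contra hc
  push Not at hc
  have b0 := hc h (by omega) (by omega)
  have b1 := hc (h + 1) (by omega) (by omega)
  have b2 := hc (h + 2) (by omega) (by omega)
  by_cases c0 : ((h : ℕ) : ZMod (P.N j)) = γ
  · exact a3 ((b1 fun e => a1 (c0.trans e.symm)).trans (b2 fun e => a2 (c0.trans e.symm)).symm)
  by_cases c1 : ((h + 1 : ℕ) : ZMod (P.N j)) = γ
  · exact a2 ((b0 c0).trans (b2 fun e => a3 (c1.trans e.symm)).symm)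
  · exact a1 ((b0 c0).trans (b1 c1).symm)

variable (P) in
/-- `u` is zero or has phase `α` at level `j` -/
def Has (j : ℕ) (u : List X) (α : ZMod (P.N j)) : Prop :=
  Zr ρ u ∨ (P.m j ≤ u.length ∧ ph P j u = α)

section Has
variable {j : ℕ} {u v : List X} {α β : ZMod (P.N j)}

theorem has_self (h : P.m j ≤ u.length) : Has P j u (ph P j u) := Or.inr ⟨h, rfl⟩

theorem Has.right (h : Has P j u α) (x : List X) : Has P j (u ++ x) α := by
  by_cases hz : Zr ρ (u ++ x)
  · exact Or.inl hz
  rcases h with h | ⟨h1, h2⟩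
  · exact Or.inl (h.append_right x)
  · have := ph_E P (p := []) (s := x) (by simpa using hz) h1
    exact Or.inr ⟨by simp; omega, by rw [← h2, this]; simp⟩

theorem Has.left (x : List X) (h : Has P j u (α + x.length)) : Has P j (x ++ u) α := by
  by_cases hz : Zr ρ (x ++ u)
  · exact Or.inl hz
  rcases h with h | ⟨h1, h2⟩
  · exact Or.inl (h.append_left x)
  · have := ph_E P (p := x) (s := []) (by simpa using hz) h1
    rw [h2, append_nil] at this
    exact Or.inr ⟨by simp; omega, (add_right_cancel this).symm⟩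

theorem Has.pre (h : Has P j (u ++ v) α) (hz : ¬ Zr ρ (u ++ v)) (hu : P.m j ≤ u.length) :
    Has P j u α := by
  have := ph_E P (p := []) (s := v) (by simpa using hz) hu
  exact Or.inr ⟨hu, by rw [this, ← (h.resolve_left hz).2]; simp⟩

theorem Has.suf (h : Has P j (u ++ v) α) (hz : ¬ Zr ρ (u ++ v)) (hv : P.m j ≤ v.length) :
    Has P j v (α + u.length) := by
  have := ph_E P (p := u) (s := []) (by simpa using hz) hv
  exact Or.inr ⟨hv, by rw [this, ← (h.resolve_left hz).2]; simp⟩

theorem Has.zr (hu : Has P j u α) (hv : Has P j v β) (h : β ≠ α + u.length) : Zr ρ (u ++ v) := by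
  by_contra hz
  have h1 := hu.resolve_left fun h => hz (h.append_right v)
  have h2 := hv.resolve_left fun h => hz (h.append_left u)
  have h3 := ((hu.right v).suf hz h2.1).resolve_left fun h => hz (h.append_left u)
  exact h (h2.2.symm.trans h3.2)

theorem Has.eqv (hu : Has P j u α) (h : Eqv ρ u v) : Has P j v α := by
  rcases hu with hu | ⟨h1, h2⟩
  · exact Or.inl (h.zr_iff.1 hu)
  · exact Or.inr ⟨h.length ▸ h1, by rw [← h2]; unfold ph; rw [P.inv j u v h]⟩

theorem Has.cast (hu : Has P j u α) (h : α = β) : Has P j u β := h ▸ hu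

end Has

include P in
theorem sq_zr {w : List X} (hw : w ≠ []) : Zr ρ (w ++ w) := by
  have h0 := length_pos_iff.2 hw
  obtain ⟨J, h1, h2⟩ := level P 1 w.length one_pos h0
  exact (has_self (P := P) (j := J) (by omega)).zr (has_self (by omega))
    (ne_of _ h0 (by omega) rfl)

variable (P) in
/-- a cut of a nonzero word into two comparable parts -/
theorem cut_level {a b : List X} (hz : ¬ Zr ρ (a ++ b)) (h1 : a.length ≤ 8 * b.length)
    (h2 : b.length ≤ 8 * a.length) (h3 : 0 < a.length) : ∃ (j : ℕ) (α : ZMod (P.N j)),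
      Has P j (a ++ b) α ∧ Has P j a α ∧ Has P j b (α + a.length) ∧
        4 * (a.length + b.length) < P.N j := by
  obtain ⟨J, a1, a2⟩ := level P 1 (min a.length b.length) one_pos (by omega)
  have h := has_self (P := P) (j := J) (u := a ++ b) (by simp; omega)
  exact ⟨J, _, h, h.pre hz (by omega), h.suf hz (by omega), by omega⟩

theorem split_at (u : List X) {p : ℕ} (hp : p ≤ u.length) :
    ∃ a b, u = a ++ b ∧ a.length = p :=
  ⟨u.take p, u.drop p, (take_append_drop _ _).symm, by simp [hp]⟩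

theorem step_cut {w w' : List X} (h : Step ρ w w') {q : ℕ} (hq : q + 1 ≤ w.length) :
    ∃ a b a' b', w = a ++ b ∧ w' = a' ++ b' ∧ Eqv ρ a a' ∧ Eqv ρ b b' ∧
      q ≤ a.length ∧ a.length ≤ q + 1 := by
  obtain ⟨p, s, x, y, x', y', h⟩ := h
  by_cases h1 : q ≤ p.length
  · obtain ⟨a, b, rfl, h2⟩ := split_at p h1
    exact ⟨a, b ++ x :: y :: s, a, b ++ x' :: y' :: s, by simp, by simp, Eqv.rfl,
      (Step.mk b s x y x' y' h).eqv, by omega, by omega⟩
  · obtain ⟨a, b, rfl, h2⟩ := split_at s (p := q + 1 - (p.length + 2)) (by simp at hq; omega)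
    exact ⟨p ++ x :: y :: a, b, p ++ x' :: y' :: a, b, by simp, by simp,
      (Step.mk p a x y x' y' h).eqv, Eqv.rfl, by simp; omega, by simp; omega⟩

theorem zero_cut {p s : List X} {x y : X} (h : ρ x y none) {q : ℕ}
    (hq : q + 1 ≤ (p ++ x :: y :: s).length) :
    ∃ a b, p ++ x :: y :: s = a ++ b ∧ (Zr ρ a ∨ Zr ρ b) ∧ q ≤ a.length ∧ a.length ≤ q + 1 := by
  by_cases h1 : q ≤ p.length
  · obtain ⟨a, b, rfl, h2⟩ := split_at p h1
    exact ⟨a, b ++ x :: y :: s, by simp, Or.inr ⟨b, s, x, y, h, Eqv.rfl⟩, by omega, by omega⟩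
  · obtain ⟨a, b, rfl, h2⟩ := split_at s (p := q + 1 - (p.length + 2)) (by simp at hq; omega)
    exact ⟨p ++ x :: y :: a, b, by simp, Or.inl ⟨p, a, x, y, h, Eqv.rfl⟩, by simp; omega,
      by simp; omega⟩

/-! ### Stages -/

variable {G : Type} [Group G]

variable (P) in
structure St (y : List X → G) (L : ℕ) : Prop where
  eqv : ∀ w w', w.length ≤ L → Eqv ρ w w' → y w = y w'
  zr : ∀ w, w.length ≤ L → Zr ρ w → y w = 1
  r2 : ∀ j a b α β, a.length + b.length ≤ L → Has P j a α → Has P j b β → α ≠ β + b.length →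
    cc (y a) (y b) = y (a ++ b)

variable {y : List X → G} {L : ℕ}

theorem St.cut (S : St P y L) {a b : List X} (hz : ¬ Zr ρ (a ++ b)) (hL : a.length + b.length ≤ L)
    (h1 : a.length ≤ 8 * b.length) (h2 : b.length ≤ 8 * a.length) (h3 : 0 < a.length) :
    cc (y a) (y b) = y (a ++ b) := by
  obtain ⟨j, α, -, a1, a2, a3⟩ := cut_level P hz h1 h2 h3
  exact S.r2 j a b _ _ hL a1 a2 (ne_of (a.length + b.length) (by omega) (by omega)
    (by push_cast; ring))

theorem St.r3 (S : St P y L) {j : ℕ} (hj : 8 * P.m j ≤ L) : ∀ (n : ℕ) (u v : List X) α β,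
    u.length + v.length ≤ n → u.length ≤ L → v.length ≤ L → Has P j u α → Has P j v β →
    β ≠ α + u.length → α ≠ β + v.length → Commute (y u) (y v) := by
  intro n
  induction n with
  | zero =>
    intro u v α β h _ _ hu hv h1 h2
    rw [← cc_eq_one, S.r2 j u v α β (by omega) hu hv h2, S.zr _ (by simp; omega) (hu.zr hv h1)]
  | succ n ih =>
    have key : ∀ (u v : List X) α β, v.length ≤ u.length →
        u.length + v.length ≤ n + 1 → u.length ≤ L → v.length ≤ L → Has P j u α → Has P j v β →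
        β ≠ α + u.length → α ≠ β + v.length → Commute (y u) (y v) := by
      intro u v α β hvu h huL hvL hu hv h1 h2
      by_cases hL : u.length + v.length ≤ L
      · rw [← cc_eq_one, S.r2 j u v α β hL hu hv h2, S.zr _ (by simp; omega) (hu.zr hv h1)]
      by_cases hz : Zr ρ u
      · rw [S.zr u huL hz]; exact Commute.one_left _
      have hm := m_pos P j
      obtain ⟨p, p1, p2, p3, p4⟩ := avoid (β - α) (β + v.length - α) (u.length / 2 - 1)
      obtain ⟨a, b, rfl, rfl⟩ := split_at u (p := p) (by omega)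
      rw [length_append] at *
      rw [← S.cut hz huL (by omega) (by omega) (by omega)]
      refine comm_cc (ih a v α β (by omega) (by omega) hvL (hu.pre hz (by omega)) hv
        (fun e => p3 (by rw [e]; ring)) h2)
        (ih b v (α + a.length) β (by omega) (by omega) hvL (hu.suf hz (by omega)) hv
          (fun e => h1 (by rw [e]; push_cast; ring)) (fun e => p4 (by rw [← e]; ring)))
    intro u v α β h huL hvL hu hv h1 h2
    rcases le_total v.length u.length with hl | hl
    · exact key u v α β hl h huL hvL hu hv h1 h2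
    · exact (key v u β α hl (by omega) hvL huL hv hu h2 h1).symm

theorem St.comm (S : St P y L) {j : ℕ} (hj : 8 * P.m j ≤ L) {u v : List X} {α β : ZMod (P.N j)}
    (h1 : u.length ≤ L) (h2 : v.length ≤ L) (hu : Has P j u α) (hv : Has P j v β)
    (h3 : β ≠ α + u.length) (h4 : α ≠ β + v.length) : Commute (y u) (y v) :=
  S.r3 hj _ u v α β le_rfl h1 h2 hu hv h3 h4

end Crest.Agent.R176.G1
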