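import Crest.Agent.R176.G1a

/-! # 176-G1, part b: the step from length `L` to length `L + 1` -/

set_option autoImplicit false

namespace Crest.Agent.R176.G1

open List

variable {X : Type} {ρ : Rules X} {P : Ph ρ} {G : Type} [Group G] {y : List X → G} {L J : ℕ}

/-- proves `x ≠ z` from `z = x + n` or `x = z + n` -/
local macro "nee " n:term : tactic => `(tactic| first
  | exact ne_of $n (by omega) (by omega) (by simp only [length_append]; push_cast; ring1)
  | exact ne_of $n (by omega) (by omega) (by push_cast; ring1)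
  | exact (ne_of $n (by omega) (by omega) (by simp only [length_append]; push_cast; ring1)).symm
  | exact (ne_of $n (by omega) (by omega) (by push_cast; ring1)).symm)

theorem St.cmj (S : St P y L) (hJ : 8 * P.m J ≤ L) (hN : 16 * L < P.N J) {a e b : List X}
    {α : ZMod (P.N J)} (hL : a.length + e.length + b.length = L + 1) (h1 : 0 < a.length)
    (h2 : 0 < e.length) (h3 : 0 < b.length) (ha : Has P J a α) (he : Has P J e (α + a.length))
    (hb : Has P J b (α + a.length + e.length)) :
    cc (y a) (y (e ++ b)) = cc (y (a ++ e)) (y b) := by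
  have hae := ha.right e
  have heb := he.right b
  refine CM (E := y e) (S.comm hJ (by omega) (by omega) ha hb ?_ ?_)
    (S.r2 J a e _ _ (by omega) ha he ?_) (S.r2 J e b _ _ (by omega) he hb ?_)
    (S.comm hJ (by simp; omega) (by omega) hae he ?_ ?_)
    (S.comm hJ (by simp; omega) (by simp; omega) hae heb ?_ ?_)
    (S.comm hJ (by simp; omega) (by omega) heb hb ?_ ?_)
  · nee e.length
  · nee (a.length + e.length + b.length)
  · nee (a.length + e.length)
  · nee (e.length + b.length)
  · nee e.length
  · nee (a.length + e.length)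
  · nee e.length
  · nee (a.length + e.length + b.length)
  · nee b.length
  · nee (e.length + b.length)

variable (P y J) in
def V (a b : List X) (g : G) : Prop :=
  ∃ α, Has P J a α ∧ Has P J b (α + a.length) ∧ cc (y a) (y b) = g

theorem St.move (S : St P y L) (hJ : 8 * P.m J ≤ L) (hN : 16 * L < P.N J) {a e b : List X} {g : G}
    (hg : g ≠ 1) (hL : a.length + e.length + b.length = L + 1) (h1 : P.m J ≤ a.length)
    (h2 : P.m J ≤ e.length) (h3 : P.m J ≤ b.length) :
    V P y J a (e ++ b) g ↔ V P y J (a ++ e) b g := by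
  have hm := m_pos P J
  constructor
  · rintro ⟨α, ha, hb, hc⟩
    have hz : ¬ Zr ρ (e ++ b) := fun h => hg (by
      rw [← hc, S.zr _ (by simp; omega) h, cc_one_right])
    have a1 := hb.pre hz h2
    have a2 := hb.suf hz h3
    exact ⟨α, ha.right e, a2.cast (by simp [add_assoc]),
      by rw [← S.cmj hJ hN hL (by omega) (by omega) (by omega) ha a1 a2, hc]⟩
  · rintro ⟨α, ha, hb, hc⟩
    have hz : ¬ Zr ρ (a ++ e) := fun h => hg (by
      rw [← hc, S.zr _ (by simp; omega) h, cc_one_left])
    have a1 := ha.pre hz h1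
    have a2 := ha.suf hz h2
    exact ⟨α, a1, a2.right b, by
      rw [S.cmj hJ hN hL (by omega) (by omega) (by omega) a1 a2 (hb.cast (by simp [add_assoc])),
        hc]⟩

theorem St.far (S : St P y L) (hJ : 8 * P.m J ≤ L) (hN : 16 * L < P.N J) {a b a' b' : List X}
    {g : G} (hg : g ≠ 1) (he : a ++ b = a' ++ b') (hL : a.length + b.length = L + 1)
    (h1 : P.m J ≤ a.length) (h2 : a.length + P.m J ≤ a'.length) (h3 : P.m J ≤ b'.length) :
    V P y J a b g ↔ V P y J a' b' g := by
  have hm := m_pos P J
  rcases append_eq_append_iff.1 he with ⟨e, rfl, rfl⟩ | ⟨e, rfl, rfl⟩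
  · simp only [length_append] at *
    exact S.move hJ hN hg (by omega) h1 (by omega) h3
  · simp only [length_append] at *
    omega

theorem St.all (S : St P y L) (hJ : 8 * P.m J ≤ L) (hN : 16 * L < P.N J) {a b a' b' : List X}
    {g : G} (hg : g ≠ 1) (he : a ++ b = a' ++ b') (hL : a.length + b.length = L + 1)
    (h1 : P.m J ≤ a.length) (h2 : P.m J ≤ b.length) (h3 : P.m J ≤ a'.length)
    (h4 : P.m J ≤ b'.length) (h : V P y J a b g) : V P y J a' b' g := by
  have hl := congrArg length he
  simp only [length_append] at hl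
  by_cases hc : 2 * P.m J ≤ a.length ∧ 2 * P.m J ≤ a'.length
  · obtain ⟨c, d, e, hc'⟩ := split_at (a ++ b) (p := P.m J) (by simp; omega)
    have hl' := congrArg length e
    simp only [length_append] at hl'
    exact (S.far hJ hN hg (e.symm.trans he) (by omega) (by omega) (by omega) h4).1
      ((S.far hJ hN hg e.symm (by omega) (by omega) (by omega) h2).2 h)
  by_cases hd : a.length + P.m J ≤ a'.length
  · exact (S.far hJ hN hg he hL h1 hd h4).1 h
  by_cases hd' : a'.length + P.m J ≤ a.length
  · exact (S.far hJ hN hg he.symm (by omega) h3 hd' h2).2 h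
  obtain ⟨c, d, e, hc'⟩ := split_at (a ++ b) (p := L + 1 - P.m J) (by simp; omega)
  have hl' := congrArg length e
  simp only [length_append] at hl'
  exact (S.far hJ hN hg (he.symm.trans e) (by omega) h3 (by omega) (by omega)).2
    ((S.far hJ hN hg e hL h1 (by omega) (by omega)).1 h)

variable (P y J L) in
def Val (g : G) (w : List X) : Prop :=
  w.length = L + 1 ∧ ∃ a b, w = a ++ b ∧ P.m J ≤ a.length ∧ P.m J ≤ b.length ∧ V P y J a b g

theorem St.V_eqv (S : St P y L) {a b a' b' : List X} {g : G} (ha : a.length ≤ L)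
    (hb : b.length ≤ L) (h1 : Eqv ρ a a') (h2 : Eqv ρ b b') (h : V P y J a b g) :
    V P y J a' b' g := by
  obtain ⟨α, a1, a2, a3⟩ := h
  exact ⟨α, a1.eqv h1, (a2.eqv h2).cast (by rw [h1.length]),
    by rw [← S.eqv _ _ ha h1, ← S.eqv _ _ hb h2, a3]⟩

theorem St.val_step (S : St P y L) (hJ : 8 * P.m J ≤ L) (hN : 16 * L < P.N J) {g : G} (hg : g ≠ 1)
    (w w' : List X) (h : Step ρ w w') : Val P y L J g w ↔ Val P y L J g w' := by
  have hm := m_pos P J
  have hl := h.length
  by_cases hw : w.length = L + 1
  swap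
  · exact ⟨fun h => absurd h.1 hw, fun h => absurd (hl.trans h.1) hw⟩
  obtain ⟨a, b, a', b', rfl, rfl, e1, e2, l1, l2⟩ := step_cut h (q := P.m J) (by omega)
  have l3 := e1.length
  have l4 := e2.length
  simp only [length_append] at hw
  constructor
  · rintro ⟨-, c, d, e, c1, c2, c3⟩
    have hl' := congrArg length e
    simp only [length_append] at hl'
    exact ⟨by simp; omega, a', b', rfl, by omega, by omega, S.V_eqv (by omega) (by omega) e1 e2
      (S.all hJ hN hg e.symm (by omega) c1 c2 (by omega) (by omega) c3)⟩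
  · rintro ⟨-, c, d, e, c1, c2, c3⟩
    have hl' := congrArg length e
    simp only [length_append] at hl'
    exact ⟨by simp; omega, a, b, rfl, by omega, by omega,
      S.V_eqv (by omega) (by omega) e1.symm e2.symm
        (S.all hJ hN hg e.symm (by omega) c1 c2 (by omega) (by omega) c3)⟩

theorem St.val_nz (S : St P y L) (hJ : 8 * P.m J ≤ L) (hN : 16 * L < P.N J) {g : G} (hg : g ≠ 1)
    {w : List X} (h : Val P y L J g w) : ¬ Zr ρ w := by
  have hm := m_pos P J
  refine not_zr_of_inv (S.val_step hJ hN hg) ?_ h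
  rintro p s x z hz ⟨hw, c, d, e, c1, c2, c3⟩
  obtain ⟨a, b, e', h1, l1, l2⟩ := zero_cut (p := p) (s := s) hz (q := P.m J) (by omega)
  have hl := congrArg length e
  have hl' := congrArg length e'
  rw [hw, length_append] at hl hl'
  obtain ⟨α, -, -, a3⟩ := S.all hJ hN hg (e.symm.trans e') (by omega) c1 c2 (by omega)
    (by omega) c3
  refine hg (a3.symm.trans ?_)
  rcases h1 with h1 | h1
  · rw [S.zr _ (by omega) h1, cc_one_left]
  · rw [S.zr _ (by omega) h1, cc_one_right]

variable (ρ y) in
/-- the recursive definition of `y` on long words -/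
structure Df : Prop where
  zr : ∀ w, 8 < w.length → Zr ρ w → y w = 1
  nz : ∀ a b, 8 < a.length + b.length → a.length = (a.length + b.length) / 2 → ¬ Zr ρ (a ++ b) →
    y (a ++ b) = cc (y a) (y b)

theorem St.val_self (D : Df ρ y) (hJ : 8 * P.m J ≤ L) {w : List X} (hw : w.length = L + 1)
    (hz : ¬ Zr ρ w) : Val P y L J (y w) w := by
  have hm := m_pos P J
  obtain ⟨a, b, rfl, h⟩ := split_at w (p := w.length / 2) (by omega)
  have h1 := has_self (P := P) (j := J) (u := a ++ b) (by omega)
  rw [length_append] at *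
  exact ⟨by simpa using hw, a, b, rfl, by omega, by omega, _, h1.pre hz (by omega),
    h1.suf hz (by omega), (D.nz a b (by omega) h hz).symm⟩

theorem St.V_eq (S : St P y L) (D : Df ρ y) (hJ : 8 * P.m J ≤ L) (hN : 16 * L < P.N J)
    {a b : List X} {g : G} (hL : a.length + b.length = L + 1) (h1 : P.m J ≤ a.length)
    (h2 : P.m J ≤ b.length) (h : V P y J a b g) : g = y (a ++ b) := by
  have hm := m_pos P J
  have hw : (a ++ b).length = L + 1 := by simpa using hL
  by_cases hz : Zr ρ (a ++ b)
  · rw [D.zr _ (by omega) hz]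
    by_contra hg
    exact S.val_nz hJ hN hg ⟨hw, a, b, rfl, h1, h2, h⟩ hz
  obtain ⟨-, c, d, e, c1, c2, c3⟩ := St.val_self (P := P) D hJ hw hz
  by_cases hg : g = 1
  · by_contra hg'
    have hl := congrArg length e
    simp only [length_append] at hl
    obtain ⟨α, -, -, a3⟩ := S.all hJ hN (fun h => hg' (hg.trans h.symm)) e.symm (by omega) c1 c2
      h1 h2 c3
    obtain ⟨β, -, -, a4⟩ := h
    exact hg' (a4.symm.trans a3)
  · obtain ⟨α, -, -, a3⟩ := S.all hJ hN hg e hL h1 h2 c1 c2 h
    obtain ⟨β, -, -, a4⟩ := c3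
    exact a3.symm.trans a4

theorem St.eqv_succ (S : St P y L) (D : Df ρ y) (hJ : 8 * P.m J ≤ L) (hN : 16 * L < P.N J)
    {w w' : List X} (hw : w.length = L + 1) (h : Eqv ρ w w') (hg : y w ≠ 1) : y w = y w' := by
  have hm := m_pos P J
  have hz : ¬ Zr ρ w := fun hz => hg (D.zr _ (by omega) hz)
  obtain ⟨h1, a, b, rfl, c1, c2, c3⟩ :=
    (Eqv.iff_of_step (S.val_step hJ hN hg) h).1 (St.val_self D hJ hw hz)
  exact S.V_eq D hJ hN (by simpa using h1) c1 c2 c3

theorem St.r2_succ (S : St P y L) (D : Df ρ y) (h8 : 8 ≤ L) {j : ℕ} {a b : List X}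
    {α β : ZMod (P.N j)} (hL : a.length + b.length = L + 1) (ha : Has P j a α) (hb : Has P j b β)
    (hne : α ≠ β + b.length) : cc (y a) (y b) = y (a ++ b) := by
  obtain ⟨J, hJ, hN'⟩ := level P 8 L (by omega) h8
  have hN : 16 * L < P.N J := by omega
  have hm := m_pos P J
  have hm' := m_pos P j
  have hw : 8 < (a ++ b).length := by simp; omega
  have hzz : ∀ w, w.length ≤ L + 1 → Zr ρ w → y w = 1 := fun w h1 h2 => by
    by_cases h : w.length ≤ L
    · exact S.zr w h h2
    · exact D.zr w (by omega) h2
  by_cases hza : Zr ρ a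
  · rw [hzz a (by omega) hza, cc_one_left, D.zr _ hw (hza.append_right _)]
  by_cases hzb : Zr ρ b
  · rw [hzz b (by omega) hzb, cc_one_right, D.zr _ hw (hzb.append_left _)]
  have la := (ha.resolve_left hza).1
  have lb := (hb.resolve_left hzb).1
  by_cases hbal : P.m J ≤ a.length ∧ P.m J ≤ b.length
  · have a1 := has_self hbal.1
    have b1 := has_self hbal.2
    by_cases h1 : ph P J b = ph P J a + a.length
    · exact S.V_eq D hJ hN hL hbal.1 hbal.2 ⟨_, a1, b1.cast h1, rfl⟩
    rw [D.zr _ hw (a1.zr b1 h1), cc_eq_one]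
    by_cases h2 : ph P J a = ph P J b + b.length
    · have := S.V_eq D hJ hN (by omega) hbal.2 hbal.1 ⟨_, b1, a1.cast h2, rfl⟩
      rw [D.zr _ (by simp; omega) (hb.zr ha hne), cc_eq_one] at this
      exact this.symm
    · exact S.comm hJ (by omega) (by omega) a1 b1 h1 h2
  have hj : 8 * P.m j ≤ L := by omega
  by_cases h1 : β = α + a.length
  swap
  · rw [D.zr _ hw (ha.zr hb h1), cc_eq_one]
    exact S.comm hj (by omega) (by omega) ha hb h1 hne
  subst h1
  by_cases hs : a.length < P.m J
  · obtain ⟨p, p1, p2, p3, p4⟩ := avoid (j := j) 0 (-(a.length : ZMod (P.N j))) (P.m J)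
    obtain ⟨e, b, rfl, rfl⟩ := split_at b (p := p) (by omega)
    rw [length_append] at *
    have e0 := hb.pre hzb (by omega)
    have b0 := hb.suf hzb (by omega)
    have B := has_self (P := P) (j := J) (u := e ++ b) (by simp; omega)
    have e1 := B.pre hzb (by omega)
    have b1 := B.suf hzb (by omega)
    generalize ph P J (e ++ b) = γ at B e1 b1
    have ae : Has P J (a ++ e) (γ - a.length) := Has.left a (e1.cast (by ring))
    rw [CM (E := y e) (S.comm hj (by omega) (by omega) ha b0 ?_ ?_)
      (S.r2 j a e _ _ (by omega) ha e0 ?_) (S.r2 J e b _ _ (by omega) e1 b1 ?_)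
      (S.comm hJ (by simp; omega) (by omega) ae e1 ?_ ?_)
      (S.comm hJ (by simp; omega) (by simp; omega) ae B ?_ ?_)
      (S.comm hJ (by simp; omega) (by omega) B b1 ?_ ?_), ← append_assoc]
    · exact S.V_eq D hJ hN (by simp; omega) (by simp; omega) (by omega)
        ⟨_, ae, b1.cast (by simp only [length_append]; push_cast; ring1), rfl⟩
    · exact fun h => p3 (by linear_combination h)
    · exact fun h => hne (by push_cast; linear_combination h)
    · exact fun h => p4 (by linear_combination -h)
    · nee (e.length + b.length)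
    · nee e.length
    · nee (a.length + e.length)
    · nee e.length
    · nee (a.length + e.length + b.length)
    · nee b.length
    · nee (e.length + b.length)
  · obtain ⟨p, p1, p2, p3, p4⟩ := avoid (j := j) 0 (-(b.length : ZMod (P.N j))) (P.m J)
    obtain ⟨a, e, rfl, hp⟩ := split_at a (p := a.length - p) (by omega)
    rw [length_append] at *
    obtain rfl : p = e.length := by omega
    have a0 := ha.pre hza (by omega)
    have e0 := ha.suf hza (by omega)
    have A := has_self (P := P) (j := J) (u := a ++ e) (by simp; omega)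
    have a1 := A.pre hza (by omega)
    have e1 := A.suf hza (by omega)
    generalize ph P J (a ++ e) = γ at A a1 e1
    have q : α + a.length ≠ α + (a.length + e.length : ℕ) + b.length :=
      fun h => p4 (by push_cast at h; linear_combination -h)
    have yb : Commute (y (e ++ b)) (y b) := by
      rw [← cc_eq_one, S.r2 j (e ++ b) b _ _ (by simp; omega) (e0.right b) hb q]
      refine S.zr _ (by simp; omega) ?_
      rw [append_assoc]
      exact (sq_zr (P := P) (length_pos_iff.1 (by omega))).append_left e
    rw [← CM (E := y e) (S.comm hj (by omega) (by omega) a0 hb ?_ hne)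
      (S.r2 J a e _ _ (by omega) a1 e1 ?_) (S.r2 j e b _ _ (by omega) e0 hb q)
      (S.comm hJ (by simp; omega) (by omega) A e1 ?_ ?_)
      (S.comm hJ (by simp; omega) (by simp; omega) A (e1.right b) ?_ ?_) yb, append_assoc]
    · exact S.V_eq D hJ hN (by simp; omega) (by omega) (by simp; omega)
        ⟨_, a1, e1.right b, rfl⟩
    · exact fun h => p3 (by push_cast at h; linear_combination h)
    · nee (a.length + e.length)
    · nee e.length
    · nee (a.length + e.length)
    · nee e.length
    · nee (a.length + e.length + b.length)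

theorem St.succ (S : St P y L) (D : Df ρ y) (h8 : 8 ≤ L) : St P y (L + 1) := by
  obtain ⟨J, hJ, hN'⟩ := level P 8 L (by omega) h8
  have hN : 16 * L < P.N J := by omega
  refine ⟨fun w w' hw h => ?_, fun w hw h => ?_, fun j a b α β hL ha hb hne => ?_⟩
  · by_cases h1 : w.length ≤ L
    · exact S.eqv w w' h1 h
    by_cases h2 : y w = 1
    · by_contra h3
      exact h3 (S.eqv_succ D hJ hN (by rw [← h.length]; omega) h.symm
        (fun h4 => h3 (h2.trans h4.symm))).symm
    · exact S.eqv_succ D hJ hN (by omega) h h2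
  · by_cases h1 : w.length ≤ L
    · exact S.zr w h1 h
    · exact D.zr w (by omega) h
  · by_cases h1 : a.length + b.length ≤ L
    · exact S.r2 j a b α β h1 ha hb hne
    · exact S.r2_succ D h8 (by omega) ha hb hne

theorem St.forall (S : St P y 8) (D : Df ρ y) (L : ℕ) : St P y (L + 8) := by
  induction L with
  | zero => exact S
  | succ L ih => rw [Nat.add_right_comm]; exact ih.succ D (by omega)

end Crest.Agent.R176.G1
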