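import Crest.Agent.R176.Defs

/-!
# 176-G2: the Steinberg-type group embeds in the units of the algebra

`Gen F = Subgroup.closure {y w | F w}` for a family `F : List X → Prop` of NONEMPTY words.
`F` is *closed* if `F a, F b ⇒ F (a++b) ∨ Zr (a++b)`, *flat* if `F a, F b ⇒ Zr (a++b)`.
Facts from `Ph`: (E1) `¬Zr (u++v)`: `m j ≤ |u| ⇒ φ j u ≡ φ j (uv)`, `m j ≤ |v| ⇒ φ j v ≡ φ j (uv)+|u|`.
(SQ) `w ≠ [] ⇒ Zr (ww)`; (T) `a ≠ []`, `|a| ≤ |b|` ⇒ `Zr (bab)` (level `J`, `m J ≤ |b| < m (J+1)`).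

* (Norm) if for all `a ∈ F`, `b ∈ A`: `Zr (bab)` and each of `ab, ba, aba` is in `A` or zero, then
  `Gen F` normalizes `Gen A` (`st`, `y_zr`, `y_sq`: `(y a)⁻¹ = y a`).
* (Comm) For any nonempty `a,b`: `y a * y b * (y a)⁻¹ * (y b)⁻¹ ∈ Gen {ab, ba, aba, bab}`-type
  statement: by (T) one of `bab`, `aba` is zero; use `st a b` or `st b a`.
* (π) `g ∈ Gen F`, `F` closed ⇒ `π g - 1 ∈ Sp F`.
* (Lemma C) `F` closed, `F_d = F ∧ d ≤ |w|`; `g ∈ Gen F_d` and `π g - 1 ∈ Sp (d+1 ≤ |w|)` ⇒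
  `g ∈ Gen F_{d+1}`.  (`Gen F_d` normalizes `Gen F_{d+1}`, and modulo it the `y w`, `|w| = d`, are
  commuting involutions: every `g ∈ Gen F_d` is `(l.map y).prod * g'`, `g' ∈ Gen F_{d+1}`, `l` a list of
  nonzero pairwise non-`Eqv` words of `F` of length `d`; then `π g - 1 - Σ wd l ∈ Sp (d+1 ≤ |w|)` and
  the coefficient functional `exists_coef` of the head of `l` shows `l = []`.)
  Corollary (C'): `F` closed with bounded lengths, `g ∈ Gen F`, `π g = 1` ⇒ `g = 1`.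
* (Split) `F` flat ⇒ the `y w`, `w ∈ F` commute (`st`), so for any predicate `p`, every `s ∈ Gen F` is
  `s1 * s2`, `s1 ∈ Gen (F ∧ p)`, `s2 ∈ Gen (F ∧ ¬p)`.
* `P n Q g`: `g` is a product of a list of `≤ n` elements, each in `Gen F` for some flat `F ⊆ Q`.
* Level `i`, `N = N i`, `M ∣ N`, `cov M z w := ∃ t < |w|, φ i w + t ≡ z [ZMOD M]` (`Eqv`-invariant).
  For nonzero `ab` with `m i ≤ |a|,|b|`: `cov (ab) ↔ cov a ∨ cov b`; more generally a nonzero word
  `α c β` with `m i ≤ |c|` covers what `c` covers, and two distinct places of a nonzero word covering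
  the same residue mod `N` are at distance `≥ N`.  `𝒩 = {m i ≤ |w|, ¬cov M z w}` is closed, and
  its words have length `< M`.
* (Round) `M = N/16`, `π g = 1`, `P n Q g`, `Q w ⇒ m i ≤ |w| ≤ D`, `2(D+2M)+M < N`.  Split each
  syllable into 17 flat ones: in `𝒩`, or covering `z + tM` mod `N` (`t < 16`).  With
  `A_t = {α c β | Q c, c covers z+tM mod N, α, β ∈ 𝒩 ∪ {[]}}` (flat, normalized by `Gen 𝒩` by Norm:
  `α' α ∈ 𝒩` or zero), induction on the list gives `g = ν * ∏ s_k`, `ν ∈ Gen 𝒩`, `s_k ∈ Gen A_{t_k}`,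
  at most `16 n` factors.  `π ν - 1 ∈ Sp 𝒩`, and `π ν = (π ∏ s_k)⁻¹ ∈ 1 + Sp {nonzero-or-zero words that
  are zero or (length ≥ m i and cover z mod M)}` (closed family), so `exists_proj` gives `π ν = 1` and
  `ν = 1` by C'.  Result: `P (16 n) Q' g`, `Q' w := ∃ α c β, w = α c β, Q c, cov M z c, |α|,|β| < M`.
* (Level) two rounds, with `z = 0` and `z = m (i+1)`: from `P n (m i ≤ |w| ≤ N i / 8)` to
  `P (256 n) (m (i+1) ≤ |w| ≤ N i)` (drop zero words: a nonzero word covering both residues mod `M`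
  has length `> m (i+1)` because `m (i+1) ≤ M/8`).  Start: `gen` gives `P n (1 ≤ |w| ≤ 8)` (`SQ`).
* (Criterion) `π g = 1`, `P n (m i ≤ |w| ≤ D) g`, `(4n+3) D < N i` ⇒ `g = 1`: `M = N`, `z = 0`;
  induction on the list: `g = ν * c`, `ν ∈ Gen 𝒩`, `c ∈ Gen K_k`,
  `K_k = {m i ≤ |w| ≤ (2k+1) D, cov N 0 w}`: for a syllable `ν' c'` (Split), the family
  `{α b β | b ∈ K_k, α, β ∈ F' ∪ {[]}}` (`F'` flat) is normalized by `Gen F'` and its nonzero words lie
  in `K_{k+1}`.  As in Round `ν = 1`; `K_n` is flat and bounded, so `c = 1` by C'.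
  Use it at level `i+1` with `D = N i`, `n 256^(i+1)` syllables and `Ph.grow` with `c = 1024 n + 3`.
-/

set_option autoImplicit false

namespace Crest.Agent.R176

namespace G2

variable {X : Type} {ρ : Rules X}

/-- closed families -/
def Closed (ρ : Rules X) (F : List X → Prop) : Prop :=
  ∀ a b, F a → F b → F (a ++ b) ∨ Zr ρ (a ++ b)

/-- flat families -/
def Flat (ρ : Rules X) (F : List X → Prop) : Prop := ∀ a b, F a → F b → Zr ρ (a ++ b)

theorem Flat.closed {F : List X → Prop} (h : Flat ρ F) : Closed ρ F :=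
  fun a b ha hb => Or.inr (h a b ha hb)

theorem Flat.mono {F F' : List X → Prop} (h : Flat ρ F) (h' : ∀ w, F' w → F w) : Flat ρ F' :=
  fun a b ha hb => h a b (h' a ha) (h' b hb)

theorem Sp_mono {F F' : List X → Prop} (h : ∀ w, F w → F' w) :
    Sp ρ (ZMod 2) F ≤ Sp ρ (ZMod 2) F' :=
  Submodule.span_mono fun _ ⟨w, hw, e⟩ => ⟨w, h w hw, e⟩

theorem wd_mul_mem {F H : List X → Prop} {a : List X}
    (h : ∀ b, F b → H (a ++ b) ∨ Zr ρ (a ++ b)) {s : B ρ (ZMod 2)} (hs : s ∈ Sp ρ (ZMod 2) F) :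
    wd ρ (ZMod 2) a * s ∈ Sp ρ (ZMod 2) H := by
  induction hs using Submodule.span_induction with
  | mem x hx =>
    obtain ⟨b, hb, rfl⟩ := hx
    rw [← wd_append]
    rcases h b hb with h | h
    · exact wd_mem_Sp h
    · rw [h.wd_eq]; exact Submodule.zero_mem _
  | zero => rw [mul_zero]; exact Submodule.zero_mem _
  | add x y _ _ hx hy => rw [mul_add]; exact Submodule.add_mem _ hx hy
  | smul c x _ hx => rw [mul_smul_comm]; exact Submodule.smul_mem _ _ hx

theorem lin_eq_on {M : Type*} [AddCommGroup M] [Module (ZMod 2) M] {F : List X → Prop}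
    (f g : B ρ (ZMod 2) →ₗ[ZMod 2] M) (h : ∀ w, F w → f (wd ρ (ZMod 2) w) = g (wd ρ (ZMod 2) w))
    {s : B ρ (ZMod 2)} (hs : s ∈ Sp ρ (ZMod 2) F) : f s = g s :=
  LinearMap.eqOn_span (by rintro _ ⟨w, hw, rfl⟩; exact h w hw) hs

theorem zr_T (P : Ph ρ) {a b : List X} (hb : b ≠ []) (hab : a.length ≤ b.length) :
    Zr ρ (b ++ a ++ b) := by
  classical
  by_contra hz
  have hm : StrictMono P.m := strictMono_nat_of_lt_succ P.m_lt
  have hb1 : 1 ≤ b.length := List.length_pos_iff.2 hb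
  have hex : ∃ J, b.length < P.m (J + 1) :=
    ⟨b.length, lt_of_lt_of_le (Nat.lt_succ_self _) (hm.id_le _)⟩
  have h1 := Nat.find_spec hex
  have h2 : P.m (Nat.find hex) ≤ b.length := by
    rcases h : Nat.find hex with _ | J
    · rw [P.m0]; exact hb1
    · exact not_lt.1 (Nat.find_min hex (by omega))
  have e1 := P.E (Nat.find hex) [] b (a ++ b) (by simpa using hz) h2
  have e2 := P.E (Nat.find hex) (b ++ a) b [] (by simpa using hz) h2
  simp only [List.nil_append, List.append_nil, List.append_assoc, List.length_nil, Nat.cast_zero,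
    add_zero, List.length_append] at e1 e2
  have e3 := (e1.symm.trans e2).dvd
  rw [add_sub_cancel_left] at e3
  have e4 := Nat.le_of_dvd (by omega) (Int.natCast_dvd_natCast.1 e3)
  have := P.mN (Nat.find hex)
  omega

variable (D : StData ρ)

/-- the subgroup generated by a family of words -/
def Gen (F : List X → Prop) : Subgroup D.G :=
  Subgroup.closure {g | ∃ w, w ≠ [] ∧ F w ∧ D.y w = g}

variable {D}

theorem y_mem {F : List X → Prop} {w : List X} (h0 : w ≠ []) (h : F w ∨ Zr ρ w) :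
    D.y w ∈ Gen D F := by
  rcases h with h | h
  · exact Subgroup.subset_closure ⟨w, h0, h, rfl⟩
  · rw [D.y_zr w h]; exact Subgroup.one_mem _

theorem Gen_le {F : List X → Prop} {H : Subgroup D.G} (h : ∀ w, w ≠ [] → F w → D.y w ∈ H) :
    Gen D F ≤ H :=
  (Subgroup.closure_le _).2 (by rintro _ ⟨w, h0, hw, rfl⟩; exact h w h0 hw)

theorem Gen_mono {F F' : List X → Prop} (h : ∀ w, F w → F' w ∨ Zr ρ w) : Gen D F ≤ Gen D F' :=
  Gen_le fun w h0 hw => y_mem h0 (h w hw)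

theorem y_inv {w : List X} (h : w ≠ []) : (D.y w)⁻¹ = D.y w :=
  inv_eq_of_mul_eq_one_right (D.y_sq w h)

theorem Gen_ind {F : List X → Prop} {p : D.G → Prop} (h1 : p 1)
    (h2 : ∀ w, w ≠ [] → F w → ∀ g, g ∈ Gen D F → p g → p (D.y w * g)) {g : D.G}
    (hg : g ∈ Gen D F) : p g := by
  induction hg using Subgroup.closure_induction_left with
  | one => exact h1
  | mul_left x hx y hy ih =>
    obtain ⟨w, h0, hw, rfl⟩ := hx
    exact h2 w h0 hw y hy ih
  | inv_mul_cancel x hx y hy ih =>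
    obtain ⟨w, h0, hw, rfl⟩ := hx
    rw [y_inv h0]
    exact h2 w h0 hw y hy ih

theorem conj_mem {A : List X → Prop} {a : List X} (ha : a ≠ [])
    (h : ∀ b, b ≠ [] → A b → Zr ρ (b ++ a ++ b) ∧ (A (a ++ b) ∨ Zr ρ (a ++ b)) ∧
      (A (b ++ a) ∨ Zr ρ (b ++ a)) ∧ (A (a ++ b ++ a) ∨ Zr ρ (a ++ b ++ a)))
    {g : D.G} (hg : g ∈ Gen D A) : D.y a * g * (D.y a)⁻¹ ∈ Gen D A := by
  refine Gen_ind (p := fun g => D.y a * g * (D.y a)⁻¹ ∈ Gen D A) (by simp) ?_ hg
  intro b hb hA g _ ih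
  obtain ⟨h1, h2, h3, h4⟩ := h b hb hA
  have e : D.y a * (D.y b * g) * (D.y a)⁻¹ =
      D.y a * D.y b * (D.y a)⁻¹ * (D.y a * g * (D.y a)⁻¹) := by group
  rw [e, D.st a b ha hb h1]
  exact mul_mem (mul_mem (mul_mem (mul_mem (y_mem hb (Or.inl hA)) (y_mem (by simp [ha]) h2))
    (y_mem (by simp [ha]) h3)) (y_mem (by simp [ha]) h4)) ih

theorem norm_of {F : List X → Prop} {K : Subgroup D.G}
    (h : ∀ a, a ≠ [] → F a → ∀ k ∈ K, D.y a * k * (D.y a)⁻¹ ∈ K) {g : D.G} (hg : g ∈ Gen D F) :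
    ∀ k ∈ K, g * k * g⁻¹ ∈ K := by
  refine Gen_ind (p := fun g => ∀ k ∈ K, g * k * g⁻¹ ∈ K) (by simp) ?_ hg
  intro a ha hF g _ ih k hk
  have e : D.y a * g * k * (D.y a * g)⁻¹ = D.y a * (g * k * g⁻¹) * (D.y a)⁻¹ := by group
  rw [e]
  exact h a ha hF _ (ih k hk)

theorem pi_mul {w : List X} (h : w ≠ []) (g : D.G) :
    ((D.π (D.y w * g) : (B ρ (ZMod 2))ˣ) : B ρ (ZMod 2)) - 1 = wd ρ (ZMod 2) w +
      ((D.π g : B ρ (ZMod 2)) - 1) + wd ρ (ZMod 2) w * ((D.π g : B ρ (ZMod 2)) - 1) := by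
  rw [map_mul, Units.val_mul, D.π_y w h, add_mul, one_mul, mul_sub, mul_one]
  abel

theorem pi_mem {F : List X → Prop} (hF : Closed ρ F) {g : D.G} (hg : g ∈ Gen D F) :
    ((D.π g : (B ρ (ZMod 2))ˣ) : B ρ (ZMod 2)) - 1 ∈ Sp ρ (ZMod 2) F := by
  refine Gen_ind (p := fun g => ((D.π g : (B ρ (ZMod 2))ˣ) : B ρ (ZMod 2)) - 1 ∈ Sp ρ (ZMod 2) F)
    (by simp) ?_ hg
  intro w h0 hw g _ ih
  rw [pi_mul h0]
  exact add_mem (add_mem (wd_mem_Sp hw) ih) (wd_mul_mem (fun b hb => hF w b hw hb) ih)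

theorem lemC (P : Ph ρ) {F : List X → Prop} (hF : Closed ρ F) {d : ℕ} (hd : 1 ≤ d) {g : D.G}
    (hg : g ∈ Gen D fun w => F w ∧ d ≤ w.length) (hπ : D.π g = 1) :
    g ∈ Gen D fun w => F w ∧ d + 1 ≤ w.length := by
  classical
  have ne : ∀ w : List X, d ≤ w.length → w ≠ [] := fun w h e => by subst e; simp at h; omega
  set K := Gen D fun w => F w ∧ d + 1 ≤ w.length with hK
  have cl : ∀ a b, F a → F b → d + 1 ≤ (a ++ b).length →
      (F (a ++ b) ∧ d + 1 ≤ (a ++ b).length) ∨ Zr ρ (a ++ b) := fun a b ha hb h =>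
    (hF a b ha hb).imp_left fun h' => ⟨h', h⟩
  have cl3 : ∀ a b, F a → F b → d + 1 ≤ (a ++ b ++ a).length →
      (F (a ++ b ++ a) ∧ d + 1 ≤ (a ++ b ++ a).length) ∨ Zr ρ (a ++ b ++ a) := fun a b ha hb h =>
    (hF a b ha hb).elim (fun h' => cl _ _ h' ha h) fun h' => Or.inr (h'.append_right a)
  have hnorm : ∀ g ∈ Gen D fun w => F w ∧ d ≤ w.length, ∀ k ∈ K, g * k * g⁻¹ ∈ K := by
    refine fun g hg => norm_of (fun a ha hFa k hk => ?_) hg
    rcases hFa.2.eq_or_lt with h | h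
    · refine conj_mem ha (fun b hb hA => ⟨zr_T P hb (by omega), cl _ _ hFa.1 hA.1 ?_,
        cl _ _ hA.1 hFa.1 ?_, cl3 _ _ hFa.1 hA.1 ?_⟩) hk <;> simp only [List.length_append] <;>
        omega
    · have : D.y a ∈ K := y_mem ha (Or.inl ⟨hFa.1, h⟩)
      exact mul_mem (mul_mem this hk) (inv_mem this)
  have hl : ∀ l : List (List X), (∀ w ∈ l, F w ∧ w.length = d) →
      (l.map D.y).prod ∈ Gen D fun w => F w ∧ d ≤ w.length := fun l h =>
    list_prod_mem (by
      intro x hx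
      obtain ⟨w, hw, rfl⟩ := List.mem_map.1 hx
      exact y_mem (ne w (h w hw).2.ge) (Or.inl ⟨(h w hw).1, (h w hw).2.ge⟩))
  have hdec : ∃ l : List (List X), (∀ w ∈ l, F w ∧ w.length = d) ∧
      ∃ k ∈ K, g = (l.map D.y).prod * k := by
    refine Gen_ind (p := fun g => ∃ l : List (List X), (∀ w ∈ l, F w ∧ w.length = d) ∧
      ∃ k ∈ K, g = (l.map D.y).prod * k) ⟨[], by simp, 1, one_mem _, by simp⟩ ?_ hg
    rintro w h0 hw g - ⟨l, h1, k, hk, rfl⟩
    rcases hw.2.eq_or_lt with h | h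
    · exact ⟨w :: l, by simpa [hw.1, h] using h1, k, hk, by simp [mul_assoc]⟩
    · refine ⟨l, h1, (l.map D.y).prod⁻¹ * D.y w * (l.map D.y).prod⁻¹⁻¹ * k,
        mul_mem (hnorm _ (inv_mem (hl l h1)) _ (y_mem h0 (Or.inl ⟨hw.1, h⟩))) hk, by group⟩
  have hmove : ∀ (u : List X) (l : List (List X)), (∀ w ∈ l, F w ∧ w.length = d) → u ∈ l →
      ∃ l' : List (List X), l'.length + 1 = l.length ∧ (∀ w ∈ l', F w ∧ w.length = d) ∧
        ∃ k ∈ K, (l.map D.y).prod = D.y u * (l'.map D.y).prod * k := by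
    intro u l
    induction l with
    | nil => simp
    | cons v l ih =>
      intro h hu
      have h' : ∀ w ∈ l, F w ∧ w.length = d := fun w hw => h w (List.mem_cons_of_mem _ hw)
      by_cases e : u = v
      · exact ⟨l, rfl, h', 1, one_mem _, by simp [e]⟩
      · obtain ⟨l', e1, e2, k, hk, e3⟩ := ih h' ((List.mem_cons.1 hu).resolve_left e)
        have hv := h v List.mem_cons_self
        have hu' := h u hu
        have e4 : ∀ w ∈ v :: l', F w ∧ w.length = d := by simpa [hv] using e2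
        have s := D.st v u (ne v hv.2.ge) (ne u hu'.2.ge) (zr_T P (ne u hu'.2.ge) (by omega))
        have hk0 : D.y (v ++ u) * D.y (u ++ v) * D.y (v ++ u ++ v) ∈ K := by
          refine mul_mem (mul_mem (y_mem (ne _ ?_) (cl _ _ hv.1 hu'.1 ?_))
            (y_mem (ne _ ?_) (cl _ _ hu'.1 hv.1 ?_))) (y_mem (ne _ ?_) (cl3 _ _ hv.1 hu'.1 ?_)) <;>
            simp only [List.length_append] <;> omega
        refine ⟨v :: l', by simp [e1], e4, _, mul_mem (hnorm _ (inv_mem (hl _ e4)) _ hk0) hk, ?_⟩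
        rw [List.map_cons, List.prod_cons, e3, List.map_cons, List.prod_cons]
        calc D.y v * (D.y u * (l'.map D.y).prod * k)
            = D.y v * D.y u * (D.y v)⁻¹ * D.y v * (l'.map D.y).prod * k := by group
          _ = _ := by rw [s]; group
  have hKc : Closed ρ fun w => F w ∧ d + 1 ≤ w.length := fun a b ha hb =>
    cl a b ha.1 hb.1 (by simp only [List.length_append]; omega)
  have hlin : ∀ l : List (List X), (∀ w ∈ l, F w ∧ w.length = d) → ∀ k ∈ K,
      ((D.π ((l.map D.y).prod * k) : (B ρ (ZMod 2))ˣ) : B ρ (ZMod 2)) - 1 -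
        (l.map (wd ρ (ZMod 2))).sum ∈ Sp ρ (ZMod 2) fun w => d + 1 ≤ w.length := by
    intro l h k hk
    induction l with
    | nil => simpa using Sp_mono (fun w h => h.2) (pi_mem hKc hk)
    | cons v l ih =>
      have h' : ∀ w ∈ l, F w ∧ w.length = d := fun w hw => h w (List.mem_cons_of_mem _ hw)
      have hv := h v List.mem_cons_self
      have h1 : (l.map D.y).prod * k ∈ Gen D fun w => 1 ≤ w.length :=
        mul_mem (Gen_mono (fun w h => Or.inl (hd.trans h.2)) (hl l h'))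
          (Gen_mono (fun w h => Or.inl (by omega)) hk)
      have h2 := pi_mem (fun a b ha _ => Or.inl (by simp only [List.length_append]; omega)) h1
      have h3 := wd_mul_mem (H := fun w => d + 1 ≤ w.length) (a := v)
        (fun b hb => Or.inl (by simp only [List.length_append]; omega)) h2
      rw [List.map_cons, List.prod_cons, mul_assoc, pi_mul (ne v hv.2.ge), List.map_cons,
        List.sum_cons]
      convert add_mem (ih h') h3 using 1
      abel
  have key : ∀ n, ∀ l : List (List X), l.length = n → (∀ w ∈ l, F w ∧ w.length = d) → ∀ k ∈ K,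
      D.π ((l.map D.y).prod * k) = 1 → (l.map D.y).prod * k ∈ K := by
    intro n
    induction n using Nat.strong_induction_on with
    | _ n ih =>
    intro l hn h k hk h1
    rcases l with _ | ⟨w, l⟩
    · simpa using hk
    have h' : ∀ w ∈ l, F w ∧ w.length = d := fun w hw => h w (List.mem_cons_of_mem _ hw)
    have hw := h w List.mem_cons_self
    rw [List.length_cons] at hn
    by_cases hz : Zr ρ w
    · rw [List.map_cons, List.prod_cons, D.y_zr w hz, one_mul] at h1 ⊢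
      exact ih _ (by omega) l rfl h' k hk h1
    by_cases hu : ∃ u ∈ l, Eqv ρ u w
    · obtain ⟨u, hu, e⟩ := hu
      obtain ⟨l', e1, e2, k', hk', e3⟩ := hmove u l h' hu
      have e4 : ((w :: l).map D.y).prod * k = (l'.map D.y).prod * (k' * k) := by
        rw [List.map_cons, List.prod_cons, e3, D.y_eqv _ _ e, ← mul_assoc, ← mul_assoc,
          D.y_sq w (ne w hw.2.ge), one_mul, mul_assoc]
      rw [e4] at h1 ⊢
      exact ih _ (by omega) l' rfl e2 _ (mul_mem hk' hk) h1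
    · exfalso
      obtain ⟨c, hc⟩ := exists_coef (k := ZMod 2) w hz
      have h2 := lin_eq_on c 0 (fun u hu => by
        rw [hc, if_neg fun e => by have := e.length; omega]; rfl) (hlin _ h k hk)
      have h3 : c (l.map (wd ρ (ZMod 2))).sum = 0 := by
        rw [map_list_sum]
        refine List.sum_eq_zero fun x hx => ?_
        simp only [List.map_map, List.mem_map, Function.comp] at hx
        obtain ⟨u, hu', rfl⟩ := hx
        rw [hc, if_neg fun e => hu ⟨u, hu', e⟩]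
      rw [h1, Units.val_one, sub_self, zero_sub, map_neg, List.map_cons, List.sum_cons, map_add, h3,
        hc, if_pos Eqv.rfl] at h2
      simp at h2
  obtain ⟨l, h1, k, hk, rfl⟩ := hdec
  exact key _ l rfl h1 k hk hπ

theorem lemC' (P : Ph ρ) {F : List X → Prop} (hF : Closed ρ F) {L : ℕ}
    (hL : ∀ w, F w → w.length ≤ L) {g : D.G} (hg : g ∈ Gen D F) (hπ : D.π g = 1) : g = 1 := by
  have h : ∀ d, g ∈ Gen D fun w => F w ∧ d + 1 ≤ w.length := by
    intro d
    induction d with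
    | zero => exact Gen_le (fun w h0 hw => y_mem h0 (Or.inl ⟨hw, List.length_pos_iff.2 h0⟩)) hg
    | succ d ih => exact lemC P hF (by omega) ih hπ
  exact Subgroup.mem_bot.1 (Gen_le (fun w _ hw => by have := hL w hw.1; omega) (h L))

theorem split {F : List X → Prop} (hF : Flat ρ F) (p : List X → Prop) {s : D.G}
    (hs : s ∈ Gen D F) :
    ∃ s1 ∈ Gen D fun w => F w ∧ p w, ∃ s2 ∈ Gen D fun w => F w ∧ ¬ p w, s = s1 * s2 := by
  refine Gen_ind (p := fun s => ∃ s1 ∈ Gen D fun w => F w ∧ p w,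
    ∃ s2 ∈ Gen D fun w => F w ∧ ¬ p w, s = s1 * s2) ⟨1, one_mem _, 1, one_mem _, by simp⟩ ?_ hs
  rintro w h0 hw g - ⟨s1, h1, s2, h2, rfl⟩
  by_cases hp : p w
  · exact ⟨_, mul_mem (y_mem h0 (Or.inl ⟨hw, hp⟩)) h1, s2, h2, by rw [mul_assoc]⟩
  · refine ⟨s1, h1, _, mul_mem (y_mem h0 (Or.inl ⟨hw, hp⟩)) h2, ?_⟩
    have hc : D.y w * s1 = s1 * D.y w := by
      refine Gen_ind (p := fun s1 => D.y w * s1 = s1 * D.y w) (by simp) ?_ h1
      intro b hb hFb g _ ih
      have e := D.st w b h0 hb ((hF b w hFb.1 hw).append_right b)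
      rw [D.y_zr _ (hF w b hw hFb.1), D.y_zr _ (hF b w hFb.1 hw),
        D.y_zr _ ((hF w b hw hFb.1).append_right w), mul_one, mul_one, mul_one,
        mul_inv_eq_iff_eq_mul] at e
      rw [← mul_assoc, e, mul_assoc, ih, mul_assoc]
    rw [← mul_assoc, hc, mul_assoc]

/-- products of at most `n` elements with property `S` -/
def Pr {G : Type} [Group G] (S : G → Prop) (n : ℕ) (g : G) : Prop :=
  ∃ l : List G, l.length ≤ n ∧ (∀ s ∈ l, S s) ∧ l.prod = g

section Pr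
variable {G : Type} [Group G] {S S' : G → Prop}

theorem Pr.one (n : ℕ) : Pr S n 1 := ⟨[], by simp, by simp, rfl⟩

theorem Pr.single {g : G} (h : S g) : Pr S 1 g := ⟨[g], by simp, by simpa, by simp⟩

theorem Pr.mul {m n : ℕ} {g h : G} (hg : Pr S m g) (hh : Pr S n h) : Pr S (m + n) (g * h) := by
  obtain ⟨l, a1, a2, rfl⟩ := hg
  obtain ⟨l', b1, b2, rfl⟩ := hh
  exact ⟨l ++ l', by simp; omega, fun s hs => (List.mem_append.1 hs).elim (a2 s) (b2 s), by simp⟩

theorem Pr.mono {n : ℕ} {g : G} (hg : Pr S n g) (h : ∀ s, S s → S' s) : Pr S' n g := by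
  obtain ⟨l, a1, a2, rfl⟩ := hg
  exact ⟨l, a1, fun s hs => h s (a2 s hs), rfl⟩

theorem Pr.conj {n : ℕ} {g : G} (hg : Pr S n g) (a : G) (h : ∀ s, S s → S (a * s * a⁻¹)) :
    Pr S n (a * g * a⁻¹) := by
  obtain ⟨l, a1, a2, rfl⟩ := hg
  refine ⟨l.map (MulAut.conj a), by simpa, ?_, by rw [← map_list_prod]; rfl⟩
  intro s hs
  obtain ⟨t, ht, rfl⟩ := List.mem_map.1 hs
  exact h t (a2 t ht)

theorem Pr.ind {p : ℕ → G → Prop} (h0 : ∀ n, p n 1)
    (h1 : ∀ n s g, S s → p n g → p (n + 1) (s * g)) {n : ℕ} {g : G} (hg : Pr S n g) : p n g := by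
  obtain ⟨l, a1, a2, rfl⟩ := hg
  induction l generalizing n with
  | nil => exact h0 n
  | cons s l ih =>
    obtain ⟨n, rfl⟩ : ∃ m, n = m + 1 := ⟨n - 1, by simp at a1; omega⟩
    exact h1 n s _ (a2 s List.mem_cons_self)
      (ih (by simpa using a1) fun t ht => a2 t (List.mem_cons_of_mem _ ht))

theorem Pr.mem {n : ℕ} {g : G} (hg : Pr S n g) {H : Subgroup G} (h : ∀ s, S s → s ∈ H) :
    g ∈ H := by
  obtain ⟨l, -, a2, rfl⟩ := hg
  exact list_prod_mem fun s hs => h s (a2 s hs)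

end Pr

variable (D) in
/-- syllables -/
def Syl (Q : List X → Prop) (s : D.G) : Prop := ∃ F, Flat ρ F ∧ (∀ w, F w → Q w) ∧ s ∈ Gen D F

theorem Syl.mono {Q Q' : List X → Prop} (h : ∀ w, Q w → ¬ Zr ρ w → Q' w) {s : D.G}
    (hs : Syl D Q s) : Syl D Q' s := by
  obtain ⟨F, h1, h2, h3⟩ := hs
  exact ⟨fun w => F w ∧ ¬ Zr ρ w, h1.mono fun _ h => h.1, fun w hw => h w (h2 w hw.1) hw.2,
    Gen_mono (fun w hw => (em (Zr ρ w)).symm.imp_left fun h => ⟨hw, h⟩) h3⟩

section level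
variable (P : Ph ρ) (i : ℕ)

/-- `w` covers the residue `z` modulo `M` -/
def cov (M : ℕ) (z : ℤ) (w : List X) : Prop :=
  ∃ t : ℕ, t < w.length ∧ P.φ i w + t ≡ z [ZMOD M]

variable {P i} {M : ℕ} {z : ℤ}

theorem cov_sub (hM : M ∣ P.N i) {α c β : List X} (hz : ¬ Zr ρ (α ++ c ++ β))
    (hc : P.m i ≤ c.length) (h : cov P i M z c) : cov P i M z (α ++ c ++ β) := by
  obtain ⟨t, h1, h2⟩ := h
  have e := (P.E i α c β hz hc).of_dvd (Int.natCast_dvd_natCast.2 hM)
  refine ⟨α.length + t, by simp only [List.length_append]; omega, ?_⟩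
  push_cast
  rw [← add_assoc]
  exact (e.symm.add_right _).trans h2

theorem closed_N (hM : M ∣ P.N i) : Closed ρ fun w => P.m i ≤ w.length ∧ ¬ cov P i M z w := by
  intro a b ha hb
  refine (em (Zr ρ (a ++ b))).symm.imp_left fun hz =>
    ⟨by simp only [List.length_append]; omega, ?_⟩
  rintro ⟨t, h1, h2⟩
  have e1 := (P.E i [] a b (by simpa using hz) ha.1).of_dvd (Int.natCast_dvd_natCast.2 hM)
  have e2 := (P.E i a b [] (by simpa using hz) hb.1).of_dvd (Int.natCast_dvd_natCast.2 hM)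
  simp only [List.nil_append, List.append_nil, List.length_nil, Nat.cast_zero, add_zero] at e1 e2
  rcases lt_or_ge t a.length with h | h
  · exact ha.2 ⟨t, h, (e1.add_right _).trans h2⟩
  · obtain ⟨t, rfl⟩ := Nat.exists_eq_add_of_le h
    refine hb.2 ⟨t, by simpa using h1, (e2.add_right _).trans ?_⟩
    rw [add_assoc]
    exact_mod_cast h2

theorem len_lt (hM : 0 < M) {w : List X} (h : ¬ cov P i M z w) : w.length < M := by
  by_contra hn
  have h0 : (0 : ℤ) < M := by exact_mod_cast hM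
  have h1 := Int.emod_nonneg (z - P.φ i w) h0.ne'
  have h2 := Int.emod_lt_of_pos (z - P.φ i w) h0
  refine h ⟨((z - P.φ i w) % M).toNat, by omega, ?_⟩
  rw [Int.toNat_of_nonneg h1]
  simpa using (Int.mod_modEq (z - P.φ i w) M).add_left (P.φ i w)

theorem two_cov {α c β c' γ : List X} (hc : P.m i ≤ c.length) (hc' : P.m i ≤ c'.length)
    (h : cov P i (P.N i) z c) (h' : cov P i (P.N i) z c')
    (hl : c.length + β.length + c'.length ≤ P.N i) : Zr ρ (α ++ c ++ β ++ c' ++ γ) := by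
  by_contra hz
  obtain ⟨t, h1, h2⟩ := h
  obtain ⟨t', h1', h2'⟩ := h'
  have e1 := P.E i α c (β ++ c' ++ γ) (by simpa using hz) hc
  have e2 := P.E i (α ++ c ++ β) c' γ hz hc'
  simp only [List.append_assoc, List.length_append] at e1 e2
  have e3 := (((e1.symm.add_right t).trans h2).trans h2'.symm).trans (e2.add_right t')
  have e4 := e3.dvd
  have e5 := Int.le_of_dvd (by push_cast; omega) e4
  push_cast at e5
  omega

theorem kill (hM : M ∣ P.N i) (hM0 : 0 < M) {ν h : D.G}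
    (hν : ν ∈ Gen D fun w => P.m i ≤ w.length ∧ ¬ cov P i M z w)
    (hh : h ∈ Gen D fun w => P.m i ≤ w.length ∧ cov P i M z w) (hπ : D.π (h * ν) = 1) :
    ν = 1 := by
  classical
  have hC : Closed ρ fun w => P.m i ≤ w.length ∧ cov P i M z w := fun a b ha _ =>
    (em (Zr ρ (a ++ b))).symm.imp_left fun hz => ⟨by simp only [List.length_append]; omega, by
      simpa using cov_sub (α := []) hM (by simpa using hz) ha.1 ha.2⟩
  have e : D.π ν = D.π h⁻¹ := by
    rw [map_mul] at hπ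
    rw [map_inv, eq_inv_of_mul_eq_one_right hπ]
  have h1 := pi_mem (closed_N hM) hν
  have h2 := pi_mem hC (inv_mem hh)
  rw [← e] at h2
  obtain ⟨f, hf⟩ := exists_proj (k := ZMod 2) (ρ := ρ) (cov P i M z) fun w w' h => by
    unfold cov; rw [P.inv i w w' h, h.length]
  have h3 := lin_eq_on f 0 (fun w hw => by rw [hf, if_neg hw.2]; rfl) h1
  have h4 := lin_eq_on f LinearMap.id (fun w hw => by rw [hf, if_pos hw.2]; rfl) h2
  rw [h3] at h4
  refine lemC' P (closed_N hM) (L := M) (fun w hw => (len_lt hM0 hw.2).le) hν (Units.ext ?_)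
  exact sub_eq_zero.1 h4.symm

theorem ext_cl {N' : List X → Prop} (hN : Closed ρ N') {a α : List X} (ha : N' a)
    (hα : α = [] ∨ N' α) : (N' (a ++ α) ∨ Zr ρ (a ++ α)) ∧ (N' (α ++ a) ∨ Zr ρ (α ++ a)) := by
  rcases hα with rfl | hα
  · simp [ha]
  · exact ⟨hN _ _ ha hα, hN _ _ hα ha⟩

/-- the words `α c β` with `c ∈ C` and `α, β` empty or in `N'` -/
def Ext (N' C : List X → Prop) (w : List X) : Prop :=
  ∃ α c β, w = α ++ c ++ β ∧ C c ∧ (α = [] ∨ N' α) ∧ (β = [] ∨ N' β)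

theorem ext_norm {N' C : List X → Prop} (hN : Closed ρ N')
    (hz : ∀ a b, N' a → Ext N' C b → Zr ρ (b ++ a ++ b)) {g : D.G} (hg : g ∈ Gen D N') :
    ∀ k ∈ Gen D (Ext N' C), g * k * g⁻¹ ∈ Gen D (Ext N' C) := by
  refine norm_of (fun a ha hNa k hk => conj_mem ha (fun b _ hb => ⟨hz a b hNa hb, ?_⟩) hk) hg
  have hl : ∀ b, Ext N' C b → Ext N' C (a ++ b) ∨ Zr ρ (a ++ b) := by
    rintro b ⟨α, c, β, rfl, h1, h2, h3⟩
    refine (ext_cl hN hNa h2).1.imp (fun h => ⟨_, c, β, by simp, h1, Or.inr h, h3⟩) fun h => ?_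
    simpa using h.append_right (c ++ β)
  have hr : ∀ b, Ext N' C b → Ext N' C (b ++ a) ∨ Zr ρ (b ++ a) := by
    rintro b ⟨α, c, β, rfl, h1, h2, h3⟩
    refine (ext_cl hN hNa h3).2.imp (fun h => ⟨α, c, _, by simp, h1, h2, Or.inr h⟩) fun h => ?_
    simpa using h.append_left (α ++ c)
  exact ⟨hl b hb, hr b hb, (hl b hb).elim (hr _) fun h => Or.inr (h.append_right a)⟩

theorem round (hM : P.N i = 16 * M) (hM0 : 0 < M) {Q : List X → Prop} {L n : ℕ}
    (hQ : ∀ w, Q w → P.m i ≤ w.length ∧ w.length ≤ L) (hL : 2 * L + 3 * M ≤ P.N i) (z : ℤ)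
    {g : D.G} (hπ : D.π g = 1) (hg : Pr (Syl D Q) n g) :
    Pr (Syl D fun w => ∃ α c β, w = α ++ c ++ β ∧ Q c ∧ cov P i M z c ∧ α.length < M ∧
      β.length < M) (16 * n) g := by
  have hMN : M ∣ P.N i := ⟨16, by omega⟩
  let N' : List X → Prop := fun w => P.m i ≤ w.length ∧ ¬ cov P i M z w
  let A : ℕ → List X → Prop := fun t => Ext N' fun c => Q c ∧ cov P i (P.N i) (z + t * M) c
  have hlen : ∀ α, α = [] ∨ N' α → α.length < M := by
    rintro α (rfl | h)
    · exact hM0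
    · exact len_lt hM0 h.2
  have hA : ∀ t a b b', a.length ≤ M → A t b → A t b' → Zr ρ (b ++ a ++ b') := by
    rintro t a _ _ ha ⟨α, c, β, rfl, h1, -, h3⟩ ⟨α', c', β', rfl, h1', h2', -⟩
    have := two_cov (α := α) (β := β ++ a ++ α') (γ := β') (hQ c h1.1).1 (hQ c' h1'.1).1 h1.2 h1'.2
      (by
        have := hlen _ h3
        have := hlen _ h2'
        have := (hQ c h1.1).2
        have := (hQ c' h1'.1).2
        simp only [List.length_append]
        omega)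
    simpa using this
  have hcov : ∀ (t : ℕ) c, cov P i (P.N i) (z + t * M) c → cov P i M z c := by
    rintro t c ⟨s, h1, h2⟩
    exact ⟨s, h1, (h2.of_dvd (Int.natCast_dvd_natCast.2 hMN)).trans (by simp [Int.ModEq])⟩
  have hcov' : ∀ c, cov P i M z c → ∃ t, t < 16 ∧ cov P i (P.N i) (z + (t : ℕ) * M) c := by
    rintro c ⟨s, h1, h2⟩
    obtain ⟨k, hk⟩ := h2.symm.dvd
    refine ⟨(k % 16).toNat, by omega, s, h1, ?_⟩
    rw [Int.toNat_of_nonneg (by omega), hM]
    refine (Int.modEq_iff_dvd.2 ⟨k / 16, ?_⟩).symm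
    push_cast
    have := Int.emod_add_mul_ediv k 16
    linear_combination hk - M * this
  have hsp : ∀ T F, Flat ρ F → (∀ w, F w → ∃ t, t < T ∧ A t w) → ∀ s ∈ Gen D F,
      Pr (fun s => ∃ t, s ∈ Gen D (A t)) T s := by
    intro T
    induction T with
    | zero =>
      intro F _ h s hs
      rw [Subgroup.mem_bot.1 (Gen_le (fun w _ hw => by obtain ⟨t, ht, -⟩ := h w hw; omega) hs)]
      exact Pr.one _
    | succ T ih =>
      intro F hF h s hs
      obtain ⟨s1, h1, s2, h2, rfl⟩ := split hF (fun w => ¬ A T w) hs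
      refine (ih _ (hF.mono fun _ h => h.1) (fun w hw => ?_) s1 h1).mul
        (Pr.single ⟨T, Gen_mono (fun w hw => Or.inl (not_not.1 hw.2)) h2⟩)
      obtain ⟨t, ht, h'⟩ := h w hw.1
      exact ⟨t, lt_of_le_of_ne (by omega) fun e => hw.2 (e ▸ h'), h'⟩
  have hdec : ∃ h, Pr (fun s => ∃ t, s ∈ Gen D (A t)) (16 * n) h ∧ ∃ ν ∈ Gen D N', g = h * ν := by
    refine Pr.ind (p := fun n g => ∃ h, Pr (fun s => ∃ t, s ∈ Gen D (A t)) (16 * n) h ∧
      ∃ ν ∈ Gen D N', g = h * ν) (fun n => ⟨1, Pr.one _, 1, one_mem _, by simp⟩) ?_ hg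
    rintro n s g ⟨F, hF, hFQ, hs⟩ ⟨h, hh, ν, hν, rfl⟩
    obtain ⟨s1, h1, s2, h2, rfl⟩ := split hF (cov P i M z) hs
    have h2' : s2 ∈ Gen D N' := Gen_mono (fun w hw => Or.inl ⟨(hQ w (hFQ w hw.1)).1, hw.2⟩) h2
    have h3 := hsp 16 _ (hF.mono fun _ h => h.1) (fun w hw => by
      obtain ⟨t, ht, h'⟩ := hcov' w hw.2
      exact ⟨t, ht, [], w, [], by simp, ⟨hFQ w hw.1, h'⟩, Or.inl rfl, Or.inl rfl⟩) s1 h1
    have h4 := hh.conj s2 fun s ⟨t, hs⟩ => ⟨t, ext_norm (closed_N hMN)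
      (fun a b ha hb => hA t a b b (len_lt hM0 ha.2).le hb hb) h2' s hs⟩
    exact ⟨_, by simpa [mul_add, add_comm] using h3.mul h4, s2 * ν, mul_mem h2' hν, by group⟩
  obtain ⟨h, hh, ν, hν, rfl⟩ := hdec
  have h1 : ν = 1 := kill hMN hM0 hν (hh.mem fun s ⟨t, hs⟩ => Gen_mono (by
    rintro _ ⟨α, c, β, rfl, h1, -, -⟩
    refine (em (Zr ρ (α ++ c ++ β))).symm.imp_left fun hz => ⟨?_,
      cov_sub hMN hz (hQ c h1.1).1 (hcov t c h1.2)⟩
    have := (hQ c h1.1).1
    simp only [List.length_append]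
    omega) hs) hπ
  rw [h1, mul_one]
  refine hh.mono fun s ⟨t, hs⟩ => ⟨A t, fun a b ha hb => ?_, ?_, hs⟩
  · simpa using hA t [] a b (Nat.zero_le _) ha hb
  · rintro _ ⟨α, c, β, rfl, h1, h2, h3⟩
    exact ⟨α, c, β, rfl, h1.1, hcov t c h1.2, hlen _ h2, hlen _ h3⟩

theorem level {n : ℕ} {g : D.G} (hπ : D.π g = 1)
    (hg : Pr (Syl D fun w => P.m i ≤ w.length ∧ 8 * w.length ≤ P.N i) n g) :
    Pr (Syl D fun w => P.m (i + 1) ≤ w.length ∧ w.length ≤ P.N i) (256 * n) g := by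
  obtain ⟨M, hM⟩ := P.dvd i
  have h1 := P.mN i
  have h2 := P.m_lt i
  have hM0 : 0 < M := by omega
  have hMN : M ∣ P.N i := ⟨16, by omega⟩
  have r1 := round hM hM0 (L := 2 * M) (fun w hw => ⟨hw.1, by omega⟩) (by omega) 0 hπ hg
  have r2 := round hM hM0 (L := 4 * M) (by
    rintro _ ⟨α, c, β, rfl, h1, -, h3, h4⟩
    simp only [List.length_append]
    omega) (by omega) (P.m (i + 1)) hπ r1
  rw [← mul_assoc] at r2
  refine r2.mono fun s hs => hs.mono ?_
  rintro _ ⟨α, _, β, rfl, ⟨α', c, β', rfl, a1, a2, a3, a4⟩, b2, b3, b4⟩ hz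
  refine ⟨?_, by simp only [List.length_append]; omega⟩
  obtain ⟨t, c1, c2⟩ := cov_sub hMN hz (by simp only [List.length_append]; omega) b2
  obtain ⟨t', c1', c2'⟩ := cov_sub (α := α ++ α') (β := β' ++ β) hMN (by simpa using hz) a1.1 a2
  simp only [List.append_assoc] at c1 c2 c1' c2' ⊢
  by_contra hn
  have e := (c2.sub c2').dvd
  have e2 := Int.le_of_dvd (by omega) e
  omega

theorem crit {n L : ℕ} {g : D.G} (hπ : D.π g = 1)
    (hg : Pr (Syl D fun w => P.m i ≤ w.length ∧ w.length ≤ L) n g)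
    (hL : (4 * n + 3) * L < P.N i) : g = 1 := by
  let N' : List X → Prop := fun w => P.m i ≤ w.length ∧ ¬ cov P i (P.N i) 0 w
  let K : ℕ → List X → Prop := fun k w =>
    (P.m i ≤ w.length ∧ cov P i (P.N i) 0 w) ∧ w.length ≤ (2 * k + 1) * L
  have hdec : n ≤ n → ∃ c ∈ Gen D (K n), ∃ ν ∈ Gen D N', g = c * ν := by
    refine Pr.ind (p := fun k g => k ≤ n → ∃ c ∈ Gen D (K k), ∃ ν ∈ Gen D N', g = c * ν)
      (fun k _ => ⟨1, one_mem _, 1, one_mem _, by simp⟩) ?_ hg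
    rintro k s g ⟨F, hF, hFQ, hs⟩ ih hk
    obtain ⟨c, hc, ν, hν, rfl⟩ := ih (by omega)
    obtain ⟨s1, h1, s2, h2, rfl⟩ := split hF (cov P i (P.N i) 0) hs
    have hlen : ∀ α, α = [] ∨ (F α ∧ ¬ cov P i (P.N i) 0 α) → α.length ≤ L := by
      rintro α (rfl | h)
      · exact Nat.zero_le _
      · exact (hFQ α h.1).2
    have h3 := ext_norm (C := K k) (hF.mono fun _ h => h.1).closed (by
      rintro a _ ha ⟨α, b, β, rfl, a1, a2, a3⟩
      have := two_cov (α := α) (β := β ++ a ++ α) (γ := β) a1.1.1 a1.1.1 a1.1.2 a1.1.2 (by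
        have := hlen _ a2
        have := hlen _ a3
        have := (hFQ a ha.1).2
        have := a1.2
        have := Nat.mul_le_mul_right L hk
        simp only [List.length_append]
        nlinarith)
      simpa using this) h2 c
      (Gen_mono (fun w hw => Or.inl ⟨[], w, [], by simp, hw, Or.inl rfl, Or.inl rfl⟩) hc)
    refine ⟨s1 * (s2 * c * s2⁻¹), mul_mem (Gen_mono (fun w hw => Or.inl
      ⟨⟨(hFQ w hw.1).1, hw.2⟩, by have := (hFQ w hw.1).2; nlinarith⟩) h1) (Gen_mono ?_ h3),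
      s2 * ν, mul_mem (Gen_mono (fun w hw => Or.inl ⟨(hFQ w hw.1).1, hw.2⟩) h2) hν, by group⟩
    rintro _ ⟨α, b, β, rfl, a1, a2, a3⟩
    refine (em (Zr ρ (α ++ b ++ β))).symm.imp_left fun hz =>
      ⟨⟨?_, cov_sub dvd_rfl hz a1.1.1 a1.1.2⟩, ?_⟩
    · have := a1.1.1
      simp only [List.length_append]
      omega
    · have := hlen _ a2
      have := hlen _ a3
      have := a1.2
      simp only [List.length_append]
      nlinarith
  obtain ⟨c, hc, ν, hν, rfl⟩ := hdec le_rfl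
  have h1 : ν = 1 := kill dvd_rfl (by omega) hν (Gen_mono (fun w hw => Or.inl hw.1) hc) hπ
  rw [h1, mul_one] at hπ ⊢
  refine lemC' P (Flat.closed fun a b ha hb => ?_) (fun w hw => hw.2) hc hπ
  have := two_cov (α := []) (β := []) (γ := []) ha.1.1 hb.1.1 ha.1.2 hb.1.2 (by
    have := ha.2
    have := hb.2
    simp only [List.length_nil]
    nlinarith)
  simpa using this

end level

end G2

open G2 in
theorem StData.inj {X : Type} {ρ : Rules X} (P : Ph ρ) (D : StData ρ) :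
    Function.Injective D.π := by
  rw [injective_iff_map_eq_one]
  intro g hπ
  have h0 : g ∈ Gen D fun w => w.length ≤ 8 := by
    unfold Gen
    rw [D.gen]
    trivial
  obtain ⟨n, hn⟩ : ∃ n, Pr (Syl D fun w => P.m 0 ≤ w.length ∧ 8 * w.length ≤ P.N 0) n g := by
    refine Gen_ind (p := fun g => ∃ n,
      Pr (Syl D fun w => P.m 0 ≤ w.length ∧ 8 * w.length ≤ P.N 0) n g) ⟨0, Pr.one _⟩ ?_ h0
    rintro w hw h8 g - ⟨n, hn⟩
    refine ⟨_, (Pr.single ⟨fun u => u = w, ?_, ?_, y_mem hw (Or.inl rfl)⟩).mul hn⟩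
    · rintro _ _ rfl rfl
      simpa using zr_T P (a := []) hw (Nat.zero_le _)
    · rintro _ rfl
      have := P.mN 0
      have := P.m_lt 0
      have := List.length_pos_iff.2 hw
      have := P.m0
      omega
  have h1 : ∀ i, Pr (Syl D fun w => P.m (i + 1) ≤ w.length ∧ w.length ≤ P.N i)
      (256 ^ (i + 1) * n) g := by
    intro i
    induction i with
    | zero => simpa using level hπ hn
    | succ i ih =>
      rw [pow_succ' 256 (i + 1), mul_assoc]
      exact level hπ (ih.mono fun s hs => hs.mono fun w hw _ =>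
        ⟨hw.1, by have := P.NN i; omega⟩)
  obtain ⟨i, hi⟩ := P.grow (1024 * n + 3)
  refine crit hπ (h1 i) (lt_of_le_of_lt (Nat.mul_le_mul_right _ ?_) hi)
  have : 1 ≤ 256 ^ i := Nat.one_le_pow _ _ (by norm_num)
  rw [pow_succ]
  nlinarith

end Crest.Agent.R176
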