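import Crest.Agent.R176.Kill

/-!
# 176-M: the hierarchy
-/

set_option autoImplicit false

namespace Crest.Agent.R176.M

noncomputable def VV : ℕ → ℕ
  | 0 => E
  | n + 1 => 2 ^ VV n

theorem VV_ge (n : ℕ) : E + n ≤ VV n := by
  induction n with
  | zero => exact le_rfl
  | succ n ih => have := Nat.lt_two_pow_self (n := VV n); simp only [VV]; omega

instance (n : ℕ) : Fact (E ≤ VV n) := ⟨by have := VV_ge n; omega⟩

theorem hundred {W : ℕ} (h : 10 ≤ W) : 100 * W ≤ 2 ^ W := by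
  induction W, h using Nat.le_induction with
  | base => norm_num
  | succ n hn ih => rw [pow_succ]; omega

theorem card_Let (W : ℕ) : Nat.card (Let W) = 2 ^ (10 * W) := by
  have : Fintype.card Tr = 9 := rfl
  simp [Nat.card_eq_fintype_card, this, ← pow_mul, mul_comm]

theorem card_Hd (W : ℕ) : Nat.card (Hd W) ≤ 2 ^ (5 * W) := by
  have := Nat.card_le_card_of_injective (fun H : Hd W => (H.pc, H.imm, H.jj, H.mask, H.pp))
    (by rintro ⟨⟩ ⟨⟩ h; simpa using h)
  refine this.trans (le_of_eq ?_)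
  simp only [Nat.card_eq_fintype_card, Fintype.card_prod, Fintype.card_pi, Fintype.card_bool,
    Finset.prod_const, Finset.card_univ, Fintype.card_fin]
  ring

theorem card_Ty : ∃ C, ∀ W, Nat.card (Ty W) ≤ C * 2 ^ (5 * W) := by
  refine ⟨1024 * 2 * Nat.card Tok * 2 * Nat.card Tok * 65, fun W => ?_⟩
  simp only [Nat.card_prod, Nat.card_eq_fintype_card (α := Fin _),
    Nat.card_eq_fintype_card (α := Bool), Fintype.card_fin, Fintype.card_bool]
  calc _ = 1024 * 2 * Nat.card Tok * 2 * Nat.card Tok * 65 * Nat.card (Hd W) := by ring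
    _ ≤ _ := Nat.mul_le_mul_left _ (card_Hd W)

theorem prod_le (n : ℕ) :
    ∏ i ∈ Finset.range (n + 1), (1 + Nat.card (Let (2 ^ VV i))) ≤ 2 ^ (22 * 2 ^ VV n) := by
  have key : ∀ W : ℕ, 1 + Nat.card (Let W) ≤ 2 ^ (10 * W + 1) := fun W => by
    rw [card_Let, pow_succ]; have := Nat.two_pow_pos (10 * W); omega
  induction n with
  | zero =>
    rw [Finset.prod_range_one]
    refine (key _).trans (Nat.pow_le_pow_right two_pos ?_)
    have := Nat.two_pow_pos (VV 0); omega
  | succ n ih =>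
    rw [Finset.prod_range_succ]
    refine (Nat.mul_le_mul ih (key _)).trans ?_
    rw [← pow_add]
    refine Nat.pow_le_pow_right two_pos ?_
    have h1 := VV_ge (n + 1)
    have := hundred (W := VV (n + 1)) (by have := ten_le_E; omega)
    have e : 2 ^ VV n = VV (n + 1) := rfl
    have := ten_le_E
    omega

noncomputable def hier : Hier where
  X n := Let (2 ^ VV n)
  S n := Reg (2 ^ VV n) × Reg (2 ^ VV n)
  fin _ := inferInstance
  ne _ := inferInstance
  ρ n := rho (VV n)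
  sk _ := sk
  sk_inv n x y x' y' h := by
    obtain ⟨H, -, -, h⟩ := h
    obtain ⟨z, hz, e⟩ := Option.map_eq_some_iff.1 h.symm
    simp only [Prod.mk.injEq] at e
    obtain ⟨rfl, rfl⟩ := e
    exact ⟨Prod.ext (res_static _ _ hz false).1 (res_static _ _ hz false).2,
      Prod.ext (res_static _ _ hz true).1 (res_static _ _ hz true).2⟩
  L n := lev (VV n)
  grow_h c := by
    refine ⟨c, ?_⟩
    change c * 256 ^ c < 2 * 2 ^ 2 ^ VV (c + 1)
    have h1 := VV_ge (c + 1)
    have h2 := ten_le_E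
    have h3 := hundred (W := VV (c + 1)) (by omega)
    calc c * 256 ^ c < 2 ^ c * 256 ^ c :=
          Nat.mul_lt_mul_of_pos_right Nat.lt_two_pow_self (by positivity)
      _ = 2 ^ (9 * c) := by rw [show 256 = 2 ^ 8 from rfl, ← pow_mul, ← pow_add]; congr 1; ring
      _ ≤ 2 ^ 2 ^ VV (c + 1) := Nat.pow_le_pow_right two_pos (by omega)
      _ ≤ _ := by omega
  grow_nil A := by
    obtain ⟨C, hC⟩ := card_Ty
    refine ⟨A ^ 4 * C, ?_⟩
    set n := A ^ 4 * C with hn
    change 2 * ((A * ∏ i ∈ Finset.range (n + 1), (1 + Nat.card (Let (2 ^ VV i)))) ^ 4 *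
      Nat.card (Ty (2 ^ VV n))) + 2 ≤ 2 ^ (2 ^ 2 ^ VV n - 1)
    have h1 := VV_ge (n + 1)
    have h2 := ten_le_E
    have h3 := hundred (W := VV (n + 1)) (by omega)
    have h4 := prod_le n
    have h5 := hC (2 ^ VV n)
    have e : 2 ^ VV n = VV (n + 1) := rfl
    rw [e] at h4 h5 ⊢
    generalize VV (n + 1) = W at *
    have h6 : (A * ∏ i ∈ Finset.range (n + 1), (1 + Nat.card (Let (2 ^ VV i)))) ^ 4 *
        Nat.card (Ty W) ≤ 2 ^ (n + 93 * W) :=
      calc _ ≤ (A * 2 ^ (22 * W)) ^ 4 * (C * 2 ^ (5 * W)) :=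
            Nat.mul_le_mul (Nat.pow_le_pow_left (Nat.mul_le_mul_left _ h4) 4) h5
        _ = n * 2 ^ (93 * W) := by rw [hn]; ring
        _ ≤ 2 ^ n * 2 ^ (93 * W) := Nat.mul_le_mul_right _ Nat.lt_two_pow_self.le
        _ = _ := by rw [pow_add]
    have h7 : 2 ^ (n + 93 * W + 2) ≤ 2 ^ (2 ^ W - 1) := Nat.pow_le_pow_right two_pos (by omega)
    have h8 := Nat.two_pow_pos (n + 93 * W)
    rw [pow_add] at h7
    omega

end Crest.Agent.R176.M
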