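import Crest.Agent.R176.Sound

/-!
# 176-M: territories and their types
-/

set_option autoImplicit false

namespace Crest.Agent.R176.M

instance {W : ℕ} : Finite (Hd W) :=
  Finite.of_injective (fun H : Hd W => (H.pc, H.imm, H.jj, H.mask, H.pp))
    (by rintro ⟨⟩ ⟨⟩ h; simpa using h)

section gen
variable {W : ℕ}

open Classical in
noncomputable def role (w : List (Let W)) : Role :=
  if ∃ x ∈ w, ∃ a k, HD x ⟨a, .tok k⟩ ∧ k.rl = .left then .left
  else if ∃ x ∈ w, ∃ a k, HD x ⟨a, .tok k⟩ ∧ k.rl = .right then .right else .idle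

noncomputable def up (σ : List (Reg W × Reg W)) : Reg (2 ^ W) × Reg (2 ^ W) :=
  (fun j => (decS (σ.getD j (ro W 0, ro W 0)).2).sa, fun j => (decS (σ.getD j (ro W 0, ro W 0)).2).ss)

def bd (t : Quad (Let W)) : Prop :=
  (up (t.1.map sk)).1 = ro _ 0 ∨ (t.2.2.1 ≠ [] ∧ (up (t.2.2.1.map sk)).1 = ro _ 0)

variable {f f' g : ℕ → Let W} {b b' : BI W} {p p' : ℕ}

theorem VB.role (hW : E ≤ W) (h : VB f b p) : role (wl (2 * 2 ^ W) f) = b.tok.rl := by
  have key : ∀ r, (∃ x ∈ wl (2 * 2 ^ W) f, ∃ a k, HD x ⟨a, .tok k⟩ ∧ k.rl = r) ↔ b.tok.rl = r := by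
    intro r
    constructor
    · rintro ⟨x, hx, a, k, h1, rfl⟩
      obtain ⟨t, ht, rfl⟩ := mem_wl.1 hx
      rw [(h.tok_at hW ht h1).2.1]
    · rintro rfl
      exact ⟨f p, mem_wl.2 ⟨p, h.lt, rfl⟩, _, _, by simpa [mrk_self] using h.hD p h.lt, rfl⟩
  simp only [M.role, key]
  cases b.tok.rl <;> simp

theorem VB.up (hW : E ≤ W) (h : VB f b p) {m : ℕ} (hm : 2 ^ W ≤ m) :
    up ((wl m f).map sk) = sk b.u := by
  have key : ∀ j : Fin (2 ^ W), decS (((wl m f).map sk).getD j (ro W 0, ro W 0)).2 =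
      (cell b.c b.u j).1 := fun j => by
    have := j.2
    rw [wl_map, wl_getD' _ _ (by omega)]
    exact (h.hs j (by omega)).dec hW
  refine Prod.ext (funext fun j => ?_) (funext fun j => ?_) <;>
    simp [M.up, key, cell, Stat.sa, Stat.ss, sk, M.adr, -List.getD_eq_getElem?_getD]

theorem VB.isBlk (hW : E ≤ W) (h : VB f b p) :
    IsBlk (2 ^ W) (posS ∘ sk) (wl (2 * 2 ^ W) f) := by
  have h0 := Nat.two_pow_pos W
  obtain ⟨n, hn⟩ : ∃ n, 2 * 2 ^ W = n + 1 := ⟨2 * 2 ^ W - 1, by omega⟩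
  refine ⟨by simp, f 0, _, by rw [hn, wl_succ'], ?_⟩
  simp [posS, sk, (h.hs 0 (by omega)).dec hW, h.adr 0 (by omega), cell_kind, rv_ro]

theorem VB.glue (h : VB f b p) (h' : VB f' b' p') (hc : b'.c = b.c) (hk : b'.tok = b.tok)
    (hH : b.tok.IsAct → b'.H = b.H) (hp : p < 2 ^ W ↔ p' < 2 ^ W) :
    VB (fun t => if t < 2 ^ W then f t else f' t) ⟨b.c, mix b.u b'.u, b.tok, b.H⟩
      (if p < 2 ^ W then p else p') where
  lt := by split_ifs; exacts [h.lt, h'.lt]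
  adr t ht := by split_ifs; exacts [h.adr t ht, h'.adr t ht]
  hs t ht := by
    simp only [cell_mix]; split_ifs; exacts [h.hs t ht, hc ▸ h'.hs t ht]
  hD t ht := by
    simp only [cell_mix]
    split_ifs with h1 h2 h2
    · exact h.hD t ht
    · have := h.hD t ht
      rwa [mrk_eq_R.2 (by omega), ← (mrk_eq_R (p := p') (t := t) (k := b.tok)).2 (by omega)] at this
    · have := h'.hD t ht
      rwa [hc, mrk_eq_L.2 (by omega), ← (mrk_eq_L (p := p) (t := t) (k := b.tok)).2 (by omega)] at this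
    · exact hc ▸ hk ▸ h'.hD t ht
  hd ha := by
    by_cases h1 : p < 2 ^ W
    · simp only [h1, if_true]; exact h.hd ha
    · simp only [h1, if_false, ← hp]; exact (h'.hd (hk ▸ ha)).trans (hH ha)
  lab t ht t' ht' h1 h2 := by
    by_cases h3 : t < 2 ^ W
    · simp only [h3, h1.1 h3, if_true] at h2; exact h.lab t ht t' ht' h1 h2
    · simp only [h3, mt h1.2 h3, if_false] at h2; exact h'.lab t ht t' ht' h1 h2

theorem wl_two (f : ℕ → Let W) :
    wl (2 ^ W) f ++ wl (2 ^ W) (fun t => f (2 ^ W + t)) = wl (2 * 2 ^ W) f := by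
  rw [two_mul, wl_add]

theorem halves {a c : List (Let W)} (ha : a.length = 2 ^ W) (h : a ++ c = wl (2 * 2 ^ W) f) :
    a = wl (2 ^ W) f ∧ c = wl (2 ^ W) fun t => f (2 ^ W + t) := by
  rw [← wl_two] at h
  exact List.append_inj h (by simp [ha])

theorem wl_halves (h1 : wl (2 ^ W) f = wl (2 ^ W) g)
    (h2 : (wl (2 ^ W) fun t => f (2 ^ W + t)) = wl (2 ^ W) fun t => g (2 ^ W + t)) :
    ∀ t < 2 * 2 ^ W, g t = f t := fun _ ht =>
  (wl_inj (by rw [← wl_two, h1, h2, wl_two]) ht).symm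

theorem PS.uniq {b0 b1 c0 c1 : BI W} {ph ph' H H'} (h : PS b0 b1 ph H) (h' : PS c0 c1 ph' H')
    (e0 : b0.tok = c0.tok) (e1 : b1.tok = c1.tok) : ph = ph' ∧
      ((b0.tok.IsAct → b0.H = c0.H) → (b1.tok.IsAct → b1.H = c1.H) → H = H') ∧
      (H = H' → (b0.tok.IsAct → c0.H = b0.H) ∧ (b1.tok.IsAct → c1.H = b1.H)) := by
  rcases h with ⟨h1, h2, rfl⟩ | ⟨h1, h2, rfl⟩ <;> rcases h' with ⟨h3, h4, rfl⟩ | ⟨h3, h4, rfl⟩ <;>
    simp_all [Tok.IsAct]

end gen

abbrev Ty (W : ℕ) := Fin 1024 × Bool × Tok × Bool × Tok × Hd W × Fin 65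

section ti
variable {W : ℕ} [hW : Fact (E ≤ W)]

/-- The territory `t` has type `ϑ` and represents the upper word `ys`. -/
inductive TI (t : Quad (Let W)) (ϑ : Ty W) (ys : List (Let (2 ^ W))) : Prop
  | idle (f b p) : VB f b p → Good b → b.tok = .idle →
      t = (wl (2 ^ W) f, wl (2 ^ W) fun t => f (2 ^ W + t), [], []) →
      ϑ = (b.c, decide (p < 2 ^ W), .idle, false, .idle, H0 W, 0) → ys = [b.u] → TI t ϑ ys
  | pair (f b0 p g b1 q ph H y0 y1) : VB f b0 p → Good b0 → VB g b1 q → Good b1 →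
      (b1.c : ℕ) = (b0.c + 1) % 1024 → PS b0 b1 ph H →
      res ⟨ph, H, pair b0.u b1.u⟩ = some (pair y0 y1) →
      t = (wl (2 ^ W) f, wl (2 ^ W) fun t => f (2 ^ W + t), wl (2 ^ W) g,
        wl (2 ^ W) fun t => g (2 ^ W + t)) →
      ϑ = (b0.c, decide (p < 2 ^ W), b0.tok, decide (q < 2 ^ W), b1.tok, H,
        ⟨kk ⟨ph, H, pair b0.u b1.u⟩, Nat.lt_succ_of_le (kk_le _)⟩) → ys = [y0, y1] → TI t ϑ ys

variable {t t' : Quad (Let W)} {ϑ ϑ' : Ty W} {ys ys' : List (Let (2 ^ W))}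

omit hW in
theorem wl_ne_nil (f : ℕ → Let W) : wl (2 ^ W) f ≠ [] := fun h => by
  have := congrArg List.length h
  simp at this

theorem TI.terr (h : TI t ϑ ys) : IsTerr (2 ^ W) (posS ∘ sk) role t := by
  rcases h with ⟨f, b, p, v, -, hk, rfl, -, -⟩ | ⟨f, b0, p, g, b1, q, ph, H, y0, y1, v, -, w, -, -,
    hs, -, rfl, -, -⟩
  · refine ⟨by simp, ?_, .inl ⟨?_, rfl, rfl⟩⟩ <;> simp only [wl_two]
    · exact v.isBlk hW.out
    · rw [v.role hW.out, hk]; rfl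
  · refine ⟨by simp, ?_, .inr ⟨?_, by simp, ?_, ?_⟩⟩ <;> simp only [wl_two]
    · exact v.isBlk hW.out
    · rw [v.role hW.out, hs.rl.1]
    · exact w.isBlk hW.out
    · rw [w.role hW.out, hs.rl.2]

theorem TI.len (h : TI t ϑ ys) : ys ≠ [] ∧ ys.length ≤ 2 := by
  rcases h with ⟨f, b, p, -, -, -, -, -, rfl⟩ | ⟨f, b0, p, g, b1, q, ph, H, y0, y1, -, -, -, -, -,
    -, -, -, -, rfl⟩ <;> simp

theorem TI.bd_iff (h : TI t ϑ ys) : bd t ↔ ∃ y ∈ ys, adr y = ro _ 0 := by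
  rcases h with ⟨f, b, p, v, -, -, rfl, -, rfl⟩ | ⟨f, b0, p, g, b1, q, ph, H, y0, y1, v, -, w, -, -,
    -, hr, rfl, -, rfl⟩
  · simp [bd, v.up hW.out le_rfl, sk]
  · have h0 := (res_static _ _ hr false).1
    have h1 := (res_static _ _ hr true).1
    simp only [pair_false, pair_true] at h0 h1
    simp [bd, v.up hW.out le_rfl, w.up hW.out le_rfl, sk, wl_ne_nil, h0, h1]

theorem TI.uniq (h : TI t ϑ ys) (h' : TI t ϑ' ys') : ϑ = ϑ' ∧ ys = ys' := by
  rcases h with ⟨f, b, p, v, -, hk, rfl, rfl, rfl⟩ | ⟨f, b0, p, g, b1, q, ph, H, y0, y1, v, -, w, -,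
    -, hs, hr, rfl, rfl, rfl⟩ <;>
  rcases h' with ⟨f', b', p', v', -, hk', e, rfl, rfl⟩ | ⟨f', b0', p', g', b1', q', ph', H', y0',
    y1', v', -, w', -, -, hs', hr', e, rfl, rfl⟩ <;> simp only [Prod.mk.injEq] at e
  · obtain ⟨rfl, e1, e2, -⟩ := (v.congr (wl_halves e.1 e.2.1)).uniq hW.out v'
    simp [e1, e2]
  · exact (wl_ne_nil _ e.2.2.1.symm).elim
  · exact (wl_ne_nil _ e.2.2.1).elim
  · obtain ⟨rfl, e1, e2, e3, e4⟩ := (v.congr (wl_halves e.1 e.2.1)).uniq hW.out v'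
    obtain ⟨rfl, -, d2, d3, d4⟩ := (w.congr (wl_halves e.2.2.1 e.2.2.2)).uniq hW.out w'
    obtain ⟨rfl, u1, -⟩ := hs.uniq hs' e3 d3
    obtain rfl := u1 e4 d4
    rw [e2, d2, hr', Option.some.injEq] at hr
    simp [e1, e2, e3, d2, d3, pair_inj hr]

theorem TI.mix (h : TI t ϑ ys) (h' : TI t' ϑ ys') :
    TI (t.sw t') ϑ (relab ys (ys'.map lab)) ∧ ys.length = ys'.length := by
  have a1 : ∀ f f' : ℕ → Let W, wl (2 ^ W) f = wl (2 ^ W) fun t => if t < 2 ^ W then f t else f' t :=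
    fun f f' => wl_congr fun t ht => by simp [ht]
  have a2 : ∀ f f' : ℕ → Let W, (wl (2 ^ W) fun t => f' (2 ^ W + t)) =
      wl (2 ^ W) fun t => if 2 ^ W + t < 2 ^ W then f (2 ^ W + t) else f' (2 ^ W + t) :=
    fun f f' => wl_congr fun t _ => by simp
  have a3 : ∀ {p p' : ℕ}, (p < 2 ^ W ↔ p' < 2 ^ W) →
      decide (p < 2 ^ W) = decide ((if p < 2 ^ W then p else p') < 2 ^ W) := fun h => by
    split_ifs with h1 <;> simp [h1, ← h]
  rcases h with ⟨f, b, p, v, gd, hk, rfl, rfl, rfl⟩ | ⟨f, b0, p, g, b1, q, ph, H, y0, y1, v, gd, w,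
    gd1, hc, hs, hr, rfl, rfl, rfl⟩ <;>
  rcases h' with ⟨f', b', p', v', -, hk', rfl, e, rfl⟩ | ⟨f', b0', p', g', b1', q', ph', H', y0',
    y1', v', -, w', -, hc', hs', hr', rfl, e, rfl⟩ <;>
    simp only [Prod.mk.injEq, decide_eq_decide] at e
  · refine ⟨.idle _ _ _ (v.glue v' e.1.symm (hk'.trans hk.symm) (by simp [hk, Tok.IsAct]) e.2.1)
      (by simpa [Good] using gd) hk ?_ ?_ rfl, rfl⟩
    · simp only [Quad.sw, ← a1, ← a2]
    · simp only [← a3 e.2.1]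
  · have := hs'.rl.1; rw [← e.2.2.1] at this; simp [Tok.rl] at this
  · have := hs.rl.1; rw [e.2.2.1] at this; simp [Tok.rl] at this
  · obtain ⟨e1, e2, e3, e4, e5, rfl, e7⟩ := e
    obtain ⟨rfl, -, u1⟩ := hs.uniq hs' e3 e5
    obtain ⟨u1, u2⟩ := u1 rfl
    have m := mix_run ⟨ph, H, M.pair b0.u b1.u⟩ ⟨ph, H, M.pair b0'.u b1'.u⟩ ph _ _ (SyncP.refl _)
      rfl rfl (by simpa using e7) hr hr'
    have pm : ∀ a b c d : Let (2 ^ W), mix2 (M.pair a b) (M.pair c d) =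
        M.pair (M.mix a c) (M.mix b d) := fun a b c d => by funext β; cases β <;> rfl
    simp only [pm] at m
    refine ⟨.pair _ _ _ _ _ _ ph H _ _ (v.glue v' e1.symm e3.symm u1 e2) (by simpa [Good] using gd)
      (w.glue w' (Fin.ext (by rw [hc, hc', e1])) e5.symm u2 e4) (by simpa [Good] using gd1) hc hs
      m.1 ?_ ?_ rfl, rfl⟩
    · simp only [Quad.sw, ← a1, ← a2]
    · simp only [← a3 e2, ← a3 e4, m.2]

open Classical in
noncomputable def theta (t : Quad (Let W)) : Fin (Nat.card (Ty W)) :=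
  Finite.equivFin _ (if h : ∃ ϑ ys, TI t ϑ ys then h.choose else (0, true, .idle, true, .idle, H0 W, 0))

theorem TI.theta (h : TI t ϑ ys) : theta t = Finite.equivFin _ ϑ := by
  have h' : ∃ ϑ ys, TI t ϑ ys := ⟨_, _, h⟩
  rw [M.theta, dif_pos h', (h'.choose_spec.choose_spec.uniq h).1]

end ti

variable {V : ℕ} [hV : Fact (E ≤ V)]

theorem blk_analyze {w : List (Let (2 ^ V))} (h : IsBlk (2 ^ 2 ^ V) (posS ∘ sk) w)
    (hz : ¬ Zr (rho V) w) : ∃ f b p, w = wl (2 * 2 ^ 2 ^ V) f ∧ VB f b p ∧ Good b := by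
  obtain ⟨h1, x, r, rfl, h2⟩ := h
  have e := (wl_getD (x :: r) x).symm
  rw [h1] at e
  obtain ⟨b, p, h⟩ := analyze (f := fun t => (x :: r).getD t x) (e ▸ hz) h2
  exact ⟨_, b, p, e, h⟩

theorem two_blocks {f g : ℕ → Let (2 ^ V)} {b0 b1 : BI (2 ^ V)} {p q : ℕ} (v : VB f b0 p)
    (w : VB g b1 q) (hz : ¬ Zr (rho V) (wl (2 * 2 ^ 2 ^ V) f ++ wl (2 * 2 ^ 2 ^ V) g)) :
    (b1.c : ℕ) = (b0.c + 1) % 1024 ∧ TC b0.tok b1.tok := by
  obtain ⟨n, hn⟩ : ∃ n, 2 * 2 ^ 2 ^ V = n + 1 := ⟨2 * 2 ^ 2 ^ V - 1, by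
    have := Nat.two_pow_pos (2 ^ V); omega⟩
  have e := (v.eqv.trans (Wd_eqv b0 (p := n) (by omega))).append w.eqv
  have hz' : ¬ Zr (rho V) [can b0 n n, can b1 0 0] := fun h => hz (Zr.of_eqv e (by
    rw [Wd, hn]; exact Zr.bdry h))
  have := (compat_of hz' rfl (HD_can _ _) rfl (HD_can _ _)).2.2.2.2.2.1 rfl (by simp [cell_kind])
  simp only [cell_c] at this
  exact ⟨this.1, this.2 _ _ rfl rfl⟩

theorem TC.iff {k0 k1 : Tok} (h : TC k0 k1) : k0.rl = .left ↔ k1.rl = .right := by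
  rcases h with ⟨_, rfl, rfl⟩ | ⟨_, rfl, rfl⟩ | h
  · simp [Tok.rl]
  · simp [Tok.rl]
  · simp [h]

omit hV in
theorem Good.tau {b : BI (2 ^ V)} (h : Good b) {y : Let (2 ^ 2 ^ V)} (e : adr y = adr b.u) :
    Wd ⟨b.c, y, .idle, H0 _⟩ = tau y := by
  have : b.c = col y := Fin.ext (by rw [h, ← e]; rfl)
  rw [this, M.tau]

theorem PS.eqv {f g : ℕ → Let (2 ^ V)} {b0 b1 : BI (2 ^ V)} {p q : ℕ} (v : VB f b0 p)
    (w : VB g b1 q) {ph H} (h : PS b0 b1 ph H) :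
    Eqv (rho V) (wl (2 * 2 ^ 2 ^ V) f ++ wl (2 * 2 ^ 2 ^ V) g)
      (PW false (pair b0.c b1.c) ⟨ph, H, pair b0.u b1.u⟩) := by
  rcases h with ⟨h0, h1, rfl⟩ | ⟨h0, h1, rfl⟩
  · have := v.eqv.append (w.setH (h1 ▸ not_act_park _) b0.H).eqv
    obtain ⟨c, u, k, H⟩ := b0
    simp only at h0; subst h0
    rwa [h1] at this
  · have := (v.setH (h0 ▸ not_act_park _) b1.H).eqv.append w.eqv
    obtain ⟨c, u, k, H⟩ := b1
    simp only at h1; subst h1
    rw [h0] at this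
    exact this.trans (PW_hand true false (pair b0.c c) ⟨ph, H, pair b0.u u⟩)

theorem TI.eqv {t : Quad (Let (2 ^ V))} {ϑ ys} (h : TI t ϑ ys) :
    Eqv (rho V) t.fl (ys.flatMap tau) := by
  rcases h with ⟨f, b, p, v, gd, hk, rfl, -, rfl⟩ | ⟨f, b0, p, g, b1, q, ph, H, y0, y1, v, gd, w,
    gd1, -, hs, hr, rfl, -, rfl⟩
  · have := (v.setH (hk ▸ not_act_idle) (H0 _)).eqv
    rw [hk, gd.tau rfl] at this
    simpa [Quad.fl, wl_two] using this
  · have s := sim (M.pair b0.c b1.c) ⟨ph, H, M.pair b0.u b1.u⟩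
    rw [hr] at s
    simp only [pair_false, pair_true] at s
    rw [gd.tau (y := y0) (res_static _ _ hr false).1,
      gd1.tau (y := y1) (res_static _ _ hr true).1] at s
    have := (hs.eqv v w).trans s
    rw [← wl_two f, ← wl_two g] at this
    simpa [Quad.fl] using this

theorem TI.exists {t : Quad (Let (2 ^ V))} (h : IsTerr (2 ^ 2 ^ V) (posS ∘ sk) role t)
    (hz : ¬ Zr (rho V) t.fl) : ∃ ϑ ys, TI t ϑ ys := by
  obtain ⟨t1, t2, t3, t4⟩ := t
  obtain ⟨l1, k1, h⟩ := h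
  simp only [Quad.fl] at *
  obtain ⟨f, b, p, e, v, gd⟩ := blk_analyze k1 fun h => hz ((h.append_right _).append_right _)
  obtain ⟨rfl, rfl⟩ := halves l1 e
  rw [e, v.role EW] at h
  rcases h with ⟨h, rfl, rfl⟩ | ⟨h, l3, k3, h3⟩
  · exact ⟨_, _, .idle f b p v gd (rl_idle.1 h) rfl rfl rfl⟩
  · rw [List.append_assoc] at hz
    obtain ⟨g, b1, q, e', w, gd1⟩ := blk_analyze k3 fun h => hz (h.append_left _)
    obtain ⟨rfl, rfl⟩ := halves l3 e'
    rw [e, e'] at hz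
    obtain ⟨hc, tc⟩ := two_blocks v w hz
    obtain ⟨ph, H, hs⟩ : ∃ ph H, PS b b1 ph H := by
      rcases tc with ⟨ph, h0, h1⟩ | ⟨ph, h0, h1⟩ | tc
      · exact ⟨ph, _, .inl ⟨h0, h1, rfl⟩⟩
      · exact ⟨ph, _, .inr ⟨h0, h1, rfl⟩⟩
      · exact (tc.1 h).elim
    have s := sim (M.pair b.c b1.c) ⟨ph, H, M.pair b.u b1.u⟩
    cases hr : res ⟨ph, H, M.pair b.u b1.u⟩ with
    | none => rw [hr] at s; exact (hz (Zr.of_eqv (hs.eqv v w) s)).elim
    | some y =>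
      exact ⟨_, _, .pair f b p g b1 q ph H (y false) (y true) v gd w gd1 hc hs
        (by rw [hr, pair_eta]) rfl rfl rfl⟩

theorem terr_list (L : List (Quad (Let (2 ^ V))))
    (h : ∀ b ∈ L, IsTerr (2 ^ 2 ^ V) (posS ∘ sk) role b) (hz : ¬ Zr (rho V) (L.flatMap Quad.fl)) :
    ∃ us : List (Let (2 ^ 2 ^ V)), Eqv (rho V) (L.flatMap Quad.fl) (us.flatMap tau) ∧
      us.length ≤ 2 * L.length ∧ ((∀ b ∈ L, ¬ bd b) → ∀ y ∈ us, adr y ≠ ro _ 0) := by
  induction L with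
  | nil => exact ⟨[], Eqv.rfl, by simp, by simp⟩
  | cons t L ih =>
    rw [List.flatMap_cons] at hz ⊢
    obtain ⟨us, h1, h2, h3⟩ := ih (fun b hb => h b (by simp [hb])) fun h => hz (h.append_left _)
    obtain ⟨ϑ, ys, ti⟩ := TI.exists (h t (by simp)) fun h => hz (h.append_right _)
    refine ⟨ys ++ us, by rw [List.flatMap_append]; exact ti.eqv.append h1,
      by have := ti.len.2; simp; omega, fun hb y hy e => ?_⟩
    rcases List.mem_append.1 hy with hy | hy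
    · exact hb t (by simp) (ti.bd_iff.2 ⟨y, hy, e⟩)
    · exact h3 (fun b h => hb b (by simp [h])) y hy e

theorem three {t t' : Quad (Let (2 ^ V))} {L : List (Quad (Let (2 ^ V)))}
    (h : IsTerr (2 ^ 2 ^ V) (posS ∘ sk) role t) (h' : IsTerr (2 ^ 2 ^ V) (posS ∘ sk) role t')
    (hL : ∀ b ∈ L, IsTerr (2 ^ 2 ^ V) (posS ∘ sk) role b)
    (hz : ¬ Zr (rho V) (t.fl ++ L.flatMap Quad.fl ++ t'.fl)) :
    ∃ ϑ ys ϑ' ys' us, TI t ϑ ys ∧ TI t' ϑ' ys' ∧
      Eqv (rho V) (L.flatMap Quad.fl) (us.flatMap tau) ∧ ¬ Zr (rho (2 ^ V)) (ys ++ us ++ ys') ∧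
      us.length ≤ 2 * L.length ∧ ((∀ b ∈ L, ¬ bd b) → ∀ y ∈ us, adr y ≠ ro _ 0) := by
  obtain ⟨ϑ, ys, a⟩ := TI.exists h fun h => hz ((h.append_right _).append_right _)
  obtain ⟨ϑ', ys', a'⟩ := TI.exists h' fun h => hz (h.append_left _)
  obtain ⟨us, h1, h2, h3⟩ := terr_list L hL fun h => hz (h.ctx _ _)
  refine ⟨_, _, _, _, us, a, a', h1, fun hu => hz (Zr.of_eqv ?_ (hu.flatMap tau_mv tau_zr)), h2, h3⟩
  simp only [List.flatMap_append]
  exact (a.eqv.append h1).append a'.eqv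

/-- One level of the hierarchy. -/
noncomputable def lev (V : ℕ) [Fact (E ≤ V)] : Lev (rho V) (rho (2 ^ V)) sk sk where
  h := 2 ^ 2 ^ V
  h_ge := le_trans (by norm_num) ten_le_h
  pos := posS
  pos_succ := pos_succ
  τ := tau
  τ_len y := by simp [tau, Wd]
  τ_mv := tau_mv
  τ_zr := tau_zr
  τ_nz := tau_nz
  up := up
  up_τ y := (VB.can _ (by positivity)).up EW (by omega)
  role := role
  role_compat b b' h h' hz := by
    obtain ⟨f, b0, p, rfl, v, -⟩ := blk_analyze h fun h => hz (h.append_right _)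
    obtain ⟨g, b1, q, rfl, w, -⟩ := blk_analyze h' fun h => hz (h.append_left _)
    rw [v.role EW, w.role EW]
    exact (two_blocks v w hz).2.iff
  idle b h hr hz := by
    have e : b = Quad.fl (b.take (2 ^ 2 ^ V), b.drop (2 ^ 2 ^ V), [], []) := by simp [Quad.fl]
    obtain ⟨ϑ, ys, ti⟩ := TI.exists (t := (b.take (2 ^ 2 ^ V), b.drop (2 ^ 2 ^ V), [], []))
      ⟨by simp [h.1], by simpa using h, .inl ⟨by simpa using hr, rfl, rfl⟩⟩ (e ▸ hz)
    have := ti.eqv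
    rw [← e] at this
    rcases ti with ⟨f, b, p, -, -, -, -, -, rfl⟩ | ⟨f, b0, p, g, b1, q, ph, H, y0, y1, -, -, -, -,
      -, -, -, e, -, rfl⟩
    · exact ⟨_, by simpa using this⟩
    · simp only [Prod.mk.injEq] at e; exact (wl_ne_nil _ e.2.2.1.symm).elim
  pair b b' h h' hr hr' hz := by
    have e : b ++ b' = Quad.fl (b.take (2 ^ 2 ^ V), b.drop (2 ^ 2 ^ V), b'.take (2 ^ 2 ^ V),
      b'.drop (2 ^ 2 ^ V)) := by simp [Quad.fl]
    have l : (b'.take (2 ^ 2 ^ V)).length = 2 ^ 2 ^ V := by simp [h'.1]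
    obtain ⟨ϑ, ys, ti⟩ := TI.exists (t := (b.take (2 ^ 2 ^ V), b.drop (2 ^ 2 ^ V),
      b'.take (2 ^ 2 ^ V), b'.drop (2 ^ 2 ^ V)))
      ⟨by simp [h.1], by simpa using h, .inr ⟨by simpa using hr, l,
        by simpa using h', by simpa using hr'⟩⟩ (e ▸ hz)
    have := ti.eqv
    rw [← e] at this
    rcases ti with ⟨f, b, p, -, -, -, e, -, rfl⟩ | ⟨f, b0, p, g, b1, q, ph, H, y0, y1, -, -, -, -,
      -, -, -, -, -, rfl⟩
    · simp only [Prod.mk.injEq] at e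
      rw [e.2.2.1] at l; exact absurd l (Nat.two_pow_pos _).ne
    · exact ⟨_, _, by simpa using this⟩
  T := Nat.card (Ty (2 ^ V))
  θ := theta
  bd := bd
  bd_sw _ _ := Iff.rfl
  R := 2 ^ (2 ^ 2 ^ V - 1)
  bd_one t t' L h h' hL hR hz b b' := by
    obtain ⟨ϑ, ys, ϑ', ys', us, a, a', -, hu, hl, -⟩ := three h h' hL hz
    obtain ⟨y, hy, e⟩ := a.bd_iff.1 b
    obtain ⟨y', hy', e'⟩ := a'.bd_iff.1 b'
    obtain ⟨s1, s2, rfl⟩ := List.append_of_mem hy
    obtain ⟨s3, s4, rfl⟩ := List.append_of_mem hy'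
    have := adr_add (V := 2 ^ V) (s2 ++ us ++ s3) y y' fun h => hu (by simpa using h.ctx s1 s4)
    have l := a.len.2
    have l' := a'.len.2
    have h10 := ten_le_h (V := V)
    have e2 : 2 ^ 2 ^ 2 ^ V = 2 * 2 ^ (2 ^ 2 ^ V - 1) := by
      rw [← pow_succ']; congr 1; omega
    rw [e, e', rv_ro, Nat.zero_mod] at this
    simp only [List.length_append, List.length_cons] at l l' this
    have := ro_inj (by omega) (by omega) this
    omega
  kill t t' L h h' hL hz e b b' bL := by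
    obtain ⟨ϑ, ys, ϑ', ys', us, a, a', h1, hu, -, hb⟩ := three h h' hL hz
    rw [a.theta, a'.theta] at e
    obtain rfl := (Finite.equivFin _).injective e
    obtain ⟨m, l⟩ := a.mix a'
    obtain ⟨m', -⟩ := a'.mix a
    have hw : ∀ x ∈ (ys ++ us ++ ys').tail, adr x ≠ ro _ 0 := fun x hx => by
      have hx := List.mem_of_mem_tail hx
      simp only [List.mem_append] at hx
      rcases hx with (hx | hx) | hx
      · exact fun e => b (a.bd_iff.2 ⟨x, hx, e⟩)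
      · exact hb bL x hx
      · exact fun e => b' (a'.bd_iff.2 ⟨x, hx, e⟩)
    refine ⟨m.terr, m'.terr, by rw [m.theta, a.theta], by rw [m'.theta, a'.theta], fun e => ?_, ?_⟩
    · rw [e] at m
      have e1 := congrArg (List.map lab) (m.uniq a).2
      have e2 : (relab ys (ys'.map lab)).map lab = ys'.map lab := by
        apply List.ext_getElem <;> simp [relab, l]
      rw [e2] at e1
      refine hu (zr_of_dup (V := 2 ^ V) hw fun hn => ?_)
      simp only [List.map_append, e1] at hn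
      obtain ⟨y, hy⟩ := List.exists_mem_of_ne_nil _ a.len.1
      exact (List.disjoint_of_nodup_append hn) (List.mem_append_left _ (List.mem_map_of_mem hy))
        (List.mem_map_of_mem hy)
    · have pm : ((ys ++ us ++ ys').map lab).Perm (ys'.map lab ++ us.map lab ++ ys.map lab) := by
        simp only [List.map_append]
        exact List.perm_append_comm.trans ((List.perm_append_comm.append_left _).trans
          (by rw [List.append_assoc]))
      have := relab_perm (V := 2 ^ V) pm _ hw (by simp)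
      rw [relab_self, relab_append (by simp [l]), relab_append (by simp [l]), relab_self] at this
      have := Eqv.flatMap tau_mv this
      simp only [List.flatMap_append] at this
      exact (((a.eqv.append h1).append a'.eqv).trans this).trans
        ((m.eqv.append h1).append m'.eqv).symm

end Crest.Agent.R176.M
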