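import Crest.Agent.R176.Defs

/-!
# 176-M: the self-simulating machine (definitions)

`rho V` is a rewriting system on letters of width `2^V`.  A rule runs a straight-line program on two
adjacent letters with a bit-serial interpreter whose registers have width `V`.  The programs
(`sch`) make `rho V` simulate `rho (2^V)`.
-/

set_option autoImplicit false

namespace Crest.Agent.R176.M

/-! ### Registers -/

abbrev Reg (W : ℕ) := Fin W → Bool

def rv {W : ℕ} (r : Reg W) : ℕ := Nat.ofBits r
def ro (W v : ℕ) : Reg W := fun i => v.testBit i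
def bit {W : ℕ} (r : Reg W) (j : ℕ) : Bool := (rv r).testBit j
def inc {W : ℕ} (r : Reg W) : Reg W := ro W (rv r + 1)
def shl {W : ℕ} (r : Reg W) : Reg W := ro W (2 * rv r)
def orr {W : ℕ} (r s : Reg W) : Reg W := fun i => r i || s i
def ones (W : ℕ) : Reg W := fun _ => true
def idx {V : ℕ} (r : Reg V) : Fin (2 ^ V) := ⟨rv r, Nat.ofBits_lt_two_pow r⟩

theorem rv_lt {W : ℕ} (r : Reg W) : rv r < 2 ^ W := Nat.ofBits_lt_two_pow r
theorem rv_ro (W v : ℕ) : rv (ro W v) = v % 2 ^ W := Nat.ofBits_testBit v W
theorem rv_ro_of_lt {W v : ℕ} (h : v < 2 ^ W) : rv (ro W v) = v := by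
  rw [rv_ro, Nat.mod_eq_of_lt h]
@[simp] theorem bit_fin {W : ℕ} (r : Reg W) (j : Fin W) : bit r j = r j :=
  Nat.testBit_ofBits_lt r j j.2
theorem bit_lt {W : ℕ} (r : Reg W) {j : ℕ} (h : j < W) : bit r j = r ⟨j, h⟩ :=
  Nat.testBit_ofBits_lt r j h
theorem bit_ge {W : ℕ} (r : Reg W) {j : ℕ} (h : W ≤ j) : bit r j = false :=
  Nat.testBit_ofBits_ge r j h
@[simp] theorem ro_rv {W : ℕ} (r : Reg W) : ro W (rv r) = r := funext fun j => bit_fin r j
theorem rv_inj {W : ℕ} {r s : Reg W} (h : rv r = rv s) : r = s := by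
  rw [← ro_rv r, h, ro_rv]
theorem ro_mod (W v : ℕ) : ro W (v % 2 ^ W) = ro W v := by
  rw [← rv_ro, ro_rv]
theorem ro_eq_iff {W a b : ℕ} : ro W a = ro W b ↔ a % 2 ^ W = b % 2 ^ W :=
  ⟨fun h => by rw [← rv_ro, h, rv_ro], fun h => by rw [← ro_mod, h, ro_mod]⟩
theorem ro_inj {W a b : ℕ} (ha : a < 2 ^ W) (hb : b < 2 ^ W) (h : ro W a = ro W b) : a = b := by
  rwa [ro_eq_iff, Nat.mod_eq_of_lt ha, Nat.mod_eq_of_lt hb] at h
theorem eq_ro_iff {W a : ℕ} {r : Reg W} : r = ro W a ↔ rv r = a % 2 ^ W :=
  ⟨fun h => by rw [h, rv_ro], fun h => by rw [← ro_rv r, h, ro_mod]⟩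
theorem inc_ro (W v : ℕ) : inc (ro W v) = ro W (v + 1) := by
  rw [inc, rv_ro, ro_eq_iff]; simp
theorem rv_inc {W : ℕ} (r : Reg W) : rv (inc r) = (rv r + 1) % 2 ^ W := rv_ro _ _
theorem ones_eq (W : ℕ) : ones W = ro W (2 ^ W - 1) := by
  funext i; simp [ones, ro, Nat.testBit_two_pow_sub_one]
theorem rv_ones (W : ℕ) : rv (ones W) = 2 ^ W - 1 := by
  rw [ones_eq, rv_ro_of_lt]; have := Nat.two_pow_pos W; omega
theorem bit_ro {W v j : ℕ} (h : j < W) : bit (ro W v) j = v.testBit j := bit_lt _ h

/-! ### Finite data -/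

/-- Code of an element of a finite type. -/
noncomputable def enc {α : Type} [Finite α] (a : α) : ℕ := Finite.equivFin α a

theorem enc_lt {α : Type} [Finite α] (a : α) : enc a < Nat.card α := (Finite.equivFin α a).2
theorem enc_inj {α : Type} [Finite α] {a b : α} (h : enc a = enc b) : a = b :=
  (Finite.equivFin α).injective (Fin.ext h)
theorem exists_enc {α : Type} [Finite α] {n : ℕ} (h : n < Nat.card α) : ∃ a : α, enc a = n :=
  ⟨(Finite.equivFin α).symm ⟨n, h⟩, by simp [enc]⟩

/-- Dynamic tracks. -/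
inductive DT | dyn | pc | opr | imm | jj | mask | pp
  deriving DecidableEq

instance : Fintype DT := ⟨{.dyn, .pc, .opr, .imm, .jj, .mask, .pp}, by intro x; cases x <;> simp⟩

/-- Tracks: two static ones and the dynamic ones. -/
inductive Tr | addr | stat | d (t : DT)
  deriving DecidableEq

instance : Fintype Tr := ⟨{.addr, .stat, .d .dyn, .d .pc, .d .opr, .d .imm, .d .jj, .d .mask, .d .pp},
  by rintro (_ | _ | x); simp; simp; cases x <;> simp⟩

/-- Letters: one register for each track, and a label (`none`). -/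
abbrev Let (W : ℕ) := Option Tr → Reg W

inductive Src | const | t0 | t1
  deriving DecidableEq

instance : Fintype Src := ⟨{.const, .t0, .t1}, by intro x; cases x <;> simp⟩

inductive Out | cont | abort | zero
  deriving DecidableEq

instance : Fintype Out := ⟨{.cont, .abort, .zero}, by intro x; cases x <;> simp⟩

/-- A bit-serial instruction: reads track `rd` of letter `β`, reads and writes track `wr` of letter
`β'`; `tr = none` means both tracks are the labels. `δ c a b e = (c', b', z)`. -/
structure Ins where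
  β : Bool
  β' : Bool
  tr : Option (Tr × Tr)
  δ : Bool → Bool → Bool → Bool → Bool × Bool × Bool
  c0 : Bool
  src : Src
  out : Bool → Out

set_option synthInstance.maxSize 1024 in
instance : Finite Ins :=
  Finite.of_injective (fun I : Ins => (I.β, I.β', I.tr, I.δ, I.c0, I.src, I.out))
    (by rintro ⟨⟩ ⟨⟩ h; simpa using h)

def Ins.rd (I : Ins) : Option Tr := I.tr.map Prod.fst
def Ins.wr (I : Ins) : Option Tr := I.tr.map Prod.snd

inductive Phs | F | S1 (I : Ins) (c : Bool) | S2 (I : Ins) (c a : Bool) | rel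

instance : Finite Phs :=
  Finite.of_surjective (fun x : Option (Option ((Ins × Bool) ⊕ (Ins × Bool × Bool))) =>
    match x with
    | none => Phs.F
    | some none => Phs.rel
    | some (some (.inl (I, c))) => Phs.S1 I c
    | some (some (.inr (I, c, a))) => Phs.S2 I c a)
    (by
      rintro (_ | ⟨I, c⟩ | ⟨I, c, a⟩ | _)
      exacts [⟨none, rfl⟩, ⟨some (some (.inl (I, c))), rfl⟩, ⟨some (some (.inr (I, c, a))), rfl⟩,
        ⟨some none, rfl⟩])

inductive Tok | idle | park (β : Bool) | act (β : Bool) (ph : Phs)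

instance : Finite Tok :=
  Finite.of_surjective (fun x : Option (Bool × Option Phs) =>
    match x with
    | none => Tok.idle
    | some (β, none) => Tok.park β
    | some (β, some ph) => Tok.act β ph)
    (by
      rintro (_ | β | ⟨β, ph⟩)
      exacts [⟨none, rfl⟩, ⟨some (β, none), rfl⟩, ⟨some (β, some ph), rfl⟩])

inductive Mark | R | L | tok (t : Tok)

instance : Finite Mark :=
  Finite.of_surjective (fun x : Bool ⊕ Tok =>
    match x with
    | .inl true => Mark.R
    | .inl false => Mark.L
    | .inr t => Mark.tok t)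
    (by
      rintro (_ | _ | t)
      exacts [⟨.inl true, rfl⟩, ⟨.inl false, rfl⟩, ⟨.inr t, rfl⟩])

/-- Static content of a cell: `y` in the first half of a block, `l` in the second half. -/
inductive Stat | y (c : Fin 1024) (sa ss : Bool) | l (c : Fin 1024)

instance : Finite Stat :=
  Finite.of_surjective (fun x : Fin 1024 × Option (Bool × Bool) =>
    match x with
    | (c, none) => Stat.l c
    | (c, some (a, b)) => Stat.y c a b)
    (by
      rintro (⟨c, a, b⟩ | c)
      exacts [⟨(c, some (a, b)), rfl⟩, ⟨(c, none), rfl⟩])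

/-- Dynamic content of a cell. -/
structure Dyn where
  data : DT → Bool
  mark : Mark

instance : Finite Dyn :=
  Finite.of_injective (fun d : Dyn => (d.data, d.mark)) (by rintro ⟨⟩ ⟨⟩ h; simpa using h)

def Stat.kind : Stat → Bool
  | .y _ _ _ => true
  | .l _ => false

def Stat.c : Stat → Fin 1024
  | .y c _ _ => c
  | .l c => c

def Stat.sa : Stat → Bool
  | .y _ a _ => a
  | .l _ => false

def Stat.ss : Stat → Bool
  | .y _ _ b => b
  | .l _ => false

def Tok.rl : Tok → Role
  | .idle => .idle
  | .park false => .left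
  | .park true => .right
  | .act false _ => .left
  | .act true _ => .right

def Tok.IsAct (t : Tok) : Prop := ∃ β ph, t = .act β ph
def Mark.IsAct (m : Mark) : Prop := ∃ β ph, m = .tok (.act β ph)

/-- Tokens that may meet at a block boundary. -/
def TC (t0 t1 : Tok) : Prop :=
  (∃ ph, t0 = .act false ph ∧ t1 = .park true) ∨ (∃ ph, t0 = .park false ∧ t1 = .act true ph) ∨
    (t0.rl ≠ .left ∧ t1.rl ≠ .right)

/-- Marks that may be adjacent inside a block. -/
def Arrows (m0 m1 : Mark) : Prop :=
  (m0 = .R ∧ m1 ≠ .L) ∨ (m0 ≠ .R ∧ m1 = .L)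

def Okq (s : Stat) (data : DT → Bool) : Prop := s.kind = false → ∀ t, t ≠ DT.dyn → data t = false

/-- Compatibility of two adjacent cells; `z0`, `z1`: the addresses are zero; `o1`: the second
address is all ones. -/
def Compat (s0 : Stat) (d0 : Dyn) (s1 : Stat) (d1 : Dyn) (z0 z1 o1 : Prop) : Prop :=
  Okq s0 d0.data ∧ Okq s1 d1.data ∧ (z0 → s0.kind = true → d0.mark ≠ .L) ∧
    (o1 → s1.kind = false → d1.mark ≠ .R) ∧ (z1 ↔ s1.kind ≠ s0.kind) ∧
    (z1 → s1.kind = true → (s1.c : ℕ) = (s0.c + 1) % 1024 ∧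
      ∀ t0 t1, d0.mark = .tok t0 → d1.mark = .tok t1 → TC t0 t1) ∧
    (¬ (z1 ∧ s1.kind = true) → s1.c = s0.c ∧ Arrows d0.mark d1.mark)

/-- The bit of track `τ` stored in a cell. -/
def cbit (s : Stat) (data : DT → Bool) : Option Tr → Bool
  | some .addr => s.sa
  | some .stat => s.ss
  | some (.d t) => data t
  | none => data .dyn

/-- Writing the bit of track `τ` in a cell. -/
def cput (data : DT → Bool) (τ : Option Tr) (b : Bool) : DT → Bool :=
  match τ with
  | some .addr => data
  | some .stat => data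
  | some (.d t) => Function.update data t b
  | none => Function.update data .dyn b

/-- Finite part of the second step of the loop: new bit, new phase, "increment `pc`", "set `pp`". -/
def fin2b (I : Ins) (c a b e0 last : Bool) : Option (Bool × Phs × Bool × Bool) :=
  let o := I.δ c a b (I.tr.isSome && e0)
  if last = true ∧ I.out o.1 = .zero then none else
    some (o.2.1, if last = true then (if I.out o.1 = .cont then .F else .rel) else .S1 I o.1,
      last && decide (I.out o.1 = .cont), I.tr.isSome && o.2.2)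

/-! ### Programs -/

abbrev Prog := List (Ins × ℕ)

/-- Bitwise test. -/
def tB (f : Bool → Bool → Bool → Bool) (β : Bool) (τ : Tr) (β' : Bool) (τ' : Tr)
    (o : Bool → Out) : Ins :=
  ⟨β, β', some (τ, τ'), fun c a b e => (c && f a b e, b, false), true, .const, o⟩
/-- Bitwise write. -/
def wB (f : Bool → Bool → Bool → Bool) (β : Bool) (τ : Tr) (β' : Bool) (t : DT) (s : Src) : Ins :=
  ⟨β, β', some (τ, .d t), fun c a b e => (c, f a b e, false), false, s, fun _ => .cont⟩
def END : Ins := tB (fun _ _ _ => true) false .addr false .addr (fun _ => .abort)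
def want (w : Bool) : Bool → Out := fun c => if c = w then .cont else .abort

def iZero : Ins × ℕ := (tB (fun _ _ _ => true) false .addr false .addr (fun _ => .zero), 0)
def iEq (β : Bool) (τ : Tr) (n : ℕ) (w : Bool) : Ins × ℕ :=
  (tB (fun _ b e => b == e) β τ β τ (want w), n)
def iEqR (β : Bool) (τ : Tr) (β' : Bool) (τ' : Tr) (w : Bool) : Ins × ℕ :=
  (tB (fun a b _ => a == b) β τ β' τ' (want w), 0)
def iOnes (β : Bool) (τ : Tr) (w : Bool) : Ins × ℕ := (tB (fun _ b _ => b) β τ β τ (want w), 0)
def iAnd (β : Bool) (w : Bool) : Ins × ℕ :=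
  (tB (fun a b _ => !(a && b)) β (.d .imm) β (.d .mask) (want (!w)), 0)
def iLow : Ins × ℕ := (tB (fun _ b e => !(b && e)) false (.d .pc) false (.d .pc) (want true), 63)
def iSet (β : Bool) (t : DT) (n : ℕ) : Ins × ℕ := (wB (fun _ _ e => e) β .addr β t .const, n)
def iSt (β : Bool) (t : DT) (s : Src) : Ins × ℕ := (wB (fun _ _ e => e) β .addr β t s, 0)
def iCp (β : Bool) (τ : Tr) (β' : Bool) (t : DT) : Ins × ℕ :=
  (wB (fun a _ _ => a) β τ β' t .const, 0)
def iOr (β : Bool) : Ins × ℕ := (wB (fun a b _ => b || a) β (.d .mask) β .pp .const, 0)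
def iInc (β : Bool) (t : DT) : Ins × ℕ :=
  (⟨β, β, some (.d t, .d t), fun c _ b _ => (c && b, xor b c, false), true, .const,
    fun _ => .cont⟩, 0)
def iShl (β : Bool) (t : DT) : Ins × ℕ :=
  (⟨β, β, some (.d t, .d t), fun c _ b _ => (b, c, false), false, .const, fun _ => .cont⟩, 0)
def iLd (β : Bool) (t : DT) : Ins × ℕ :=
  (⟨β, β, some (.d t, .d t), fun c _ b _ => (c, b, b), false, .const, fun _ => .cont⟩, 0)
/-- Continue if the track is at least `n`, otherwise stop. -/
def iGe (β : Bool) (τ : Tr) (n : ℕ) : Ins × ℕ :=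
  (⟨β, β, some (τ, τ), fun c _ b e => ((!b && e) || ((b == e) && c), b, false), false, .const,
    want false⟩, n)
def iLx (β : Bool) : Ins × ℕ :=
  (⟨β, !β, none, fun c a b _ => (c, xor a b, false), false, .const, fun _ => .cont⟩, 0)
def iLe : Ins × ℕ :=
  (⟨false, true, none, fun c a b _ => (c && (a == b), b, false), true, .const, want true⟩, 0)

noncomputable def iS (β : Bool) (s : Stat) : Ins × ℕ := iEq β .stat (enc s) true
noncomputable def iD (β : Bool) (d : Dyn) : Ins × ℕ := iEq β (.d .dyn) (enc d) true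
noncomputable def iW (β : Bool) (d : Dyn) : Ins × ℕ := iSet β .dyn (enc d)
/-- Copy the head registers from the first letter to the second. -/
def cpH : Prog := [iCp false (.d .pc) true .pc, iCp false (.d .imm) true .imm,
  iCp false (.d .jj) true .jj, iCp false (.d .mask) true .mask, iCp false (.d .pp) true .pp]

/-- Names of the programs. -/
inductive Idx
  | badS (β : Bool) | badD (β : Bool) | succ
  | compat (s0 : Stat) (d0 : Dyn) (s1 : Stat) (d1 : Dyn) (z0 z1 o1 : Bool)
  | cb (s : Stat) (j : Fin 10) | clO (β : Bool) | clH (β : Bool) (d : Dyn)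
  | move (a0 a1 : DT → Bool) (t : Tok) | cap (a0 a1 : DT → Bool)
  | hand (a0 a1 : DT → Bool) (ph : Phs) | rel (a0 a1 : DT → Bool)
  | fe (β : Bool) (s : Stat) (a : DT → Bool) (γ : Bool) (I : Ins)
  | s1 (β : Bool) (s : Stat) (a : DT → Bool) (I : Ins) (c : Bool)
  | s2 (β : Bool) (s : Stat) (a : DT → Bool) (I : Ins) (c b e last : Bool)
  | lsw | leq

set_option synthInstance.maxSize 2048 in
instance : Finite Idx :=
  Finite.of_injective (fun i : Idx => show Fin 16 × Option Stat × Option Dyn × Option Stat ×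
      Option Dyn × Option (Fin 10) × Option (DT → Bool) × Option (DT → Bool) × Option Tok ×
      Option Phs × Option Ins × Bool × Bool × Bool × Bool × Bool from
    match i with
    | .badS β => (0, none, none, none, none, none, none, none, none, none, none, β, β, β, β, β)
    | .badD β => (1, none, none, none, none, none, none, none, none, none, none, β, β, β, β, β)
    | .succ => (2, none, none, none, none, none, none, none, none, none, none,
        true, true, true, true, true)
    | .compat s0 d0 s1 d1 z0 z1 o1 =>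
      (3, s0, d0, s1, d1, none, none, none, none, none, none, z0, z1, o1, true, true)
    | .cb s j => (4, s, none, none, none, j, none, none, none, none, none,
        true, true, true, true, true)
    | .clO β => (5, none, none, none, none, none, none, none, none, none, none, β, β, β, β, β)
    | .clH β d => (6, none, d, none, none, none, none, none, none, none, none, β, β, β, β, β)
    | .move a0 a1 t => (7, none, none, none, none, none, a0, a1, t, none, none,
        true, true, true, true, true)
    | .cap a0 a1 => (8, none, none, none, none, none, a0, a1, none, none, none,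
        true, true, true, true, true)
    | .hand a0 a1 ph => (9, none, none, none, none, none, a0, a1, none, ph, none,
        true, true, true, true, true)
    | .rel a0 a1 => (10, none, none, none, none, none, a0, a1, none, none, none,
        true, true, true, true, true)
    | .fe β s a γ I => (11, s, none, none, none, none, a, none, none, none, I, β, γ, β, β, β)
    | .s1 β s a I c => (12, s, none, none, none, none, a, none, none, none, I, β, c, β, β, β)
    | .s2 β s a I c b e l => (13, s, none, none, none, none, a, none, none, none, I, β, c, b, e, l)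
    | .lsw => (14, none, none, none, none, none, none, none, none, none, none,
        true, true, true, true, true)
    | .leq => (15, none, none, none, none, none, none, none, none, none, none,
        true, true, true, true, true))
    (by
      intro i j h
      cases i <;> cases j <;> first | (simp at h; done) | (simp at h ⊢; try tauto))

open Classical in
/-- The programs. -/
noncomputable def sch : Idx → Prog
  | .badS β => [iGe β .stat (Nat.card Stat), iZero]
  | .badD β => [iGe β (.d .dyn) (Nat.card Dyn), iZero]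
  | .succ => [iCp false .addr false .opr, iInc false .opr, iEqR false (.d .opr) true .addr false,
      iZero]
  | .compat s0 d0 s1 d1 z0 z1 o1 =>
      if Compat s0 d0 s1 d1 (z0 = true) (z1 = true) (o1 = true) then [] else
        [iS false s0, iD false d0, iS true s1, iD true d1, iEq false .addr 0 z0,
          iEq true .addr 0 z1, iOnes true .addr o1, iZero]
  | .cb s j => if s.kind = true ∧ s.sa ≠ (s.c : ℕ).testBit j then
      [iS false s, iEq false .addr j true, iZero] else []
  | .clO β => [iSet β .opr 0]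
  | .clH β d => if d.mark.IsAct then [] else
      [iD β d, iSet β .pc 0, iSet β .imm 0, iSet β .jj 0, iSet β .mask 0, iSet β .pp 0]
  | .move a0 a1 t => [iD false ⟨a0, .tok t⟩, iD true ⟨a1, .L⟩, iW false ⟨a0, .R⟩,
      iW true ⟨a1, .tok t⟩] ++ cpH
  | .cap a0 a1 => [iD false ⟨a0, .tok .idle⟩, iD true ⟨a1, .tok .idle⟩, iLow, iSet false .pp 0,
      iW false ⟨a0, .tok (.act false .F)⟩, iW true ⟨a1, .tok (.park true)⟩]
  | .hand a0 a1 ph => [iD false ⟨a0, .tok (.act false ph)⟩, iD true ⟨a1, .tok (.park true)⟩,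
      iW false ⟨a0, .tok (.park false)⟩, iW true ⟨a1, .tok (.act true ph)⟩] ++ cpH
  | .rel a0 a1 => [iD false ⟨a0, .tok (.act false .rel)⟩, iD true ⟨a1, .tok (.park true)⟩,
      iW false ⟨a0, .tok .idle⟩, iW true ⟨a1, .tok .idle⟩]
  | .fe β s a γ I => [iS β s, iD β ⟨a, .tok (.act γ .F)⟩, iLd β .pc, iSt β .opr .t0,
      iEq β (.d .opr) (enc I) true, iLd β (if I.src = .const then .pc else .pp),
      iSt β .imm (if I.src = .t0 then .t0 else .t1), iSet β .pp 0, iSet β .mask 1, iSet β .jj 0,
      iW β ⟨a, .tok (.act γ (.S1 I I.c0))⟩]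
  | .s1 β s a I c => if s.kind = I.tr.isSome then
      [iS β s, iD β ⟨a, .tok (.act I.β (.S1 I c))⟩, iEqR β (.d .jj) β .addr true,
        iW β ⟨a, .tok (.act I.β (.S2 I c (cbit s a I.rd)))⟩] else []
  | .s2 β s a I c b e last => if s.kind = I.tr.isSome then
      [iS β s, iD β ⟨a, .tok (.act I.β' (.S2 I c b))⟩, iEqR β (.d .jj) β .addr true, iAnd β e,
        iOnes β (.d .jj) last] ++
      (match fin2b I c b (cbit s a I.wr) e last with
        | none => [iZero]
        | some (b', ph', p, z) => (if z = true then [iOr β] else []) ++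
            (if p = true then [iInc β .pc] else []) ++
            [iShl β .mask, iInc β .jj, iW β ⟨cput a I.wr b', .tok (.act I.β' ph')⟩]) else []
  | .lsw => [iEq true .addr 0 false, iLx false, iLx true, iLx false]
  | .leq => [iEq true .addr 0 false, iLe, iZero]

theorem sch_len (i : Idx) : (sch i).length ≤ 63 := by
  cases i <;> simp only [sch, cpH] <;> (try split_ifs) <;> (try split) <;> (try split_ifs) <;> simp

/-- The minimal register width. -/
noncomputable def E : ℕ := 16 + Nat.card Idx + Nat.card Ins + Nat.card Stat + Nat.card Dyn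

noncomputable def prog (n : ℕ) : Prog :=
  if h : n < Nat.card Idx then sch ((Finite.equivFin Idx).symm ⟨n, h⟩) else []

noncomputable def fetch (v : ℕ) : Ins × ℕ := ((prog (v % 2 ^ E / 64))[v % 64]?).getD (END, 0)
noncomputable def T0 (v : ℕ) : ℕ := enc (fetch v).1
noncomputable def T1 (v : ℕ) : ℕ := (fetch v).2 % 2 ^ E

theorem prog_len (n : ℕ) : (prog n).length ≤ 63 := by
  unfold prog; split_ifs
  · exact sch_len _
  · simp

/-! ### The interpreter -/

/-- Head registers. -/
@[ext] structure Hd (V : ℕ) where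
  pc : Reg V
  imm : Reg V
  jj : Reg V
  mask : Reg V
  pp : Reg V

structure St (V : ℕ) where
  ph : Phs
  H : Hd V
  u : Bool → Let (2 ^ V)

/-- Writing a whole register; static tracks are never written. -/
def putR {W : ℕ} (u : Bool → Let W) (β : Bool) (τ : Option Tr) (r : Reg W) : Bool → Let W :=
  if τ = some .addr ∨ τ = some .stat then u else
    Function.update u β (Function.update (u β) τ r)

noncomputable def immv (s : Src) (n P : ℕ) : ℕ :=
  match s with
  | .const => n
  | .t0 => T0 P
  | .t1 => T1 P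

noncomputable def hF {V : ℕ} (H : Hd V) : Hd V :=
  ⟨H.pc, ro V (immv (fetch (rv H.pc)).1.src (T1 (rv H.pc)) (rv H.pp)), ro V 0, ro V 1, ro V 0⟩

open Classical in
noncomputable def fin2 {V : ℕ} (I : Ins) (c a b : Bool) (H : Hd V) : Option (Bool × Phs × Hd V) :=
  (fin2b I c a b (decide (∃ i, H.imm i = true ∧ H.mask i = true)) (decide (H.jj = ones V))).map
    fun o => (o.1, o.2.1, ⟨if o.2.2.1 = true then inc H.pc else H.pc, H.imm, inc H.jj, shl H.mask,
      if o.2.2.2 = true then orr H.pp H.mask else H.pp⟩)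

noncomputable def mstep {V : ℕ} (s : St V) : St V ⊕ Option (Bool → Let (2 ^ V)) :=
  match s.ph with
  | .F => .inl ⟨.S1 (fetch (rv s.H.pc)).1 (fetch (rv s.H.pc)).1.c0, hF s.H, s.u⟩
  | .S1 I c => .inl ⟨.S2 I c (s.u I.β I.rd (idx s.H.jj)), s.H, s.u⟩
  | .S2 I c a =>
    match fin2 I c a (s.u I.β' I.wr (idx s.H.jj)) s.H with
    | none => .inr none
    | some o => .inl ⟨o.2.1, o.2.2,
        putR s.u I.β' I.wr (Function.update (s.u I.β' I.wr) (idx s.H.jj) o.1)⟩
  | .rel => .inr (some s.u)

open Classical in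
/-- Bound for the number of instructions still to be fetched. -/
noncomputable def bnd {V : ℕ} (s : St V) : ℕ :=
  match s.ph with
  | .F => 64 - rv s.H.pc % 64
  | .S1 I _ => if ∃ c, I.out c = .cont then 64 - rv (inc s.H.pc) % 64 else 0
  | .S2 I _ _ => if ∃ c, I.out c = .cont then 64 - rv (inc s.H.pc) % 64 else 0
  | .rel => 0

def loc {V : ℕ} (s : St V) : ℕ :=
  match s.ph with
  | .F => 0
  | .S1 _ _ => 2 * (2 ^ V - rv s.H.jj) + 1
  | .S2 _ _ _ => 2 * (2 ^ V - rv s.H.jj)
  | .rel => 0

def isF : Phs → ℕ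
  | .F => 1
  | _ => 0

theorem six_le_E : 6 ≤ E := by unfold E; omega
theorem ten_le_E : 10 ≤ E := by unfold E; omega

theorem step_bnd {V : ℕ} [hV : Fact (E ≤ V)] {s s' : St V} (h : mstep s = .inl s') :
    bnd s' + isF s.ph ≤ bnd s ∧ (isF s.ph = 0 → loc s' < loc s) := by
  have h64 : 64 ∣ 2 ^ V := by
    have := six_le_E.trans hV.out
    exact (pow_dvd_pow 2 this : 2 ^ 6 ∣ 2 ^ V)
  obtain ⟨ph, H, u⟩ := s
  cases ph with
  | F =>
    simp only [mstep, Sum.inl.injEq] at h
    subst h
    simp only [bnd, isF, hF]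
    refine ⟨?_, by simp⟩
    split_ifs with hc
    · have : rv H.pc % 64 ≠ 63 := by
        intro h63
        obtain ⟨c, hc⟩ := hc
        have : (prog (rv H.pc % 2 ^ E / 64))[rv H.pc % 64]? = none := by
          rw [List.getElem?_eq_none_iff]; have := prog_len (rv H.pc % 2 ^ E / 64); omega
        simp [fetch, this, END, tB] at hc
      rw [rv_inc, Nat.mod_mod_of_dvd _ h64]; omega
    · omega
  | S1 I c =>
    simp only [mstep, Sum.inl.injEq] at h
    subst h
    simp [bnd, isF, loc]
  | S2 I c a =>
    simp only [mstep] at h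
    split at h
    · simp at h
    · rename_i o ho
      simp only [Sum.inl.injEq] at h
      subst h
      simp only [fin2, fin2b, Option.map_eq_some_iff] at ho
      obtain ⟨o', ho', rfl⟩ := ho
      have hj := rv_lt H.jj
      split_ifs at ho' with h1 h2 h3 <;> simp only [Option.some.injEq] at ho' <;> subst ho'
      · have hc : ∃ c, I.out c = .cont := ⟨_, h3⟩
        simp [bnd, isF, loc, h2, h3, hc]; omega
      · simp [bnd, isF, loc]; omega
      · have hj' : rv H.jj + 1 < 2 ^ V := by
          by_contra hh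
          apply h2
          simp only [decide_eq_true_eq]
          apply rv_inj; rw [rv_ones]; omega
        simp [bnd, isF, loc, h2, rv_inc, Nat.mod_eq_of_lt hj']; omega
  | rel => simp [mstep] at h

noncomputable def mu {V : ℕ} (s : St V) : ℕ := bnd s * (2 * 2 ^ V + 2) + loc s

theorem step_mu {V : ℕ} [Fact (E ≤ V)] {s s' : St V} (h : mstep s = .inl s') : mu s' < mu s := by
  obtain ⟨h1, h2⟩ := step_bnd h
  have h3 : loc s' < 2 * 2 ^ V + 2 := by
    have := Nat.two_pow_pos V
    unfold loc; split <;> omega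
  unfold mu
  by_cases h0 : isF s.ph = 0
  · have := h2 h0
    have := Nat.mul_le_mul_right (2 * 2 ^ V + 2) (show bnd s' ≤ bnd s by omega)
    omega
  · have := Nat.mul_le_mul_right (2 * 2 ^ V + 2) (show bnd s' + 1 ≤ bnd s by omega)
    rw [add_mul] at this
    omega

/-- The result of a run, with the number of fetched instructions. -/
noncomputable def run {V : ℕ} [Fact (E ≤ V)] (s : St V) : Option (Bool → Let (2 ^ V)) × ℕ :=
  match h : mstep s with
  | .inl s' =>
    have := step_mu h
    ((run s').1, (run s').2 + isF s.ph)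
  | .inr r => (r, 0)
termination_by mu s

noncomputable def res {V : ℕ} [Fact (E ≤ V)] (s : St V) := (run s).1
noncomputable def kk {V : ℕ} [Fact (E ≤ V)] (s : St V) := (run s).2

section
variable {V : ℕ} [Fact (E ≤ V)]

theorem run_step {s s' : St V} (h : mstep s = .inl s') :
    run s = ((run s').1, (run s').2 + isF s.ph) := by
  rw [run]; split <;> simp_all
theorem run_stop {s : St V} {r} (h : mstep s = .inr r) : run s = (r, 0) := by
  rw [run]; split <;> simp_all
theorem res_step {s s' : St V} (h : mstep s = .inl s') : res s = res s' := by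
  simp [res, run_step h]
theorem res_stop {s : St V} {r} (h : mstep s = .inr r) : res s = r := by simp [res, run_stop h]
theorem kk_step {s s' : St V} (h : mstep s = .inl s') : kk s = kk s' + isF s.ph := by
  simp [kk, run_step h]
theorem kk_stop {s : St V} {r} (h : mstep s = .inr r) : kk s = 0 := by simp [kk, run_stop h]

theorem St.ind {P : St V → Prop} (stop : ∀ s r, mstep s = .inr r → P s)
    (step : ∀ s s', mstep s = .inl s' → P s' → P s) (s : St V) : P s := by
  induction hn : mu s using Nat.strong_induction_on generalizing s with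
  | _ n ih =>
    cases h : mstep s with
    | inl s' => exact step s s' h (ih _ (hn ▸ step_mu h) s' rfl)
    | inr r => exact stop s r h

theorem kk_le (s : St V) : kk s ≤ 64 := by
  have h1 : kk s ≤ bnd s := by
    induction s using St.ind with
    | stop s r h => rw [kk_stop h]; omega
    | step s s' h ih => rw [kk_step h]; have := (step_bnd h).1; omega
  refine h1.trans ?_
  unfold bnd; split <;> (try split_ifs) <;> omega

instance : Fact (E ≤ 2 ^ V) := ⟨(Fact.out : E ≤ V).trans Nat.lt_two_pow_self.le⟩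

end

def pair {α : Type} (a b : α) : Bool → α := fun β => cond β b a
@[simp] theorem pair_false {α : Type} (a b : α) : pair a b false = a := rfl
@[simp] theorem pair_true {α : Type} (a b : α) : pair a b true = b := rfl
theorem pair_eta {α : Type} (u : Bool → α) : pair (u false) (u true) = u := by
  funext β; cases β <;> rfl

/-- The rewriting system on letters of width `2^V`. -/
def rho (V : ℕ) [Fact (E ≤ V)] : Rules (Let (2 ^ V)) := fun x0 x1 r =>
  ∃ H : Hd V, rv H.pc % 64 = 0 ∧ H.pp = ro V 0 ∧
    r = (res ⟨.F, H, pair x0 x1⟩).map fun y => (y false, y true)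

/-! ### The rules in terms of the content of the cells -/

section view
variable {W : ℕ}

abbrev adr (x : Let W) : Reg W := x (some .addr)
abbrev lab (x : Let W) : Reg W := x none
def HS (x : Let W) (s : Stat) : Prop := x (some .stat) = ro W (enc s)
def HD (x : Let W) (d : Dyn) : Prop := x (some (.d .dyn)) = ro W (enc d)
def hd (x : Let W) : Hd W :=
  ⟨x (some (.d .pc)), x (some (.d .imm)), x (some (.d .jj)), x (some (.d .mask)),
    x (some (.d .pp))⟩

/-- Same address, static content and label. -/
def Keep (x y : Let W) : Prop := adr y = adr x ∧ y (some .stat) = x (some .stat) ∧ lab y = lab x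

/-- The letters differ in junk only. -/
def Same (x y : Let W) : Prop :=
  Keep x y ∧ y (some (.d .dyn)) = x (some (.d .dyn)) ∧
    (hd y = hd x ∨ ∃ d, HD x d ∧ ¬ d.mark.IsAct)

/-- The active token is at a cell where it can make its next step. -/
def Ready (γ : Bool) (ph : Phs) (s : Stat) (a : Reg W) (H : Hd W) : Prop :=
  match ph with
  | .F => True
  | .S1 I _ => γ = I.β ∧ s.kind = I.tr.isSome ∧ H.jj = a
  | .S2 I _ _ => γ = I.β' ∧ s.kind = I.tr.isSome ∧ H.jj = a
  | .rel => False

/-- The step of the active token. -/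
noncomputable def cstep (s : Stat) (a : DT → Bool) (ph : Phs) (H : Hd W) :
    Option ((DT → Bool) × Phs × Hd W) :=
  match ph with
  | .F => some (a, .S1 (fetch (rv H.pc)).1 (fetch (rv H.pc)).1.c0, hF H)
  | .S1 I c => some (a, .S2 I c (cbit s a I.rd), H)
  | .S2 I c b => (fin2 I c b (cbit s a I.wr) H).map fun o => (cput a I.wr o.1, o.2.1, o.2.2)
  | .rel => none

def Act (x y : Let W) : Prop :=
  ∃ s a γ ph a' ph', HS x s ∧ HD x ⟨a, .tok (.act γ ph)⟩ ∧ Ready γ ph s (adr x) (hd x) ∧
    cstep s a ph (hd x) = some (a', ph', hd y) ∧ Keep x y ∧ HD y ⟨a', .tok (.act γ ph')⟩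

def ActZ (x : Let W) : Prop :=
  ∃ s a γ ph, HS x s ∧ HD x ⟨a, .tok (.act γ ph)⟩ ∧ Ready γ ph s (adr x) (hd x) ∧
    cstep s a ph (hd x) = none

/-- The nonzero rules. -/
inductive VR (x0 x1 y0 y1 : Let W) : Prop
  | junk : Same x0 y0 → Same x1 y1 → VR x0 x1 y0 y1
  | act0 : Act x0 y0 → y1 = x1 → VR x0 x1 y0 y1
  | act1 : y0 = x0 → Act x1 y1 → VR x0 x1 y0 y1
  | move (a0 a1 t) : HD x0 ⟨a0, .tok t⟩ → HD x1 ⟨a1, .L⟩ → Keep x0 y0 → Keep x1 y1 →
      HD y0 ⟨a0, .R⟩ → HD y1 ⟨a1, .tok t⟩ → (t.IsAct → hd y1 = hd x0) → VR x0 x1 y0 y1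
  | cap (a0 a1) : HD x0 ⟨a0, .tok .idle⟩ → HD x1 ⟨a1, .tok .idle⟩ → Keep x0 y0 → Keep x1 y1 →
      HD y0 ⟨a0, .tok (.act false .F)⟩ → HD y1 ⟨a1, .tok (.park true)⟩ →
      rv (hd y0).pc % 64 = 0 → (hd y0).pp = ro W 0 → VR x0 x1 y0 y1
  | hand (a0 a1 ph) : HD x0 ⟨a0, .tok (.act false ph)⟩ → HD x1 ⟨a1, .tok (.park true)⟩ →
      Keep x0 y0 → Keep x1 y1 → HD y0 ⟨a0, .tok (.park false)⟩ →
      HD y1 ⟨a1, .tok (.act true ph)⟩ → hd y1 = hd x0 → VR x0 x1 y0 y1
  | rel (a0 a1) : HD x0 ⟨a0, .tok (.act false .rel)⟩ → HD x1 ⟨a1, .tok (.park true)⟩ →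
      Keep x0 y0 → Keep x1 y1 → HD y0 ⟨a0, .tok .idle⟩ → HD y1 ⟨a1, .tok .idle⟩ → VR x0 x1 y0 y1
  | lsw : adr x1 ≠ ro W 0 → y0 = Function.update x0 none (lab x1) →
      y1 = Function.update x1 none (lab x0) → VR x0 x1 y0 y1

/-- The zero rules. -/
inductive VZ (x0 x1 : Let W) : Prop
  | badS0 : (¬ ∃ s, HS x0 s) → VZ x0 x1
  | badS1 : (¬ ∃ s, HS x1 s) → VZ x0 x1
  | badD0 : (¬ ∃ d, HD x0 d) → VZ x0 x1
  | badD1 : (¬ ∃ d, HD x1 d) → VZ x0 x1
  | succ : adr x1 ≠ inc (adr x0) → VZ x0 x1
  | compat (s0 d0 s1 d1) : HS x0 s0 → HD x0 d0 → HS x1 s1 → HD x1 d1 →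
      ¬ Compat s0 d0 s1 d1 (adr x0 = ro W 0) (adr x1 = ro W 0) (adr x1 = ones W) → VZ x0 x1
  | cb (s) (j : ℕ) : HS x0 s → j < 10 → adr x0 = ro W j → s.kind = true →
      s.sa ≠ (s.c : ℕ).testBit j → VZ x0 x1
  | leq : adr x1 ≠ ro W 0 → lab x0 = lab x1 → VZ x0 x1
  | act0 : ActZ x0 → VZ x0 x1
  | act1 : ActZ x1 → VZ x0 x1

end view

end Crest.Agent.R176.M
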