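import Crest.Agent.R176.Cell

/-!
# 176-M: two runs with the same control flow can exchange their labels
-/

set_option autoImplicit false

namespace Crest.Agent.R176.M

def mix2 {h : ℕ} (u u' : Bool → Let h) : Bool → Let h := fun β => mix (u β) (u' β)

theorem mix2_apply {h : ℕ} (u u' : Bool → Let h) (β : Bool) (τ : Option Tr) :
    mix2 u u' β τ = if τ.isSome then u β τ else u' β τ := by
  cases τ <;> simp [mix2, mix, setL, lab]

theorem putR_mix2 {h : ℕ} (u u' : Bool → Let h) (β : Bool) (τ : Option Tr) (r r' : Reg h) :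
    putR (mix2 u u') β τ (if τ.isSome then r else r') = mix2 (putR u β τ r) (putR u' β τ r') := by
  unfold putR
  split_ifs with h1 h2
  · rfl
  · funext γ σ
    rw [mix2_apply]
    rcases eq_or_ne γ β with rfl | hγ
    · rcases eq_or_ne σ τ with rfl | hσ
      · simp [h2]
      · simp [Function.update_of_ne hσ, mix2_apply]
    · simp [Function.update_of_ne hγ, mix2_apply]
  · funext γ σ
    rw [mix2_apply]
    rcases eq_or_ne γ β with rfl | hγ
    · rcases eq_or_ne σ τ with rfl | hσ
      · simp [h2]
      · simp [Function.update_of_ne hσ, mix2_apply]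
    · simp [Function.update_of_ne hγ, mix2_apply]

def SyncP (p p' m : Phs) : Prop :=
  (p = .F ∧ p' = .F ∧ m = .F) ∨ (p = .rel ∧ p' = .rel ∧ m = .rel) ∨
  (∃ I c c', p = .S1 I c ∧ p' = .S1 I c' ∧ m = .S1 I (if I.tr.isSome then c else c')) ∨
  (∃ I c a c' a', p = .S2 I c a ∧ p' = .S2 I c' a' ∧
    m = .S2 I (if I.tr.isSome then c else c') (if I.tr.isSome then a else a'))

theorem SyncP.refl (p : Phs) : SyncP p p p := by
  cases p with
  | F => exact .inl ⟨rfl, rfl, rfl⟩
  | rel => exact .inr (.inl ⟨rfl, rfl, rfl⟩)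
  | S1 I c => exact .inr (.inr (.inl ⟨I, c, c, rfl, rfl, by simp⟩))
  | S2 I c a => exact .inr (.inr (.inr ⟨I, c, a, c, a, rfl, rfl, by simp⟩))

variable {V : ℕ} [Fact (E ≤ V)]

theorem kk_F (H : Hd V) (u) : kk ⟨.F, H, u⟩ ≠ 0 := by
  rw [kk_step (s' := ⟨.S1 (fetch (rv H.pc)).1 (fetch (rv H.pc)).1.c0, hF H, u⟩) rfl]
  simp [isF]

theorem kk_rel (H : Hd V) (u) : kk ⟨.rel, H, u⟩ = 0 := kk_stop (r := some u) rfl
theorem res_rel (H : Hd V) (u) : res ⟨.rel, H, u⟩ = some u := res_stop rfl

open Classical in
/-- The second step of the loop, explicitly. -/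
theorem mstep_S2 (I : Ins) (c a : Bool) (H : Hd V) (u) (o : Bool × Bool × Bool)
    (ho : o = I.δ c a (u I.β' I.wr (idx H.jj))
      (I.tr.isSome && decide (∃ i, H.imm i = true ∧ H.mask i = true))) :
    mstep ⟨.S2 I c a, H, u⟩ = if H.jj = ones V ∧ I.out o.1 = .zero then .inr none else
      .inl ⟨if H.jj = ones V then (if I.out o.1 = .cont then .F else .rel) else .S1 I o.1,
        ⟨if H.jj = ones V ∧ I.out o.1 = .cont then inc H.pc else H.pc, H.imm, inc H.jj, shl H.mask,
          if (I.tr.isSome && o.2.2) = true then orr H.pp H.mask else H.pp⟩,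
        putR u I.β' I.wr (Function.update (u I.β' I.wr) (idx H.jj) o.2.1)⟩ := by
  simp only [mstep, fin2, fin2b, decide_eq_true_eq, ← ho]
  clear ho
  split_ifs <;> simp_all

theorem mix_run (s : St V) : ∀ (s' : St V) (pm : Phs) y y', SyncP s.ph s'.ph pm →
    s'.H.pc = s.H.pc → s'.H.jj = s.H.jj → kk s = kk s' → res s = some y → res s' = some y' →
    res ⟨pm, s.H, mix2 s.u s'.u⟩ = some (mix2 y y') ∧ kk ⟨pm, s.H, mix2 s.u s'.u⟩ = kk s := by
  induction s using St.ind with
  | stop s r h =>
    rintro ⟨ph', H', u'⟩ pm y y' hs - - - hy hy'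
    obtain ⟨ph, H, u⟩ := s
    rw [res_stop h] at hy
    subst hy
    rcases hs with ⟨rfl, rfl, rfl⟩ | ⟨rfl, rfl, rfl⟩ | ⟨I, c, c', rfl, rfl, rfl⟩ |
      ⟨I, c, a, c', a', rfl, rfl, rfl⟩
    · simp [mstep] at h
    · simp only [mstep, Sum.inr.injEq, Option.some.injEq] at h
      simp only [res_rel, Option.some.injEq] at hy'
      subst h hy'
      simp [res_rel, kk_rel]
    · simp [mstep] at h
    · rw [mstep_S2 _ _ _ _ _ _ rfl] at h
      split_ifs at h <;> simp at h
  | step s s1 h ih =>
    rintro ⟨ph', H', u'⟩ pm y y' hs hpc hjj hk hy hy'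
    obtain ⟨ph, H, u⟩ := s
    simp only at hpc hjj
    rw [res_step h] at hy
    rw [kk_step h] at hk ⊢
    rcases hs with ⟨rfl, rfl, rfl⟩ | ⟨rfl, rfl, rfl⟩ | ⟨I, c, c', rfl, rfl, rfl⟩ |
      ⟨I, c, a, c', a', rfl, rfl, rfl⟩
    · simp only [mstep, Sum.inl.injEq] at h
      subst h
      have h' : mstep ⟨.F, H', u'⟩ = .inl ⟨.S1 (fetch (rv H.pc)).1 (fetch (rv H.pc)).1.c0,
        hF H', u'⟩ := by simp [mstep, hpc]
      have hm : mstep ⟨.F, H, mix2 u u'⟩ = .inl ⟨.S1 (fetch (rv H.pc)).1 (fetch (rv H.pc)).1.c0,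
        hF H, mix2 u u'⟩ := rfl
      rw [kk_step h'] at hk
      rw [res_step h'] at hy'
      rw [res_step hm, kk_step hm]
      have := ih ⟨_, hF H', u'⟩ _ y y' (SyncP.refl _) hpc rfl (by simpa using hk) hy hy'
      exact ⟨this.1, by rw [this.2]⟩
    · simp [mstep] at h
    · simp only [mstep, Sum.inl.injEq] at h
      subst h
      have h' : mstep ⟨.S1 I c', H', u'⟩ = .inl ⟨.S2 I c' (u' I.β I.rd (idx H.jj)), H', u'⟩ := by
        simp [mstep, hjj]
      have hm : mstep ⟨.S1 I (if I.tr.isSome then c else c'), H, mix2 u u'⟩ =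
          .inl ⟨.S2 I (if I.tr.isSome then c else c') (if I.tr.isSome then u I.β I.rd (idx H.jj)
            else u' I.β I.rd (idx H.jj)), H, mix2 u u'⟩ := by
        simp only [mstep, mix2_apply, I.rd_isSome]; split_ifs <;> rfl
      rw [kk_step h'] at hk
      rw [res_step h'] at hy'
      rw [res_step hm, kk_step hm]
      have := ih ⟨_, H', u'⟩ _ y y' (.inr (.inr (.inr ⟨I, _, _, _, _, rfl, rfl, rfl⟩))) hpc hjj
        (by simpa [isF] using hk) hy hy'
      exact ⟨this.1, by rw [this.2]; rfl⟩
    · classical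
      obtain ⟨o, ho⟩ : ∃ o, o = I.δ c a (u I.β' I.wr (idx H.jj))
        (I.tr.isSome && decide (∃ i, H.imm i = true ∧ H.mask i = true)) := ⟨_, rfl⟩
      obtain ⟨o', ho'⟩ : ∃ o, o = I.δ c' a' (u' I.β' I.wr (idx H'.jj))
        (I.tr.isSome && decide (∃ i, H'.imm i = true ∧ H'.mask i = true)) := ⟨_, rfl⟩
      have h' := mstep_S2 I c' a' H' u' o' (by convert ho')
      have hm := mstep_S2 I (if I.tr.isSome then c else c') (if I.tr.isSome then a else a') H
        (mix2 u u') (if I.tr.isSome then o else o') (by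
          rw [mix2_apply, I.wr_isSome]
          split_ifs with h1
          · convert ho
          · simp only [Bool.not_eq_true] at h1
            simp only [ho', h1, hjj, Bool.false_and])
      rw [mstep_S2 I c a H u o (by convert ho)] at h
      rw [hjj, hpc] at h'
      have hz : ¬ (H.jj = ones V ∧ I.out o.1 = .zero) := fun hz => by simp [hz] at h
      have hz' : ¬ (H.jj = ones V ∧ I.out o'.1 = .zero) := fun hz => by
        rw [if_pos hz] at h'; simp [res_stop h'] at hy'
      rw [if_neg hz, Sum.inl.injEq] at h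
      rw [if_neg hz'] at h'
      rw [kk_step h'] at hk
      rw [res_step h'] at hy'
      subst h
      have hc : H.jj = ones V → (I.out o.1 = .cont ↔ I.out o'.1 = .cont) := by
        intro hl
        simp only [hl, if_true, isF, add_zero] at hk
        constructor <;> intro h1 <;> by_contra h2 <;> simp [h1, h2, kk_F, kk_rel, (kk_F _ _).symm] at hk
      have hcm : H.jj = ones V → (I.out (if I.tr.isSome then o else o').1 = .cont ↔
          I.out o.1 = .cont) := fun hl => by split_ifs <;> simp [hc hl]
      have hzm : ¬ (H.jj = ones V ∧ I.out (if I.tr.isSome then o else o').1 = .zero) := by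
        split_ifs <;> assumption
      rw [if_neg hzm] at hm
      rw [res_step hm, kk_step hm]
      have := ih _ (if H.jj = ones V then (if I.out o.1 = .cont then .F else .rel) else
          .S1 I (if I.tr.isSome then o.1 else o'.1)) y y' ?_ ?_ ?_ (by simpa [isF] using hk) hy hy'
      · have e1 : (if H.jj = ones V then (if I.out (if I.tr.isSome then o else o').1 = .cont then
            Phs.F else .rel) else .S1 I (if I.tr.isSome then o else o').1) =
            (if H.jj = ones V then (if I.out o.1 = .cont then .F else .rel) else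
              .S1 I (if I.tr.isSome then o.1 else o'.1)) := by
          by_cases hl : H.jj = ones V
          · simp only [hl, if_true, hcm hl]
          · simp only [hl, if_false, apply_ite Prod.fst]
        have e2 : (H.jj = ones V ∧ I.out (if I.tr.isSome then o else o').1 = .cont) ↔
            (H.jj = ones V ∧ I.out o.1 = .cont) := and_congr_right hcm
        have e3 : (I.tr.isSome && (if I.tr.isSome then o else o').2.2) =
            (I.tr.isSome && o.2.2) := by cases I.tr.isSome <;> simp
        have e4 : Function.update (mix2 u u' I.β' I.wr) (idx H.jj)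
            (if I.tr.isSome then o else o').2.1 = if I.wr.isSome then
              Function.update (u I.β' I.wr) (idx H.jj) o.2.1 else
              Function.update (u' I.β' I.wr) (idx H.jj) o'.2.1 := by
          rw [mix2_apply, I.wr_isSome]; split_ifs <;> rfl
        simp only [e1, e2, e3, e4, putR_mix2]
        exact ⟨this.1, by rw [this.2]; rfl⟩
      · by_cases hl : H.jj = ones V
        · simp only [hl, if_true, ← hc hl]; exact SyncP.refl _
        · simp only [hl, if_false]
          exact .inr (.inr (.inl ⟨I, _, _, rfl, rfl, rfl⟩))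
      · by_cases hl : H.jj = ones V
        · simp only [hl, true_and, ← hc hl]
        · simp [hl]
      · rfl

end Crest.Agent.R176.M
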