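import Crest.Agent.R176.NilA

/-!
# 176-N: a hierarchy gives a matrix-nil algebra

Work over any commutative ring `k` of characteristic 2.  `RU x := ∃ z, (1 - x) * z = 1` in a ring
(`1-x` right invertible); products of right invertible elements are right invertible, nilpotent
`x` ⇒ `RU x`, ring maps keep `RU`.  A *pencil* at level `n` with index type `S` (Fintype) is
`a = Σ_{x : X n} A x ⊗ x`, i.e. the matrix `a i j = Σ_x A x i j • lt x`, `A : X n → Matrix S S k`.
For a word `w` put `A_w = (w.map A).prod`; for a finite set `W` of words `a[W] i j = Σ_{w∈W} A_w i j • wd w`;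
`a[W] * a[W'] = Σ A_{ww'} ⊗ wd (ww')`.  `λ = 2h`, start letters: `pos (sk x) % λ = 0`.

* (Factor) `a = a0 + an` (start / non-start letters).  By `pos_succ` a nonzero word has positions
  increasing by one mod `λ`, so: `an^λ = 0`; `a0 an^j a0 = 0` for `j < λ-1`.  With
  `Bk = a0 an^(λ-1)`, `T' = Σ_{j<λ-1} a0 an^j`:  `1 - a = (1 - T')(1 - Bk)(1 - an)`
  (`T' T' = 0 = T' Bk`, `(Σ_{j<λ} an^j)(1-an) = 1`).  `Bk = Ti + Tl + Tr` by `role` of the block;
  `role_compat` gives `Tl Ti = Tl Tl = Ti Tr = Tr Tr = 0`, so with `V = Ti + Tl Tr`: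
  `1 - Bk = (1 - Tl)(1 - V)(1 - Tr)`.  Hence `RU V ⇒ RU a`.
* (Up) `τ̂ : B (ρ (n+1)) k →ₐ B (ρ n) k`, `lt y ↦ wd (τ y)` (`liftB`, `τ_mv`, `τ_zr`).  By `idle`, `pair`,
  `V = τ̂ (V1 + V2)` entrywise, `V1 = Σ_y C y ⊗ y`, `V2 = Σ_{y,y'} D y y' ⊗ y y'` (each nonzero
  territory word equals `wd (τ y)` resp. `wd (τ y ++ τ y')`; it is enough to know that the entries of
  `V` lie in the image of `Sp (|w| = 1 ∨ |w| = 2)`).
* (Linearize) If the entries of `M : Matrix S S (B σ k)` lie in `Sp (1 ≤ |w| ≤ 2)`, write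
  `M = M1 + Σ_y y • G y` (`M1`, `G y` pencils).  The pencil on `S ⊕ (Y × S)` (or `S × Option Y`)
  `[[M1, H],[G, 0]]` with `H i (y,j) = δ_ij y`, `G (y,i) j = G y i j` has Schur complement
  `1 - M1 - H G = 1 - M`; if `1 - pencil` is right invertible then so is `1 - M` (upper left block of
  the right inverse).  Same trick lowers the degree `d+1 → d` for the initial matrix (any size is fine
  there: this produces the constant `A`), by induction on a degree bound.
* (Kill) At a level with `2 (s^4 T) + 2 ≤ R`, `s = card S`: `V^r = 0` for `r = 2 s^4 T + 2`.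
  Write `V = Σ_{t territory} A_{t.1} A_{t.2.1} A_{t.2.2.1} A_{t.2.2.2} ⊗ wd t.fl` (finite set of `Quad`s
  with `IsTerr`, possibly dropping zero words), expand the `(i,j)` entry of `V^r` over index data
  `d : Fin r → S^5` (consecutive matching) and `ts : Fin r → territories`; fix `d` and use
  `Finset.sum_involution` on the `ts` whose total word is nonzero: take the least pair `p < q` with
  `θ (ts p) = θ (ts q)`, equal indices `i1,i2,i3,i4`, and no `bd` in `[p,q]`; replace `ts p, ts q` by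
  `sw`.  Such a pair exists (`bd_one`: at most one `bd`; pigeonhole on the longer side).  `kill`,
  `bd_sw` show that the chosen pair is unchanged, the map is an involution without fixed points,
  the word is `Eqv`, the coefficient is unchanged (`k` commutative); char 2 gives cancellation.
  (`(t.sw t').sw (t'.sw t) = t`.)
* Downward induction: the claim `Q n s`: every pencil at level `n` with `card S ≤ s` is `RU`.
  `Q (n+1) (s (1 + card X (n+1))) ⇒ Q n s`; `grow_nil` gives a level where Kill applies.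
* (Final) For `A` over `ZMod 2` take `k = (ZMod 2)[t]`, the image of `A` in `B ρ k` (`liftB`), `RU (t A)`,
  map to `(B ρ (ZMod 2))[t]` (algebra over `k`: `Polynomial.algebra`/`Polynomial.mapAlgHom`;
  `liftB`), and compare coefficients: `(1 - tA) q = 1 ⇒ q_n = A^n`, so `A^n = 0` for `n > deg q`.
-/

set_option autoImplicit false
set_option linter.unusedSectionVars false

namespace Crest.Agent.R176

namespace N

open Finset

section level

variable {X Y SX SY : Type} {ρ : Rules X} {σ : Rules Y} {sx : X → SX} {sy : Y → SY}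
  (L : Lev ρ σ sx sy) [Fintype X] {k : Type} [CommRing k] {S : Type} [Fintype S] [DecidableEq S]
  (A : X → Matrix S S k)

variable (ρ) in
/-- the term of the word `w` -/
noncomputable def g (w : List X) : Matrix S S (B ρ k) := tm (w.map A).prod (wd ρ k w)

lemma g_append (u v : List X) : g ρ A (u ++ v) = g ρ A u * g ρ A v := by
  simp [g, tm_mul]

lemma g_single (x : X) : g ρ A [x] = tm (A x) (lt ρ k x) := by simp [g]

lemma g_zr {w : List X} (h : Zr ρ w) : g ρ A w = 0 := by rw [g, h.wd_eq, tm_zero]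

lemma prod_g (w : List X) : (w.map fun x => g ρ A [x]).prod = g ρ A w := by
  induction w with
  | nil => simp [g, tm_one]
  | cons x w ih => rw [List.map_cons, List.prod_cons, ih, ← g_append]; rfl

lemma pow_g (s : Finset X) (n : ℕ) :
    (∑ x ∈ s, g ρ A [x]) ^ n = ∑ w ∈ lists s n, g ρ A w := by
  rw [sum_pow_lists]; simp only [prod_g]

lemma mul_zero_of {W W' : Finset (List X)} (h : ∀ u ∈ W, ∀ v ∈ W', Zr ρ (u ++ v)) :
    (∑ u ∈ W, g ρ A u) * ∑ v ∈ W', g ρ A v = 0 := by
  rw [sum_mul_sum]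
  exact sum_eq_zero fun u hu => sum_eq_zero fun v hv => by rw [← g_append, g_zr A (h u hu v hv)]

lemma pos_word : ∀ (M : List X) (x y : X), ¬ Zr ρ (x :: (M ++ [y])) →
    L.pos (sx y) ≡ L.pos (sx x) + (M.length + 1) [MOD 2 * L.h]
  | [], x, y, h => (L.pos_succ x y h).of_mul_left _
  | z :: M, x, y, h => by
    have h1 := pos_word M z y fun h' => h (h'.cons x)
    have h2 : L.pos (sx z) ≡ L.pos (sx x) + 1 [MOD 2 * L.h] :=
      (L.pos_succ x z fun h' => h (h'.append_right (M ++ [y]))).of_mul_left _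
    refine h1.trans ((h2.add_right _).trans ?_)
    rw [List.length_cons, add_assoc, add_comm 1]

open Classical in
/-- start letters -/
noncomputable def X0 : Finset X := {x | L.pos (sx x) % (2 * L.h) = 0}

open Classical in
/-- other letters -/
noncomputable def Xn : Finset X := {x | ¬ L.pos (sx x) % (2 * L.h) = 0}

open Classical in
/-- blocks -/
noncomputable def Blk : Finset (List X) :=
  (X0 L ×ˢ lists univ (2 * L.h - 1)).image fun p => p.1 :: p.2

lemma mem_Blk {b : List X} : b ∈ Blk L ↔ IsBlk L.h (L.pos ∘ sx) b := by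
  have := L.h_ge
  simp only [Blk, X0, mem_image, mem_product, mem_filter, mem_univ, true_and, mem_lists,
    implies_true, and_true, Prod.exists, IsBlk, Function.comp]
  constructor
  · rintro ⟨x, r, ⟨h1, h2⟩, rfl⟩
    exact ⟨by simp [h2]; omega, x, r, rfl, h1⟩
  · rintro ⟨h1, x, r, rfl, h2⟩
    exact ⟨x, r, ⟨h2, by simp at h1; omega⟩, rfl⟩

/-- blocks with a given role -/
noncomputable def Br (c : Role) : Finset (List X) := (Blk L).filter fun b => L.role b = c

lemma mem_Br {c : Role} {b : List X} :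
    b ∈ Br L c ↔ IsBlk L.h (L.pos ∘ sx) b ∧ L.role b = c := by
  rw [Br, mem_filter, mem_Blk]

/-- one-block territory -/
def qi (h : ℕ) (b : List X) : Quad X := (b.take h, b.drop h, [], [])

/-- two-block territory -/
def qp (h : ℕ) (p : List X × List X) : Quad X :=
  (p.1.take h, p.1.drop h, p.2.take h, p.2.drop h)

lemma qi_fl (h : ℕ) (b : List X) : (qi h b).fl = b := by simp [qi, Quad.fl]

lemma qp_fl (h : ℕ) (p : List X × List X) : (qp h p).fl = p.1 ++ p.2 := by
  simp [qp, Quad.fl]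

open Classical in
/-- territories -/
noncomputable def Terr : Finset (Quad X) :=
  (Br L .idle).image (qi L.h) ∪ (Br L .left ×ˢ Br L .right).image (qp L.h)

lemma mem_Terr {t : Quad X} : t ∈ Terr L ↔ IsTerr L.h (L.pos ∘ sx) L.role t := by
  simp only [Terr, mem_union, mem_image, mem_product, mem_Br, IsTerr]
  constructor
  · rintro (⟨b, ⟨h1, h2⟩, rfl⟩ | ⟨p, ⟨⟨h1, h2⟩, h3, h4⟩, rfl⟩)
    · simp only [qi, List.take_append_drop]
      exact ⟨by rw [List.length_take, h1.1]; omega, h1, Or.inl ⟨h2, trivial, trivial⟩⟩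
    · simp only [qp, List.take_append_drop]
      exact ⟨by rw [List.length_take, h1.1]; omega, h1,
        Or.inr ⟨h2, by rw [List.length_take, h3.1]; omega, h3, h4⟩⟩
  · obtain ⟨t1, t2, t3, t4⟩ := t
    rintro ⟨h1, h2, ⟨h3, h4, h5⟩ | ⟨h3, h4, h5, h6⟩⟩
    · simp only at h1 h4 h5
      exact Or.inl ⟨t1 ++ t2, ⟨h2, h3⟩, by simp [qi, ← h1, h4, h5]⟩
    · simp only at h1 h4
      refine Or.inr ⟨(t1 ++ t2, t3 ++ t4), ⟨⟨h2, h3⟩, h5, h6⟩, ?_⟩
      simp only [qp, List.take_left' h1, List.drop_left' h1, List.take_left' h4,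
        List.drop_left' h4]

/-- the matrix of territories -/
noncomputable def V : Matrix S S (B ρ k) := ∑ t ∈ Terr L, g ρ A t.fl

lemma V_eq : V L A = ∑ b ∈ Br L .idle, g ρ A b +
    (∑ b ∈ Br L .left, g ρ A b) * ∑ b ∈ Br L .right, g ρ A b := by
  classical
  rw [V, Terr, sum_union, sum_image, sum_image, sum_product, sum_mul_sum]
  · simp only [qi_fl, qp_fl, g_append]
  · rintro ⟨a, b⟩ - ⟨a', b'⟩ - h
    simp only [qp, Prod.mk.injEq] at h
    rw [← List.take_append_drop L.h a, ← List.take_append_drop L.h b, h.1, h.2.1, h.2.2.1,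
      h.2.2.2, List.take_append_drop, List.take_append_drop]
  · intro a _ b _ h
    rw [← qi_fl L.h a, h, qi_fl]
  · rw [disjoint_left]
    intro t h1 h2
    obtain ⟨b, hb, rfl⟩ := mem_image.1 h1
    obtain ⟨p, hp, h⟩ := mem_image.1 h2
    simp only [qp, qi, Prod.mk.injEq] at h
    have : p.1 = b := by
      rw [← List.take_append_drop L.h p.1, h.1, h.2.1, List.take_append_drop]
    have h3 := ((mem_Br L).1 (mem_product.1 hp).1).2
    rw [this, ((mem_Br L).1 hb).2] at h3
    exact absurd h3 (by decide)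

lemma red (h : RI (1 - V L A)) : RI (1 - ∑ x, tm (A x) (lt ρ k x)) := by
  classical
  have hh := L.h_ge
  have e1 : ∑ x, tm (A x) (lt ρ k x) = ∑ x ∈ X0 L, g ρ A [x] + ∑ x ∈ Xn L, g ρ A [x] := by
    simp only [← g_single]
    rw [X0, Xn]
    convert (sum_filter_add_sum_filter_not univ (fun x => L.pos (sx x) % (2 * L.h) = 0)
      fun x => g ρ A [x]).symm
  rw [e1]
  refine factor1 _ _ (2 * L.h - 1) ?_ ?_ ?_
  · rw [pow_g]
    refine sum_eq_zero fun w hw => g_zr A ?_
    by_contra hz
    obtain ⟨h1, h2⟩ := mem_lists.1 hw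
    obtain ⟨x, r, rfl⟩ := List.exists_cons_of_length_eq_add_one h1
    have hx : ¬ L.pos (sx x) % (2 * L.h) = 0 := by simpa [Xn] using h2 x (by simp)
    have hlt : L.pos (sx x) % (2 * L.h) < 2 * L.h := Nat.mod_lt _ (by omega)
    simp only [List.length_cons] at h1
    set j := 2 * L.h - L.pos (sx x) % (2 * L.h) - 1 with hj
    have hjr : j < r.length := by omega
    have e : x :: r = x :: (r.take j ++ [r[j]]) ++ r.drop (j + 1) := by simp
    have h3 := pos_word L (r.take j) x r[j] fun h' => hz (e ▸ h'.append_right _)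
    have hy : ¬ L.pos (sx r[j]) % (2 * L.h) = 0 := by
      simpa [Xn] using h2 r[j] (List.mem_cons_of_mem _ (List.getElem_mem hjr))
    apply hy
    rw [List.length_take, min_eq_left hjr.le] at h3
    rw [h3, ← Nat.mod_add_mod]
    have : L.pos (sx x) % (2 * L.h) + (j + 1) = 2 * L.h := by omega
    rw [this, Nat.mod_self]
  · intro j hj
    rw [pow_g, sum_mul_sum, sum_mul]
    refine sum_eq_zero fun x hx => ?_
    rw [sum_mul_sum]
    refine sum_eq_zero fun w hw => sum_eq_zero fun y hy => ?_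
    rw [← g_append, ← g_append]
    refine g_zr A ?_
    by_contra hz
    have h3 := pos_word L w x y hz
    have h4 : L.pos (sx x) % (2 * L.h) = 0 := by simpa [X0] using hx
    have h5 : L.pos (sx y) % (2 * L.h) = 0 := by simpa [X0] using hy
    rw [Nat.ModEq, h5, ← Nat.mod_add_mod, h4, zero_add, (mem_lists.1 hw).1,
      Nat.mod_eq_of_lt (by omega)] at h3
    omega
  · have e2 : (∑ x ∈ X0 L, g ρ A [x]) * (∑ x ∈ X0 L, g ρ A [x] + ∑ x ∈ Xn L, g ρ A [x]) ^
        (2 * L.h - 1) = ∑ b ∈ Br L .idle, g ρ A b + ∑ b ∈ Br L .left, g ρ A b +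
          ∑ b ∈ Br L .right, g ρ A b := by
      rw [← e1]
      simp only [← g_single]
      rw [pow_g, sum_mul_sum]
      simp only [← g_append, List.singleton_append]
      rw [← sum_cons, ← Blk]
      simp only [Br, sum_filter, ← sum_add_distrib]
      refine sum_congr rfl fun b _ => ?_
      cases L.role b <;> simp
    rw [e2]
    have key : ∀ c c' : Role, ¬ (c = .left ↔ c' = .right) →
        (∑ b ∈ Br L c, g ρ A b) * ∑ b ∈ Br L c', g ρ A b = 0 := by
      intro c c' hc
      refine mul_zero_of A fun u hu v hv => ?_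
      by_contra hz
      obtain ⟨h1, h2⟩ := (mem_Br L).1 hu
      obtain ⟨h3, h4⟩ := (mem_Br L).1 hv
      exact hc (h2 ▸ h4 ▸ L.role_compat u v h1 h3 hz)
    refine factor2 _ _ _ (key _ _ (by decide)) (key _ _ (by decide)) (key _ _ (by decide))
      (key _ _ (by decide)) ?_
    rwa [← V_eq]

lemma up (h : ∀ M : Matrix S S (B σ k), In σ k (fun w => 1 ≤ w.length ∧ w.length ≤ 1 + 1) M →
    RI (1 - M)) : RI (1 - V L A) := by
  let τ : B σ k →ₐ[k] B ρ k := liftB (fun y => wd ρ k (L.τ y))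
    (fun y1 y2 z1 z2 hr => by rw [← wd_append, ← wd_append, (L.τ_mv _ _ _ _ hr).wd_eq])
    (fun y1 y2 hr => by rw [← wd_append, (L.τ_zr _ _ hr).wd_eq])
  have h1 : ∀ i j, V L A i j ∈
      (Sp σ k fun w => 1 ≤ w.length ∧ w.length ≤ 1 + 1).map τ.toLinearMap := by
    intro i j
    rw [V, Matrix.sum_apply]
    refine Submodule.sum_mem _ fun t ht => Submodule.smul_mem _ _ (show wd ρ k t.fl ∈ _ from ?_)
    by_cases hz : Zr ρ t.fl
    · rw [hz.wd_eq]; exact Submodule.zero_mem _
    obtain ⟨-, h2, ⟨h3, h4, h5⟩ | ⟨h3, -, h5, h6⟩⟩ := (mem_Terr L).1 ht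
    · have e : t.fl = t.1 ++ t.2.1 := by simp [Quad.fl, h4, h5]
      rw [e] at hz ⊢
      obtain ⟨y, hy⟩ := L.idle _ h2 h3 hz
      exact ⟨wd σ k [y], wd_mem_Sp (by simp), by rw [hy.wd_eq]; simp [τ]⟩
    · have e : t.fl = t.1 ++ t.2.1 ++ (t.2.2.1 ++ t.2.2.2) := by simp [Quad.fl]
      rw [e] at hz ⊢
      obtain ⟨y, y', hy⟩ := L.pair _ _ h2 h5 h3 h6 hz
      exact ⟨wd σ k [y, y'], wd_mem_Sp (by simp), by rw [hy.wd_eq]; simp [τ]⟩
  choose M h2 h3 using h1
  have := (h (Matrix.of M) h2).map (R' := Matrix S S (B ρ k)) τ.toRingHom.mapMatrix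
  convert this using 2
  ext1 i j
  exact (h3 i j).symm

/-! ### the cancelling involution -/

/-- decorated territories -/
abbrev Dec (X S : Type) := Quad X × S × S × S × S × S

/-- coefficient of a decorated territory; the indices are ordered `i0, i4, i3, i2, i1` -/
def cf (d : Dec X S) : k :=
  (d.1.1.map A).prod d.2.1 d.2.2.2.2.2 * (d.1.2.1.map A).prod d.2.2.2.2.2 d.2.2.2.2.1 *
    (d.1.2.2.1.map A).prod d.2.2.2.2.1 d.2.2.2.1 * (d.1.2.2.2.map A).prod d.2.2.2.1 d.2.2.1

variable (k) in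
/-- matrix unit of a decorated territory -/
def un (i : S × S × S × S × S) : Matrix S S k := Matrix.single i.1 i.2.1 1

variable (ρ) in
/-- term of a decorated territory -/
noncomputable def term (d : Dec X S) : Matrix S S (B ρ k) :=
  cf A d • tm (un k d.2) (wd ρ k d.1.fl)

lemma g_fl (t : Quad X) : g ρ A t.fl = ∑ i, term ρ A (t, i) := by
  simp only [term]
  rw [← tm_sum, g]
  congr 1
  rw [Matrix.matrix_eq_sum_single (t.fl.map A).prod]
  simp only [Fintype.sum_prod_type]
  refine sum_congr rfl fun i _ => sum_congr rfl fun j _ => ?_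
  simp only [un, ← sum_smul]
  rw [Matrix.smul_single, smul_eq_mul, mul_one]
  congr 1
  simp only [Quad.fl, List.map_append, List.prod_append, Matrix.mul_apply, sum_mul, cf]

lemma prod_term (ds : List (Dec X S)) : (ds.map (term ρ A)).prod = (ds.map (cf A)).prod •
    tm (ds.map fun d => un k d.2).prod (wd ρ k ((ds.map Prod.fst).flatMap Quad.fl)) := by
  induction ds with
  | nil => simp [tm_one]
  | cons d ds ih =>
    simp only [List.map_cons, List.prod_cons, ih, term, List.flatMap_cons, wd_append,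
      smul_mul_smul_comm, tm_mul]

/-- the data seen by the choice of the pair -/
def key (d : Dec X S) : (Fin L.T × S × S × S × S) × Prop := ((L.θ d.1, d.2.2), L.bd d.1)

/-- a repeated key with no boundary in between -/
def Good {K : Type} (κ : List (K × Prop)) (m : ℕ × ℕ) : Prop :=
  ∃ P a M Q, κ = P ++ a :: (M ++ a :: Q) ∧ P.length = m.1 ∧ M.length = m.2 ∧ ¬ a.2 ∧
    ∀ b ∈ M, ¬ b.2

open Classical in
/-- the chosen pair -/
noncomputable def sel {K : Type} (κ : List (K × Prop)) : ℕ × ℕ :=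
  if h : ∃ m, Good κ m then h.choose else (0, 0)

lemma sel_good {K : Type} {κ : List (K × Prop)} (h : ∃ m, Good κ m) : Good κ (sel κ) := by
  rw [sel, dif_pos h]; exact h.choose_spec

lemma good_of_free {K : Type} [Fintype K] (P κ Q : List (K × Prop)) (h1 : ∀ b ∈ κ, ¬ b.2)
    (h2 : Fintype.card K < κ.length) : ∃ m, Good (P ++ κ ++ Q) m := by
  have h3 : ¬ κ.Nodup := by
    intro h
    have : (κ.map Prod.fst).Nodup := h.map_on fun a ha b hb hab =>
      Prod.ext hab (propext ⟨fun h => absurd h (h1 a ha), fun h => absurd h (h1 b hb)⟩)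
    have := this.length_le_card
    rw [List.length_map] at this
    omega
  obtain ⟨a, ha⟩ := List.exists_duplicate_iff_not_nodup.2 h3
  obtain ⟨r1, r2, rfl, h4, h5⟩ := List.cons_sublist_iff.1 (List.duplicate_iff_sublist.1 ha)
  obtain ⟨p1, p2, rfl⟩ := List.append_of_mem h4
  obtain ⟨q1, q2, rfl⟩ := List.append_of_mem (List.singleton_sublist.1 h5)
  exact ⟨(_, _), P ++ p1, a, p2 ++ q1, q2 ++ Q, by simp, rfl, rfl, h1 a (by simp),
    fun b hb => h1 b (by rcases List.mem_append.1 hb with h | h <;> simp [h])⟩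

/-- exchange of second halves -/
def dsw (d d' : Dec X S) : Dec X S := (d.1.sw d'.1, d.2)

/-- exchange at the positions given by `m` -/
def swp (m : ℕ × ℕ) (ds : List (Dec X S)) : List (Dec X S) :=
  match ds.drop m.1 with
  | [] => ds
  | d :: r =>
    match r.drop m.2 with
    | [] => ds
    | d' :: Q => ds.take m.1 ++ dsw d d' :: (r.take m.2 ++ dsw d' d :: Q)

lemma swp_eq {m : ℕ × ℕ} (P M Q : List (Dec X S)) (d d' : Dec X S) (h1 : P.length = m.1)
    (h2 : M.length = m.2) :
    swp m (P ++ d :: (M ++ d' :: Q)) = P ++ dsw d d' :: (M ++ dsw d' d :: Q) := by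
  simp only [swp, List.drop_left' h1, List.drop_left' h2, List.take_left' h1, List.take_left' h2]

lemma exists_good {ds : List (Dec X S)} (h1 : ds.length = 2 * (Fintype.card S ^ 4 * L.T) + 2)
    (hR : 2 * (Fintype.card S ^ 4 * L.T) + 2 ≤ L.R)
    (h2 : ∀ d ∈ ds, IsTerr L.h (L.pos ∘ sx) L.role d.1)
    (hz : ¬ Zr ρ ((ds.map Prod.fst).flatMap Quad.fl)) : ∃ m, Good (ds.map (key L)) m := by
  set n := Fintype.card S ^ 4 * L.T with hn
  have hc : Fintype.card (Fin L.T × S × S × S × S) = n := by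
    simp only [Fintype.card_prod, Fintype.card_fin, hn]; ring
  obtain ⟨l1, l2, rfl, h3⟩ : ∃ l1 l2, ds = l1 ++ l2 ∧ l1.length = n + 1 :=
    ⟨ds.take (n + 1), ds.drop (n + 1), (List.take_append_drop _ _).symm, by
      rw [List.length_take]; omega⟩
  rw [List.length_append] at h1
  by_cases a1 : ∀ d ∈ l1, ¬ L.bd d.1
  · have := good_of_free [] (l1.map (key L)) (l2.map (key L))
      (fun b hb => by obtain ⟨d, hd, rfl⟩ := List.mem_map.1 hb; exact a1 d hd)
      (by rw [List.length_map]; omega)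
    simpa using this
  by_cases a2 : ∀ d ∈ l2, ¬ L.bd d.1
  · have := good_of_free (l1.map (key L)) (l2.map (key L)) []
      (fun b hb => by obtain ⟨d, hd, rfl⟩ := List.mem_map.1 hb; exact a2 d hd)
      (by rw [List.length_map]; omega)
    simpa using this
  push Not at a1 a2
  obtain ⟨d, hd, b1⟩ := a1
  obtain ⟨d', hd', b2⟩ := a2
  obtain ⟨p1, p2, rfl⟩ := List.append_of_mem hd
  obtain ⟨q1, q2, rfl⟩ := List.append_of_mem hd'
  refine absurd b2 (L.bd_one d.1 d'.1 ((p2 ++ q1).map Prod.fst) (h2 d (by simp)) (h2 d' (by simp))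
    (fun b hb => ?_) ?_ (fun h => hz ?_) b1)
  · obtain ⟨e, he, rfl⟩ := List.mem_map.1 hb
    exact h2 e (by rcases List.mem_append.1 he with h | h <;> simp [h])
  · simp only [List.length_append, List.length_cons, List.length_map] at h1 ⊢
    omega
  · have := h.ctx ((p1.map Prod.fst).flatMap Quad.fl) ((q2.map Prod.fst).flatMap Quad.fl)
    simpa using this

lemma swap_spec {ds : List (Dec X S)} (h2 : ∀ d ∈ ds, IsTerr L.h (L.pos ∘ sx) L.role d.1)
    (hz : ¬ Zr ρ ((ds.map Prod.fst).flatMap Quad.fl)) {m : ℕ × ℕ} (hg : Good (ds.map (key L)) m) :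
    (swp m ds).length = ds.length ∧ (∀ d ∈ swp m ds, IsTerr L.h (L.pos ∘ sx) L.role d.1) ∧
      (swp m ds).map (key L) = ds.map (key L) ∧ swp m ds ≠ ds ∧ swp m (swp m ds) = ds ∧
      Eqv ρ ((ds.map Prod.fst).flatMap Quad.fl) (((swp m ds).map Prod.fst).flatMap Quad.fl) ∧
      ((swp m ds).map (cf A)).prod = (ds.map (cf A)).prod ∧
      ((swp m ds).map fun d => un k d.2) = ds.map fun d => un k d.2 := by
  obtain ⟨P', a, M', Q', e, l1, l2, n1, n2⟩ := hg
  obtain ⟨P, r, rfl, rfl, e1⟩ := List.map_eq_append_iff.1 e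
  obtain ⟨d, r', rfl, k1, e2⟩ := List.map_eq_cons_iff.1 e1
  obtain ⟨M, r'', rfl, rfl, e3⟩ := List.map_eq_append_iff.1 e2
  obtain ⟨d', Q, rfl, k2, rfl⟩ := List.map_eq_cons_iff.1 e3
  rw [List.length_map] at l1 l2
  have k3 : key L d = key L d' := k1.trans k2.symm
  simp only [key, Prod.mk.injEq] at k3
  obtain ⟨⟨k4, k5⟩, -⟩ := k3
  obtain ⟨c1, c2, c3, c4, c5, c6⟩ := L.kill d.1 d'.1 (M.map Prod.fst) (h2 d (by simp))
    (h2 d' (by simp))
    (fun b hb => by obtain ⟨e, he, rfl⟩ := List.mem_map.1 hb; exact h2 e (by simp [he]))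
    (fun h => hz (by
      have := h.ctx ((P.map Prod.fst).flatMap Quad.fl) ((Q.map Prod.fst).flatMap Quad.fl)
      simpa using this)) k4 (by rw [← k1] at n1; exact n1) (by rw [← k2] at n1; exact n1)
    (fun b hb => by
      obtain ⟨e, he, rfl⟩ := List.mem_map.1 hb
      exact n2 _ (List.mem_map_of_mem he))
  rw [swp_eq P M Q d d' l1 l2, swp_eq P M Q _ _ l1 l2]
  refine ⟨by simp, fun e he => ?_, ?_, fun h => c5 ?_, rfl, ?_, ?_, by simp [dsw]⟩
  · simp only [List.mem_append, List.mem_cons] at he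
    rcases he with he | rfl | he | rfl | he
    · exact h2 e (by simp [he])
    · exact c1
    · exact h2 e (by simp [he])
    · exact c2
    · exact h2 e (by simp [he])
  · simp [key, dsw, c3, c4, L.bd_sw]
  · simp only [List.append_cancel_left_eq, List.cons.injEq] at h
    exact congrArg Prod.fst h.1
  · have := c6.ctx ((P.map Prod.fst).flatMap Quad.fl) ((Q.map Prod.fst).flatMap Quad.fl)
    simpa [dsw] using this
  · simp only [List.map_append, List.map_cons, List.prod_append, List.prod_cons, cf, dsw, Quad.sw,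
      k5]
    ring

lemma kill (h2 : (2 : k) = 0) (hR : 2 * (Fintype.card S ^ 4 * L.T) + 2 ≤ L.R) :
    RI (1 - V L A) := by
  classical
  refine RI.of_nil ⟨2 * (Fintype.card S ^ 4 * L.T) + 2, ?_⟩
  have e : V L A = ∑ d ∈ Terr L ×ˢ univ, term ρ A d := by
    rw [V, sum_product]; simp only [g_fl]
  rw [e, sum_pow_lists, ← sum_filter_add_sum_filter_not _
    fun ds => Zr ρ ((ds.map Prod.fst).flatMap Quad.fl), sum_eq_zero, zero_add]
  · have hs : ∀ ds ∈ (lists (Terr L ×ˢ (univ : Finset (S × S × S × S × S)))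
        (2 * (Fintype.card S ^ 4 * L.T) + 2)).filter
        (fun ds => ¬ Zr ρ ((ds.map Prod.fst).flatMap Quad.fl)), _ := fun ds hds => by
      obtain ⟨a1, a2⟩ := mem_filter.1 hds
      obtain ⟨a3, a4⟩ := mem_lists.1 a1
      have a5 : ∀ d ∈ ds, IsTerr L.h (L.pos ∘ sx) L.role d.1 := fun d hd =>
        (mem_Terr L).1 (mem_product.1 (a4 d hd)).1
      exact swap_spec L A a5 a2 (sel_good (exists_good L a3 hR a5 a2))
    refine sum_involution (fun ds _ => swp (sel (ds.map (key L))) ds) (fun ds hds => ?_)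
      (fun ds hds _ => (hs ds hds).2.2.2.1) (fun ds hds => ?_) (fun ds hds => ?_)
    · obtain ⟨-, -, -, -, -, b1, b2, b3⟩ := hs ds hds
      rw [prod_term, prod_term, b2, b3, ← b1.wd_eq, ← add_smul, ← two_mul, h2, zero_mul, zero_smul]
    · obtain ⟨b1, b2, -, -, -, b3, -⟩ := hs ds hds
      obtain ⟨a1, a2⟩ := mem_filter.1 hds
      refine mem_filter.2 ⟨mem_lists.2 ⟨b1.trans (mem_lists.1 a1).1, fun d hd => ?_⟩,
        fun h => a2 (b3.zr_iff.2 h)⟩
      exact mem_product.2 ⟨(mem_Terr L).2 (b2 d hd), mem_univ _⟩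
    · obtain ⟨-, -, b1, -, b2, -⟩ := hs ds hds
      simp only [b1, b2]
  · intro ds hds
    rw [prod_term, (mem_filter.1 hds).2.wd_eq, tm_zero, smul_zero]

end level

/-- all pencils of size at most `s` at level `n` are right quasi-regular -/
def Q (H : Hier) (k : Type) [CommRing k] (n s : ℕ) : Prop :=
  ∀ (S : Type) [Fintype S] [DecidableEq S], Fintype.card S ≤ s →
    ∀ M : Matrix S S (B (H.ρ n) k), In (H.ρ n) k (fun w => w.length = 1) M → RI (1 - M)

lemma Q_step (H : Hier) (k : Type) [CommRing k] (n s : ℕ)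
    (h : Q H k (n + 1) (s * (1 + Nat.card (H.X (n + 1))))) : Q H k n s := by
  classical
  intro S _ _ hS M hM
  have := H.fin n
  have := H.fin (n + 1)
  have := Fintype.ofFinite (H.X n)
  have := Fintype.ofFinite (H.X (n + 1))
  obtain ⟨A, rfl⟩ := exists_pencil hM
  refine red (H.L n) A (up (H.L n) A fun M' hM' => ?_)
  obtain ⟨N, h1, h2⟩ := linearize 1 le_rfl hM'
  refine h2 (h _ ?_ N fun i j => Sp_mono (fun w hw => by omega) (h1 i j))
  rw [Fintype.card_sum, Fintype.card_prod, Nat.card_eq_fintype_card]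
  nlinarith

lemma Q_kill (H : Hier) (k : Type) [CommRing k] (h2 : (2 : k) = 0) (n s : ℕ)
    (h : 2 * (s ^ 4 * (H.L n).T) + 2 ≤ (H.L n).R) : Q H k n s := by
  intro S _ _ hS M hM
  have := H.fin n
  have := Fintype.ofFinite (H.X n)
  obtain ⟨A, rfl⟩ := exists_pencil hM
  refine red (H.L n) A (kill (H.L n) A h2 (le_trans ?_ h))
  gcongr

lemma Q_zero (H : Hier) (k : Type) [CommRing k] (h2 : (2 : k) = 0) (s : ℕ) : Q H k 0 s := by
  obtain ⟨n, hn⟩ := H.grow_nil s
  have key : ∀ n, Q H k n (s * ∏ i ∈ range (n + 1), (1 + Nat.card (H.X i))) →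
      Q H k 0 (s * ∏ i ∈ range 1, (1 + Nat.card (H.X i))) := by
    intro n
    induction n with
    | zero => exact id
    | succ n ih =>
      intro h
      refine ih (Q_step H k n _ ?_)
      rwa [prod_range_succ, ← mul_assoc] at h
  intro S _ _ hS
  refine key n (Q_kill H k h2 n _ hn) S (hS.trans ?_)
  rw [prod_range_one]
  nlinarith

end N

theorem Hier.matNil (H : Hier) : MatNil (H.ρ 0) := by
  have := H.fin 0
  refine N.matNil_of (N.all_of_pencil fun S _ _ M hM => ?_)
  exact N.Q_zero H _ (CharTwo.two_eq_zero) _ S le_rfl M hM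

end Crest.Agent.R176
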