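import Crest.Agent.R176.Defs

/-!
# 176-N, part A: right invertibility, expansions over words, linearisation
-/

set_option autoImplicit false
set_option linter.unusedSectionVars false

namespace Crest.Agent.R176.N

open Finset

/-! ### right invertible elements -/

section ring

variable {R : Type*} [Ring R]

/-- right invertible -/
def RI (x : R) : Prop := ∃ z, x * z = 1

lemma RI.mul {x y : R} (hx : RI x) (hy : RI y) : RI (x * y) := by
  obtain ⟨a, ha⟩ := hx
  obtain ⟨b, hb⟩ := hy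
  exact ⟨b * a, by rw [mul_assoc, ← mul_assoc y, hb, one_mul, ha]⟩

lemma RI.of_nil {x : R} (h : IsNilpotent x) : RI (1 - x) :=
  h.isUnit_one_sub.exists_right_inv

lemma RI.of_sq {x : R} (h : x * x = 0) : RI (1 - x) := RI.of_nil ⟨2, by rw [sq, h]⟩

lemma RI.map {R' : Type*} [Ring R'] (f : R →+* R') {x : R} (h : RI (1 - x)) : RI (1 - f x) := by
  obtain ⟨z, hz⟩ := h
  exact ⟨f z, by rw [← map_one f, ← map_sub, ← map_mul, hz]⟩

lemma factor1 (a0 an : R) (m : ℕ) (h1 : an ^ (m + 1) = 0)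
    (h2 : ∀ j, j < m → a0 * an ^ j * a0 = 0) (h : RI (1 - a0 * (a0 + an) ^ m)) :
    RI (1 - (a0 + an)) := by
  have e1 : ∀ j, j ≤ m → a0 * (a0 + an) ^ j = a0 * an ^ j := by
    intro j
    induction j with
    | zero => simp
    | succ j ih =>
      intro hj
      rw [pow_succ, ← mul_assoc, ih (by omega), mul_add, h2 j (by omega), zero_add, pow_succ,
        mul_assoc]
  rw [e1 m le_rfl] at h
  set T := ∑ j ∈ range m, a0 * an ^ j with hT
  have e2 : T * a0 = 0 := by
    rw [hT, sum_mul]; exact sum_eq_zero fun j hj => h2 j (mem_range.1 hj)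
  have e3 : T * T = 0 := by
    have : T = a0 * ∑ j ∈ range m, an ^ j := by rw [hT, mul_sum]
    conv_lhs => arg 2; rw [this]
    rw [← mul_assoc, e2, zero_mul]
  have e4 : (T + a0 * an ^ m) * (1 - an) = a0 := by
    rw [hT, ← sum_range_succ (fun j => a0 * an ^ j), ← mul_sum, mul_assoc, geom_sum_mul_neg, h1,
      sub_zero, mul_one]
  have e5 : 1 - (a0 + an) = (1 - T) * (1 - a0 * an ^ m) * (1 - an) := by
    have : (1 - T) * (1 - a0 * an ^ m) = 1 - (T + a0 * an ^ m) := by
      rw [mul_sub, sub_mul, sub_mul, ← mul_assoc T, e2, zero_mul]; noncomm_ring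
    rw [this, sub_mul, e4]; noncomm_ring
  rw [e5]
  exact ((RI.of_sq e3).mul h).mul (RI.of_nil ⟨_, h1⟩)

lemma factor2 (i l r : R) (h1 : l * i = 0) (h2 : l * l = 0) (h3 : i * r = 0) (h4 : r * r = 0)
    (h : RI (1 - (i + l * r))) : RI (1 - (i + l + r)) := by
  have : 1 - (i + l + r) = (1 - l) * (1 - (i + l * r)) * (1 - r) := by
    have e : (1 - l) * (1 - (i + l * r)) * (1 - r) = 1 - (i + l + r) + l * i + l * l * r + i * r +
        l * (r * r) - l * i * r - l * l * r * r := by noncomm_ring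
    rw [e, h1, h2, h3, h4]; simp
  rw [this]
  exact ((RI.of_sq h2).mul h).mul (RI.of_sq h4)

end ring

/-! ### lists over a finite set -/

open Classical in
/-- lists of length `n` over `s` -/
noncomputable def lists {D : Type} (s : Finset D) : ℕ → Finset (List D)
  | 0 => {[]}
  | n + 1 => (s ×ˢ lists s n).image fun p => p.1 :: p.2

lemma mem_lists {D : Type} {s : Finset D} :
    ∀ {n : ℕ} {l : List D}, l ∈ lists s n ↔ l.length = n ∧ ∀ d ∈ l, d ∈ s
  | 0, l => by
    simp only [lists, mem_singleton, List.length_eq_zero_iff]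
    exact ⟨fun h => ⟨h, by simp [h]⟩, fun h => h.1⟩
  | n + 1, l => by
    simp only [lists, mem_image, mem_product, Prod.exists]
    constructor
    · rintro ⟨a, r, ⟨h1, h2⟩, rfl⟩
      obtain ⟨h3, h4⟩ := mem_lists.1 h2
      refine ⟨by simp [h3], fun d hd => ?_⟩
      rcases List.mem_cons.1 hd with rfl | hd
      exacts [h1, h4 d hd]
    · rintro ⟨h1, h2⟩
      obtain ⟨a, r, rfl⟩ := List.exists_cons_of_length_eq_add_one h1
      exact ⟨a, r, ⟨h2 a (by simp), mem_lists.2 ⟨by simpa using h1,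
        fun d hd => h2 d (by simp [hd])⟩⟩, rfl⟩

open Classical in
lemma sum_cons {D M : Type*} [AddCommMonoid M] (s : Finset D) (t : Finset (List D))
    (F : List D → M) :
    ∑ l ∈ (s ×ˢ t).image (fun p => p.1 :: p.2), F l = ∑ a ∈ s, ∑ r ∈ t, F (a :: r) := by
  rw [sum_image, sum_product]
  rintro ⟨a, r⟩ _ ⟨a', r'⟩ _ h
  simpa using h

lemma sum_pow_lists {D : Type} {R : Type*} [Semiring R] (s : Finset D) (f : D → R) (n : ℕ) :
    (∑ d ∈ s, f d) ^ n = ∑ l ∈ lists s n, (l.map f).prod := by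
  induction n with
  | zero => simp [lists]
  | succ n ih =>
    rw [pow_succ', ih, lists, sum_cons, sum_mul_sum]
    simp

/-! ### matrices over the algebra -/

section mat

variable {X : Type} {ρ : Rules X} {k : Type} [CommRing k] {S : Type} [Fintype S] [DecidableEq S]

/-- `A ⊗ b` -/
def tm {R : Type} [Ring R] [Algebra k R] (A : Matrix S S k) (b : R) : Matrix S S R :=
  Matrix.of fun i j => A i j • b

lemma tm_mul {R : Type} [Ring R] [Algebra k R] (A A' : Matrix S S k) (b b' : R) :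
    tm A b * tm A' b' = tm (A * A') (b * b') := by
  ext i j
  simp [tm, Matrix.mul_apply, sum_smul, smul_smul, mul_comm]

lemma tm_one {R : Type} [Ring R] [Algebra k R] : tm (1 : Matrix S S k) (1 : R) = 1 := by
  ext i j
  simp [tm, Matrix.one_apply]

lemma tm_zero {R : Type} [Ring R] [Algebra k R] (A : Matrix S S k) : tm A (0 : R) = 0 := by
  ext i j
  simp [tm]

lemma tm_sum {R : Type} [Ring R] [Algebra k R] {J : Type} (s : Finset J) (c : J → k)
    (A : J → Matrix S S k) (b : R) : tm (∑ j ∈ s, c j • A j) b = ∑ j ∈ s, c j • tm (A j) b := by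
  ext i j
  simp [tm, Matrix.sum_apply, sum_smul, smul_smul]

variable (ρ k) in
/-- all entries lie in the span of the words with property `P` -/
def In (P : List X → Prop) (M : Matrix S S (B ρ k)) : Prop := ∀ i j, M i j ∈ Sp ρ k P

lemma Sp_mono {P Q : List X → Prop} (h : ∀ w, P w → Q w) : Sp ρ k P ≤ Sp ρ k Q :=
  Submodule.span_mono fun _ ⟨w, h1, h2⟩ => ⟨w, h w h1, h2⟩

lemma exists_pencil [Fintype X] {M : Matrix S S (B ρ k)} (h : In ρ k (fun w => w.length = 1) M) :
    ∃ A : X → Matrix S S k, M = ∑ x, tm (A x) (lt ρ k x) := by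
  have : ∀ i j, ∃ c : X → k, ∑ x, c x • lt ρ k x = M i j := by
    intro i j
    rw [← Submodule.mem_span_range_iff_exists_fun]
    refine Submodule.span_mono ?_ (h i j)
    rintro _ ⟨w, hw, rfl⟩
    obtain ⟨x, rfl⟩ := List.length_eq_one_iff.1 hw
    exact ⟨x, (wd_single x).symm⟩
  choose c hc using this
  refine ⟨fun x => Matrix.of fun i j => c i j x, ?_⟩
  ext i j
  rw [← hc, Matrix.sum_apply]
  rfl

lemma split_deg [Fintype X] (d : ℕ) {b : B ρ k}
    (h : b ∈ Sp ρ k fun w => 1 ≤ w.length ∧ w.length ≤ d + 1) :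
    ∃ (b1 : B ρ k) (G : X → B ρ k), (b1 ∈ Sp ρ k fun w => w.length = 1) ∧
      (∀ y, G y ∈ Sp ρ k fun w => 1 ≤ w.length ∧ w.length ≤ d) ∧ b = b1 + ∑ y, lt ρ k y * G y := by
  classical
  induction h using Submodule.span_induction with
  | mem b hb =>
    obtain ⟨w, ⟨h1, h2⟩, rfl⟩ := hb
    rcases w with _ | ⟨y, _ | ⟨z, r⟩⟩
    · simp at h1
    · exact ⟨_, 0, wd_mem_Sp (w := [y]) rfl, fun _ => Submodule.zero_mem _, by simp⟩
    · refine ⟨0, Pi.single y (wd ρ k (z :: r)), Submodule.zero_mem _, fun y' => ?_, ?_⟩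
      · by_cases hy : y' = y
        · subst hy
          rw [Pi.single_eq_same]
          exact wd_mem_Sp ⟨by simp, by simpa using h2⟩
        · rw [Pi.single_eq_of_ne hy]; exact Submodule.zero_mem _
      · rw [sum_eq_single y (fun y' _ hy => by rw [Pi.single_eq_of_ne hy, mul_zero]) (by simp)]
        simp
  | zero => exact ⟨0, 0, Submodule.zero_mem _, fun _ => Submodule.zero_mem _, by simp⟩
  | add a b _ _ ha hb =>
    obtain ⟨a1, G, h1, h2, rfl⟩ := ha
    obtain ⟨b1, G', h3, h4, rfl⟩ := hb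
    refine ⟨a1 + b1, G + G', Submodule.add_mem _ h1 h3, fun y => Submodule.add_mem _ (h2 y) (h4 y),
      ?_⟩
    simp only [Pi.add_apply, mul_add, sum_add_distrib]; abel
  | smul c a _ ha =>
    obtain ⟨a1, G, h1, h2, rfl⟩ := ha
    refine ⟨c • a1, c • G, Submodule.smul_mem _ _ h1, fun y => Submodule.smul_mem _ _ (h2 y), ?_⟩
    simp [smul_sum]

/-- lowering the degree by one -/
lemma linearize [Fintype X] [DecidableEq X] (d : ℕ) (hd : 1 ≤ d) {M : Matrix S S (B ρ k)}
    (h : In ρ k (fun w => 1 ≤ w.length ∧ w.length ≤ d + 1) M) :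
    ∃ N : Matrix (S ⊕ X × S) (S ⊕ X × S) (B ρ k),
      In ρ k (fun w => 1 ≤ w.length ∧ w.length ≤ d) N ∧ (RI (1 - N) → RI (1 - M)) := by
  choose b1 G h1 h2 h3 using fun i j => split_deg d (h i j)
  let H : Matrix S (X × S) (B ρ k) := Matrix.of fun i p => if i = p.2 then lt ρ k p.1 else 0
  let G' : Matrix (X × S) S (B ρ k) := Matrix.of fun p j => G p.2 j p.1
  have hM : M = Matrix.of b1 + H * G' := by
    ext i j
    rw [h3, Matrix.add_apply, Matrix.mul_apply, Fintype.sum_prod_type]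
    simp [H, G']
  refine ⟨Matrix.fromBlocks (Matrix.of b1) H G' 0, ?_, ?_⟩
  · rintro (i | p) (j | q)
    · exact Sp_mono (fun w hw => by omega) (h1 i j)
    · simp only [Matrix.fromBlocks_apply₁₂, H, Matrix.of_apply]
      split_ifs
      · rw [← wd_single]; exact wd_mem_Sp ⟨by simp, by simpa using hd⟩
      · exact Submodule.zero_mem _
    · exact h2 _ _ _
    · exact Submodule.zero_mem _
  · rintro ⟨Z, hZ⟩
    rw [← Matrix.fromBlocks_toBlocks Z, ← Matrix.fromBlocks_one, sub_eq_add_neg,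
      Matrix.fromBlocks_neg, Matrix.fromBlocks_add, Matrix.fromBlocks_multiply,
      Matrix.fromBlocks_inj] at hZ
    obtain ⟨e1, -, e2, -⟩ := hZ
    refine ⟨Z.toBlocks₁₁, ?_⟩
    simp only [zero_add, neg_zero, add_zero, Matrix.one_mul, Matrix.neg_mul] at e1 e2
    have e3 : Z.toBlocks₂₁ = G' * Z.toBlocks₁₁ := by rw [← sub_eq_zero, ← e2]; abel
    rw [e3, ← Matrix.mul_assoc, ← sub_eq_add_neg, ← sub_eq_add_neg, ← Matrix.sub_mul] at e1
    rw [hM, ← sub_sub, e1]

end mat

/-- If all pencils are right quasi-regular, so are all matrices without constant term. -/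
lemma all_of_pencil {X : Type} [Finite X] {ρ : Rules X} {k : Type} [CommRing k]
    (hp : ∀ (S : Type) [Fintype S] [DecidableEq S] (M : Matrix S S (B ρ k)),
      In ρ k (fun w => w.length = 1) M → RI (1 - M))
    (S : Type) [Fintype S] [DecidableEq S] (M : Matrix S S (B ρ k))
    (h : In ρ k (fun w => w ≠ []) M) : RI (1 - M) := by
  classical
  have := Fintype.ofFinite X
  have h1 : ∀ d (S : Type) [Fintype S] [DecidableEq S] (M : Matrix S S (B ρ k)),
      In ρ k (fun w => 1 ≤ w.length ∧ w.length ≤ d + 1) M → RI (1 - M) := by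
    intro d
    induction d with
    | zero => exact fun S _ _ M h => hp S M fun i j => Sp_mono (fun w hw => by omega) (h i j)
    | succ d ih =>
      intro S _ _ M h
      obtain ⟨N, h1, h2⟩ := linearize (d + 1) (by omega) h
      exact h2 (ih _ N h1)
  have h2 : ∀ b ∈ Sp ρ k (fun w => w ≠ []),
      ∃ d, b ∈ Sp ρ k fun w => 1 ≤ w.length ∧ w.length ≤ d + 1 := by
    intro b hb
    induction hb using Submodule.span_induction with
    | mem b hb =>
      obtain ⟨w, hw, rfl⟩ := hb
      exact ⟨w.length, wd_mem_Sp ⟨List.length_pos_iff.2 hw, by omega⟩⟩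
    | zero => exact ⟨0, Submodule.zero_mem _⟩
    | add a b _ _ ha hb =>
      obtain ⟨d, ha⟩ := ha
      obtain ⟨d', hb⟩ := hb
      exact ⟨d + d', Submodule.add_mem _ (Sp_mono (fun w hw => by omega) ha)
        (Sp_mono (fun w hw => by omega) hb)⟩
    | smul c a _ ha =>
      obtain ⟨d, ha⟩ := ha
      exact ⟨d, Submodule.smul_mem _ _ ha⟩
  choose d hd using fun i j => h2 _ (h i j)
  refine h1 (∑ i, ∑ j, d i j) S M fun i j => Sp_mono (fun w hw => ⟨hw.1, hw.2.trans ?_⟩) (hd i j)
  have a1 : d i j ≤ ∑ j, d i j := single_le_sum (fun _ _ => Nat.zero_le _) (mem_univ j)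
  have a2 : ∑ j, d i j ≤ ∑ i, ∑ j, d i j :=
    single_le_sum (f := fun i => ∑ j, d i j) (fun _ _ => Nat.zero_le _) (mem_univ i)
  omega

open Polynomial in
lemma nil_of_poly {R : Type} [Ring R] {S : Type} [Fintype S] [DecidableEq S] (A : Matrix S S R)
    (h : RI (1 - A.map fun a => (X * C a : R[X]))) : IsNilpotent A := by
  obtain ⟨Z, hZ⟩ := h
  have key : ∀ n, Z.map (fun p => p.coeff n) = A ^ n := by
    have e : ∀ i j, Z i j = (1 : Matrix S S R[X]) i j + ∑ l, X * C (A i l) * Z l j := by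
      intro i j
      rw [← hZ, Matrix.sub_mul, Matrix.one_mul, Matrix.sub_apply, Matrix.mul_apply]
      simp
    intro n
    induction n with
    | zero =>
      ext i j
      rw [Matrix.map_apply, e]
      by_cases hij : i = j <;> simp [Matrix.one_apply, mul_assoc, hij]
    | succ n ih =>
      ext i j
      rw [Matrix.map_apply, e, pow_succ', ← ih, Matrix.mul_apply]
      by_cases hij : i = j <;> simp [Matrix.one_apply, mul_assoc, hij, coeff_one]
  refine ⟨∑ i, ∑ j, (Z i j).natDegree + 1, ?_⟩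
  rw [← key]
  ext i j
  refine coeff_eq_zero_of_natDegree_lt (Nat.lt_succ_of_le ?_)
  exact (single_le_sum (f := fun j => (Z i j).natDegree) (fun _ _ => Nat.zero_le _)
    (mem_univ j)).trans (single_le_sum (f := fun i => ∑ j, (Z i j).natDegree)
      (fun _ _ => Nat.zero_le _) (mem_univ i))

open Polynomial in
lemma matNil_of {X : Type} {ρ : Rules X}
    (h : ∀ (S : Type) [Fintype S] [DecidableEq S] (M : Matrix S S (B ρ (ZMod 2)[X])),
      In ρ (ZMod 2)[X] (fun w => w ≠ []) M → RI (1 - M)) : MatNil ρ := by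
  intro l A hA
  letI : Algebra (ZMod 2)[X] (B ρ (ZMod 2))[X] := Polynomial.algebra _ _
  let ψ : B ρ (ZMod 2)[X] →ₐ[(ZMod 2)[X]] (B ρ (ZMod 2))[X] := liftB (fun x => C (lt ρ _ x))
    (fun x y x' y' hr => by rw [← C_mul, ← C_mul, lt_mv hr])
    (fun x y hr => by rw [← C_mul, lt_zr hr, C_0])
  have hw : ∀ w, ψ (wd ρ _ w) = C (wd ρ _ w) := by
    intro w
    induction w with
    | nil => simp
    | cons x w ih => rw [wd_cons, wd_cons, map_mul, ih, C_mul]; simp [ψ]
  have hs : ∀ (c : (ZMod 2)[X]) b, ψ (c • b) = c.map (algebraMap _ _) * ψ b := by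
    intro c b
    rw [map_smul, Algebra.smul_def]; rfl
  have h1 : ∀ b ∈ Sp ρ (ZMod 2) (fun w => w ≠ []),
      ∃ b' ∈ Sp ρ (ZMod 2)[X] (fun w => w ≠ []), ψ b' = C b := by
    intro b hb
    induction hb using Submodule.span_induction with
    | mem b hb =>
      obtain ⟨w, h1, rfl⟩ := hb
      exact ⟨_, wd_mem_Sp h1, hw w⟩
    | zero => exact ⟨0, Submodule.zero_mem _, by simp⟩
    | add a b _ _ ha hb =>
      obtain ⟨a', h1, h2⟩ := ha
      obtain ⟨b', h3, h4⟩ := hb
      exact ⟨a' + b', Submodule.add_mem _ h1 h3, by rw [map_add, h2, h4, C_add]⟩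
    | smul c a _ ha =>
      obtain ⟨a', h1, h2⟩ := ha
      refine ⟨(C c : (ZMod 2)[X]) • a', Submodule.smul_mem _ _ h1, ?_⟩
      rw [hs, h2, map_C, Algebra.smul_def, C_mul]
  choose A' h2 h3 using fun i j => h1 _ (hA i j)
  have h4 := (h (Fin l) (Matrix.of fun i j => (Polynomial.X : (ZMod 2)[X]) • A' i j)
    fun i j => Submodule.smul_mem _ _ (h2 i j)).map
      (R' := Matrix (Fin l) (Fin l) (B ρ (ZMod 2))[X]) ψ.toRingHom.mapMatrix
  refine nil_of_poly A ?_
  convert h4 using 2
  ext1 i j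
  simp only [Matrix.map_apply, RingHom.mapMatrix_apply, Matrix.of_apply, AlgHom.toRingHom_eq_coe,
    RingHom.coe_coe]
  rw [hs, h3, map_X]

end Crest.Agent.R176.N
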