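import Crest.Agent.R176.Mix

/-!
# 176-M: normal forms of blocks and simulation of the upper level
-/

set_option autoImplicit false

namespace Crest.Agent.R176.M

instance : Inhabited Stat := ⟨.l 0⟩
instance : Inhabited Dyn := ⟨⟨fun _ => false, .R⟩⟩

section sk
variable {W : ℕ}

open Classical in
noncomputable def decS (r : Reg W) : Stat := if h : ∃ s : Stat, r = ro W (enc s) then h.choose else default

theorem HS.dec (hW : E ≤ W) {x : Let W} {s : Stat} (h : HS x s) : decS (x (some .stat)) = s := by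
  have h' : ∃ s : Stat, x (some .stat) = ro W (enc s) := ⟨s, h⟩
  rw [decS, dif_pos h']
  exact HS.uniq hW h'.choose_spec h

/-- The skeleton of a letter. -/
def sk (x : Let W) : Reg W × Reg W := (adr x, x (some .stat))

noncomputable def posS (σ : Reg W × Reg W) : ℕ :=
  rv σ.1 + 2 ^ W * (if (decS σ.2).kind then 0 else 1) + 2 * 2 ^ W * (decS σ.2).c

theorem rv_mod_eq {h k n : ℕ} (r : Reg h) (hn : n < 2 ^ k)
    (H : ∀ j < k, bit r j = n.testBit j) : n = rv r % 2 ^ k := by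
  apply Nat.eq_of_testBit_eq
  intro j
  rw [Nat.testBit_mod_two_pow]
  by_cases hj : j < k
  · simp [hj, ← H j hj, bit]
  · simp only [hj, decide_false, Bool.false_and]
    exact Nat.testBit_lt_two_pow (hn.trans_le (Nat.pow_le_pow_right two_pos (by omega)))

end sk

variable {V : ℕ} [hV : Fact (E ≤ V)]

theorem ten_le_h : 1024 ≤ 2 ^ 2 ^ V :=
  Nat.pow_le_pow_right (n := 2) two_pos (ten_le_E.trans EW)

theorem exists_HS {x z : Let (2 ^ V)} (h : ¬ Zr (rho V) [x, z] ∨ ¬ Zr (rho V) [z, x]) :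
    (∃ s, HS x s) ∧ ∃ d, HD x d := by
  constructor <;> by_contra h'
  · exact h.elim (fun h => h (VZ.badS0 h').zr) fun h => h (VZ.badS1 h').zr
  · exact h.elim (fun h => h (VZ.badD0 h').zr) fun h => h (VZ.badD1 h').zr

theorem compat_of {x y : Let (2 ^ V)} (h : ¬ Zr (rho V) [x, y]) {s0 d0 s1 d1} (h1 : HS x s0)
    (h2 : HD x d0) (h3 : HS y s1) (h4 : HD y d1) :
    Compat s0 d0 s1 d1 (adr x = ro _ 0) (adr y = ro _ 0) (adr y = ones _) := by
  by_contra h'; exact h (VZ.compat _ _ _ _ h1 h2 h3 h4 h').zr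

theorem pos_succ (x y : Let (2 ^ V)) (h : ¬ Zr (rho V) [x, y]) :
    posS (sk y) ≡ posS (sk x) + 1 [MOD 1024 * (2 * 2 ^ 2 ^ V)] := by
  obtain ⟨⟨s0, h1⟩, d0, h2⟩ := exists_HS (.inl h)
  obtain ⟨⟨s1, h3⟩, d1, h4⟩ := exists_HS (.inr h)
  obtain ⟨-, -, -, -, c1, c2, c3⟩ := compat_of h h1 h2 h3 h4
  have e := congrArg rv (adr_succ h)
  rw [rv_inc] at e
  simp only [posS, sk, h1.dec EW, h3.dec EW]
  rw [eq_ro_iff, Nat.zero_mod] at c1 c2 c3
  have hx := rv_lt (adr x)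
  generalize 2 ^ 2 ^ V = h at *
  by_cases hz : rv (adr y) = 0
  · have hx' : rv (adr x) + 1 = h := by
      by_contra hh
      rw [Nat.mod_eq_of_lt (by omega)] at e; omega
    have := c1.1 hz
    cases k1 : s1.kind
    · have k0 : s0.kind = true := by simpa [k1] using this
      rw [(c3 (by simp [k1])).1, hz, k0]
      simp only [Bool.false_eq_true, if_false, if_true]
      rw [show rv (adr x) + h * 0 + 2 * h * s0.c + 1 = 0 + h * 1 + 2 * h * s0.c by omega]
    · have k0 : s0.kind = false := by simpa [k1] using this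
      rw [(c2 hz k1).1, hz, k0]
      simp only [Bool.false_eq_true, if_false, if_true]
      rw [show rv (adr x) + h * 1 + 2 * h * s0.c + 1 = 2 * h * (s0.c + 1) by rw [mul_add]; omega,
        mul_zero, add_zero, zero_add, mul_comm 1024]
      exact (Nat.mod_modEq _ _).mul_left' _
  · have hx' : rv (adr x) + 1 ≠ h := fun hh => hz (by rw [e, hh, Nat.mod_self])
    rw [Nat.mod_eq_of_lt (by omega)] at e
    have k : s1.kind = s0.kind := by by_contra hh; exact hz (c1.2 hh)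
    rw [(c3 (by simp [hz])).1, k, e]
    exact congrArg (· % _) (by omega)

theorem analyze {f : ℕ → Let (2 ^ V)} (hz : ¬ Zr (rho V) (wl (2 * 2 ^ 2 ^ V) f))
    (hp : posS (sk (f 0)) % (2 * 2 ^ 2 ^ V) = 0) : ∃ b p, VB f b p ∧ Good b := by
  have h10 := ten_le_h (V := V)
  have hpair : ∀ t, t + 1 < 2 * 2 ^ 2 ^ V → ¬ Zr (rho V) [f t, f (t + 1)] :=
    fun t ht h => hz (Zr.wl ht h)
  have hSD : ∀ t < 2 * 2 ^ 2 ^ V, (∃ s, HS (f t) s) ∧ ∃ d, HD (f t) d := by
    intro t ht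
    by_cases h : t + 1 < 2 * 2 ^ 2 ^ V
    · exact exists_HS (.inl (hpair t h))
    · obtain ⟨i, rfl⟩ : ∃ i, t = i + 1 := ⟨t - 1, by omega⟩
      exact exists_HS (.inr (hpair i ht))
  choose! S hS using fun t ht => (hSD t ht).1
  choose! D hD using fun t ht => (hSD t ht).2
  have h0 : rv (adr (f 0)) = 0 ∧ (S 0).kind = true := by
    simp only [posS, sk, (hS 0 (by omega)).dec EW, Nat.add_mul_mod_self_left] at hp
    have := rv_lt (adr (f 0))
    split_ifs at hp with hk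
    · rw [Nat.mod_eq_of_lt (by omega)] at hp; exact ⟨by omega, hk⟩
    · rw [Nat.mod_eq_of_lt (by omega)] at hp; omega
  have hadr : ∀ t < 2 * 2 ^ 2 ^ V, adr (f t) = ro _ t := by
    intro t
    induction t with
    | zero => intro _; rw [eq_ro_iff, h0.1]; simp
    | succ t ih => intro ht; rw [adr_succ (hpair t ht), ih (by omega), inc_ro]
  have hC : ∀ t, t + 1 < 2 * 2 ^ 2 ^ V → Compat (S t) (D t) (S (t + 1)) (D (t + 1))
      (t = 0 ∨ t = 2 ^ 2 ^ V) (t + 1 = 2 ^ 2 ^ V) (ro (2 ^ V) (t + 1) = ones _) := by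
    intro t ht
    have := compat_of (hpair t ht) (hS t (by omega)) (hD t (by omega)) (hS _ ht) (hD _ ht)
    rw [hadr t (by omega), hadr _ ht, ro_eq_zero (by omega), ro_eq_zero ht] at this
    simpa using this
  have hk : ∀ t < 2 * 2 ^ 2 ^ V, (S t).kind = decide (t < 2 ^ 2 ^ V) := by
    intro t
    induction t with
    | zero => intro _; simp [h0.2]
    | succ t ih =>
      intro ht
      have h1 := (hC t ht).2.2.2.2.1
      rw [ih (by omega)] at h1
      by_cases h2 : t + 1 = 2 ^ 2 ^ V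
      · have := h1.1 h2
        have h3 : t < 2 ^ 2 ^ V := by omega
        simpa [h2, h3] using this
      · have := mt h1.2 h2
        have h3 : t + 1 < 2 ^ 2 ^ V ↔ t < 2 ^ 2 ^ V := by omega
        simpa [h3] using this
  have hin : ∀ t, t + 1 < 2 * 2 ^ 2 ^ V →
      (S (t + 1)).c = (S t).c ∧ Arrows (D t).mark (D (t + 1)).mark := by
    intro t ht
    refine (hC t ht).2.2.2.2.2.2 ?_
    rw [hk _ ht]; simp only [decide_eq_true_eq]; omega
  have hc : ∀ t < 2 * 2 ^ 2 ^ V, (S t).c = (S 0).c := by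
    intro t
    induction t with
    | zero => intro _; rfl
    | succ t ih => intro ht; rw [(hin t ht).1, ih (by omega)]
  have hok : ∀ t < 2 * 2 ^ 2 ^ V, Okq (S t) (D t).data := by
    intro t ht
    by_cases h : t + 1 < 2 * 2 ^ 2 ^ V
    · exact (hC t h).1
    · obtain ⟨i, rfl⟩ : ∃ i, t = i + 1 := ⟨t - 1, by omega⟩
      exact (hC i ht).2.1
  have hfirst : (D 0).mark ≠ .L := (hC 0 (by omega)).2.2.1 (.inl rfl) h0.2
  have hlast : ∃ t, t < 2 * 2 ^ 2 ^ V ∧ (D t).mark ≠ .R := by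
    obtain ⟨i, hi⟩ : ∃ i, i + 2 = 2 * 2 ^ 2 ^ V := ⟨2 * 2 ^ 2 ^ V - 2, by omega⟩
    refine ⟨i + 1, by omega, (hC i (by omega)).2.2.2.1 ?_ ?_⟩
    · rw [ones_eq, ro_eq_iff, show i + 1 = 2 ^ 2 ^ V - 1 + 2 ^ 2 ^ V by omega]; simp
    · rw [hk _ (by omega)]; simp only [decide_eq_false_iff_not]; omega
  classical
  obtain ⟨p, hp1, hp2, hp3⟩ : ∃ p, p < 2 * 2 ^ 2 ^ V ∧ (D p).mark ≠ .R ∧
      ∀ t < p, (D t).mark = .R := by
    refine ⟨Nat.find hlast, (Nat.find_spec hlast).1, (Nat.find_spec hlast).2, fun t ht => ?_⟩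
    by_contra h
    exact Nat.find_min hlast ht ⟨ht.trans (Nat.find_spec hlast).1, h⟩
  obtain ⟨k, hk'⟩ : ∃ k, (D p).mark = .tok k := by
    have : (D p).mark ≠ .L := by
      rcases p with _ | p
      · exact hfirst
      · rcases (hin p hp1).2 with h | h
        · exact h.2
        · exact (h.1 (hp3 p (by omega))).elim
    cases h : (D p).mark <;> simp_all
  have hL : ∀ t, p + t + 1 < 2 * 2 ^ 2 ^ V → (D (p + t + 1)).mark = .L := by
    intro t
    induction t with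
    | zero => intro ht; exact ((hin p ht).2.resolve_left fun h => hp2 h.1).2
    | succ t ih =>
      intro ht
      exact ((hin (p + t + 1) ht).2.resolve_left fun h => by simp [ih (by omega)] at h).2
  have hm : ∀ t < 2 * 2 ^ 2 ^ V, (D t).mark = mrk p t k := by
    intro t ht
    rcases lt_trichotomy t p with h | rfl | h
    · rw [hp3 t h, mrk_eq_R.2 h]
    · rw [hk', mrk_self]
    · obtain ⟨i, rfl⟩ : ∃ i, t = p + i + 1 := ⟨t - p - 1, by omega⟩
      rw [hL i ht, mrk_eq_L.2 h]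
  let u : Let (2 ^ 2 ^ V) := fun τ j =>
    cbit (S (if τ.isSome then j else j + 2 ^ 2 ^ V)) (D (if τ.isSome then j else j + 2 ^ 2 ^ V)).data τ
  have hcell : ∀ t < 2 * 2 ^ 2 ^ V, cell (S 0).c u t = (S t, (D t).data) := by
    intro t ht
    have h1 := hk t ht
    have h2 := hc t ht
    have h3 := hok t ht
    unfold cell
    split_ifs with h
    · refine Prod.ext ?_ (funext fun τ => by simp [bit_lt _ h, u, cbit])
      simp only [bit_lt _ h, u, cbit, adr, Option.isSome_some, if_true, ← h2]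
      cases hs : S t <;> simp_all [Stat.kind, Stat.c, Stat.sa, Stat.ss]
    · have h4 : t - 2 ^ 2 ^ V < 2 ^ 2 ^ V := by omega
      have h5 : t - 2 ^ 2 ^ V + 2 ^ 2 ^ V = t := by omega
      simp only [h, decide_false] at h1
      refine Prod.ext ?_ (funext fun τ => ?_)
      · simp only [← h2]
        cases hs : S t <;> simp_all [Stat.kind, Stat.c]
      · rcases eq_or_ne τ .dyn with rfl | hτ
        · simp [bit_lt _ h4, u, cbit, lab, h5]
        · simp [hτ, h3 h1 τ hτ]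
  have hhalf : ∀ o, o = 0 ∨ o = 2 ^ 2 ^ V → ∀ t < 2 ^ 2 ^ V, ∀ t' < 2 ^ 2 ^ V,
      lab (f (o + t)) = lab (f (o + t')) → t = t' := by
    intro o ho t ht t' ht' e
    have hn : ((wl (2 ^ 2 ^ V) fun t => f (o + t)).map lab).Nodup := by
      by_contra hn
      refine hz ((zr_of_dup (fun x hx => ?_) hn).of_infix ?_)
      · obtain ⟨m, hm⟩ : ∃ m, 2 ^ 2 ^ V = m + 1 := ⟨2 ^ 2 ^ V - 1, by omega⟩
        rw [hm, wl_succ', List.tail_cons, mem_wl] at hx
        obtain ⟨i, hi, rfl⟩ := hx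
        rw [hadr _ (by omega), Ne, ro_eq_zero (by omega)]; omega
      · rw [two_mul, wl_add]
        rcases ho with rfl | rfl
        · simpa using (List.prefix_append _ _).isInfix
        · exact (List.suffix_append _ _).isInfix
    rw [wl_map] at hn
    exact List.inj_on_of_nodup_map hn (List.mem_range.2 ht) (List.mem_range.2 ht') e
  refine ⟨⟨(S 0).c, u, k, hd (f p)⟩, p, ⟨hp1, hadr, fun t ht => ?_, fun t ht => ?_, fun _ => rfl,
    fun t ht t' ht' h1 h2 => ?_⟩, ?_⟩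
  · simp only [hcell t ht]; exact hS t ht
  · simp only [hcell t ht, ← hm t ht]; exact hD t ht
  · by_cases h : t < 2 ^ 2 ^ V
    · exact hhalf 0 (.inl rfl) t h t' (h1.1 h) (by simpa using h2)
    · have h' := mt h1.2 h
      have := hhalf _ (.inr rfl) (t - 2 ^ 2 ^ V) (by omega) (t' - 2 ^ 2 ^ V) (by omega)
        (by rwa [Nat.add_sub_cancel' (by omega), Nat.add_sub_cancel' (by omega)])
      omega
  · refine rv_mod_eq (k := 10) _ (S 0).c.2 fun j hj => ?_
    have hj' : j < 2 ^ 2 ^ V := by omega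
    by_contra hne
    refine hpair j (by omega) (VZ.cb (S j) j (hS j (by omega)) hj (hadr j (by omega))
      (by simp [hk j (by omega), hj']) ?_).zr
    rw [hc j (by omega)]
    simpa [bit_lt _ hj', u, cbit, adr] using hne

variable {f f' g g' : ℕ → Let (2 ^ V)} {b b' b0 b1 : BI (2 ^ V)} {p p' q : ℕ}

theorem VB.eqv_same (h : VB f b p) (h' : VB f' b p) :
    Eqv (rho V) (wl (2 * 2 ^ 2 ^ V) f) (wl (2 * 2 ^ 2 ^ V) f') := by
  have h10 := ten_le_h (V := V)
  have half : ∀ o, o = 0 ∨ o = 2 ^ 2 ^ V → Eqv (rho V) (wl (2 ^ 2 ^ V) fun t => f (o + t))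
      (wl (2 ^ 2 ^ V) fun t => setL (f (o + t)) (M.lab (f' (o + t)))) := by
    intro o ho
    have nd : ∀ {g : ℕ → Let (2 ^ V)}, VB g b p →
        (wl (2 ^ 2 ^ V) fun t => M.lab (g (o + t))).Nodup := by
      intro g hg
      refine List.Nodup.map_on (fun t ht t' ht' e => ?_) List.nodup_range
      rw [List.mem_range] at ht ht'
      have := hg.lab (o + t) (by omega) (o + t') (by omega) (by omega) e
      omega
    have un : ∀ {g : ℕ → Let (2 ^ V)}, VB g b p →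
        (wl (2 ^ 2 ^ V) fun t => M.lab (g (o + t))).toFinset = Finset.univ := fun hg =>
      Finset.eq_univ_of_card _ (by rw [List.toFinset_card_of_nodup (nd hg)]; simp)
    have pm := List.perm_of_nodup_nodup_toFinset_eq (nd h) (nd h') ((un h).trans (un h').symm)
    have := relab_perm pm (wl (2 ^ 2 ^ V) fun t => f (o + t)) (fun x hx => ?_) (by simp)
    · simpa only [relab_wl, setL_lab] using this
    · obtain ⟨m, hm⟩ : ∃ m, 2 ^ 2 ^ V = m + 1 := ⟨2 ^ 2 ^ V - 1, by omega⟩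
      rw [hm, wl_succ', List.tail_cons, mem_wl] at hx
      obtain ⟨i, hi, rfl⟩ := hx
      rw [h.adr _ (by omega), Ne, ro_eq_zero (by omega)]; omega
  have e1 : Eqv (rho V) (wl (2 * 2 ^ 2 ^ V) f)
      (wl (2 * 2 ^ 2 ^ V) fun t => setL (f t) (M.lab (f' t))) := by
    rw [two_mul, wl_add, wl_add]
    exact Eqv.append (by simpa using half 0 (.inl rfl)) (half _ (.inr rfl))
  have sm : ∀ t < 2 * 2 ^ 2 ^ V, Same (setL (f t) (M.lab (f' t))) (f' t) := by
    intro t ht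
    refine ⟨⟨by simp [h.adr t ht, h'.adr t ht], ?_, by simp⟩, ?_, ?_⟩
    · exact (h'.hs t ht).trans ((HS_setL _ _ _).2 (h.hs t ht)).symm
    · exact (h'.hD t ht).trans ((HD_setL _ _ _).2 (h.hD t ht)).symm
    · by_cases ha : (mrk p t b.tok).IsAct
      · obtain ⟨β, ph, e⟩ := ha
        obtain ⟨rfl, e'⟩ := mrk_eq_tok e
        left; rw [hd_setL, h.hd ⟨_, _, e'⟩, h'.hd ⟨_, _, e'⟩]
      · exact .inr ⟨_, (HD_setL _ _ _).2 (h.hD t ht), ha⟩
  exact e1.trans (Eqv.all (by omega) (fun t ht => (sm t ht).eqv0) fun t ht => (sm t ht).eqv1)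

theorem can_step (b : BI (2 ^ V)) {p : ℕ} (hp : p + 1 < 2 * 2 ^ 2 ^ V) :
    Eqv (rho V) (wl (2 * 2 ^ 2 ^ V) (can b p)) (wl (2 * 2 ^ 2 ^ V) (can b (p + 1))) := by
  refine Eqv.wl hp (VR.eqv (.move (cell b.c b.u p).2 (cell b.c b.u (p + 1)).2 b.tok ?_ ?_
    ⟨rfl, rfl, rfl⟩ ⟨rfl, rfl, rfl⟩ ?_ ?_ fun _ => rfl)) fun j _ h1 h2 => ?_
  · rw [← mrk_self p]; rfl
  · rw [← (mrk_eq_L (p := p) (t := p + 1) (k := b.tok)).2 (by omega)]; rfl
  · rw [← (mrk_eq_R (p := p + 1) (t := p) (k := b.tok)).2 (by omega)]; rfl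
  · rw [← mrk_self (p + 1)]; rfl
  · have : j < p + 1 ↔ j < p := by omega
    simp [can, mrk, h1, h2, this]

/-- The canonical word of a block. -/
noncomputable def Wd (b : BI (2 ^ V)) : List (Let (2 ^ V)) := wl (2 * 2 ^ 2 ^ V) (can b 0)

theorem VB.eqv (h : VB f b p) : Eqv (rho V) (wl (2 * 2 ^ 2 ^ V) f) (Wd b) := by
  refine (h.eqv_same (VB.can b h.lt)).trans ?_
  have := h.lt
  clear h
  induction p with
  | zero => rfl
  | succ p ih => exact (can_step b this).symm.trans (ih (by omega))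

theorem Wd_eqv (b : BI (2 ^ V)) {p : ℕ} (hp : p < 2 * 2 ^ 2 ^ V) :
    Eqv (rho V) (Wd b) (wl (2 * 2 ^ 2 ^ V) (can b p)) := (VB.can b hp).eqv.symm

theorem Wd_setH (b : BI (2 ^ V)) (hb : ¬ b.tok.IsAct) (H) :
    Eqv (rho V) (Wd b) (Wd ⟨b.c, b.u, b.tok, H⟩) := ((VB.can b (by positivity)).setH hb H).eqv

/-- A rule applied to the tokens of two adjacent blocks. -/
theorem Wd_bdry (b0 b1 : BI (2 ^ V)) (k0 k1 H0 H1)
    (h : VR (can b0 (2 * 2 ^ 2 ^ V - 1) (2 * 2 ^ 2 ^ V - 1)) (can b1 0 0)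
      (can ⟨b0.c, b0.u, k0, H0⟩ (2 * 2 ^ 2 ^ V - 1) (2 * 2 ^ 2 ^ V - 1))
      (can ⟨b1.c, b1.u, k1, H1⟩ 0 0)) :
    Eqv (rho V) (Wd b0 ++ Wd b1) (Wd ⟨b0.c, b0.u, k0, H0⟩ ++ Wd ⟨b1.c, b1.u, k1, H1⟩) := by
  obtain ⟨n, hn⟩ : ∃ n, 2 * 2 ^ 2 ^ V = n + 1 := ⟨2 * 2 ^ 2 ^ V - 1, by
    have := Nat.two_pow_pos (2 ^ V); omega⟩
  rw [hn, Nat.add_sub_cancel] at h
  have v0 := VB.can b0 (p := n) (by omega)
  have v1 := VB.can b1 (p := 0) (by omega)
  have w0 := v0.setTok' (f' := Function.update (can b0 n) n (can ⟨b0.c, b0.u, k0, H0⟩ n n))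
    (y := can ⟨b0.c, b0.u, k0, H0⟩ n n) (k := k0) (H := H0) ⟨rfl, rfl, rfl⟩
    (by rw [← mrk_self n]; rfl) (fun _ => rfl) (fun t _ h => by simp [h]) (by simp)
  have w1 := v1.setTok' (f' := Function.update (can b1 0) 0 (can ⟨b1.c, b1.u, k1, H1⟩ 0 0))
    (y := can ⟨b1.c, b1.u, k1, H1⟩ 0 0) (k := k1) (H := H1) ⟨rfl, rfl, rfl⟩
    (by rw [← mrk_self 0]; rfl) (fun _ => rfl) (fun t _ h => by simp [h]) (by simp)
  refine ((v0.eqv.append v1.eqv).symm.trans ?_).trans (w0.eqv.append w1.eqv)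
  rw [hn]
  exact Eqv.bdry (by simpa using h.eqv) (fun j hj => by simp [hj.ne]) (fun j _ => by simp)

omit hV in
theorem HD_can (b : BI (2 ^ V)) (p : ℕ) : HD (can b p p) ⟨(cell b.c b.u p).2, .tok b.tok⟩ := by
  rw [← mrk_self p]; rfl

/-- The word of a pair of blocks in the state `s`, the active token being on side `γ`. -/
noncomputable def PW (γ : Bool) (c : Bool → Fin 1024) (s : St (2 ^ V)) : List (Let (2 ^ V)) :=
  Wd ⟨c false, s.u false, if γ then .park false else .act false s.ph, s.H⟩ ++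
    Wd ⟨c true, s.u true, if γ then .act true s.ph else .park true, s.H⟩

theorem PW_hand (γ γ' : Bool) (c) (s : St (2 ^ V)) : Eqv (rho V) (PW γ c s) (PW γ' c s) := by
  have : Eqv (rho V) (PW false c s) (PW true c s) :=
    Wd_bdry _ _ _ _ _ _ (.hand _ _ s.ph (HD_can _ _) (HD_can _ _) ⟨rfl, rfl, rfl⟩ ⟨rfl, rfl, rfl⟩
      (HD_can ⟨_, _, .park false, _⟩ _) (HD_can ⟨_, _, .act true s.ph, _⟩ _) rfl)
  cases γ <;> cases γ'
  exacts [Eqv.rfl, this, this.symm, Eqv.rfl]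

def H0 (W : ℕ) : Hd W := ⟨ro W 0, ro W 0, ro W 0, ro W 0, ro W 0⟩

theorem Wd_act (c : Fin 1024) (u) (γ : Bool) (ph : Phs) (H : Hd (2 ^ V)) {t : ℕ}
    (ht : t < 2 * 2 ^ 2 ^ V) (hr : Ready γ ph (cell c u t).1 (ro _ t) H) :
    match cstep (cell c u t).1 (cell c u t).2 ph H with
    | some o => Eqv (rho V) (Wd ⟨c, u, .act γ ph, H⟩) (Wd ⟨c, setc u t o.1, .act γ o.2.1, o.2.2⟩)
    | none => Zr (rho V) (Wd ⟨c, u, .act γ ph, H⟩) := by
  have h10 := ten_le_h (V := V)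
  have v := VB.can (⟨c, u, .act γ ph, H⟩ : BI (2 ^ V)) ht
  split
  · rename_i o ho
    let y := mkL (ro _ t) (cell c u t).1 ⟨o.1, .tok (.act γ o.2.1)⟩ o.2.2 (ro _ t)
    have a : Act (can ⟨c, u, .act γ ph, H⟩ t t) y :=
      ⟨_, _, γ, ph, o.1, o.2.1, rfl, HD_can _ _, hr, ho, ⟨rfl, rfl, rfl⟩, rfl⟩
    have w := v.setTok (f' := Function.update (can ⟨c, u, .act γ ph, H⟩ t) t y) (y := y)
      (a := o.1) (k := .act γ o.2.1) (H := o.2.2) ⟨rfl, rfl, rfl⟩ rfl
      ((cstep_okq hr ho).1 (cell_okq _ _ _)) (fun _ => rfl) (fun t _ h => by simp [h]) (by simp)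
    exact (v.eqv.symm.trans (Eqv.single (by omega) ht (fun z => (VR.act0 a rfl).eqv)
      fun z => (VR.act1 rfl a).eqv)).trans w.eqv
  · rename_i ho
    have a : ActZ (can ⟨c, u, .act γ ph, H⟩ t t) := ⟨_, _, γ, ph, rfl, HD_can _ _, hr, ho⟩
    exact Zr.of_eqv v.eqv.symm (Zr.single (by omega) ht (fun z => (VZ.act0 a).zr)
      fun z => (VZ.act1 a).zr)

theorem not_act_park (β : Bool) : ¬ (Tok.park β).IsAct := by simp [Tok.IsAct]
theorem not_act_idle : ¬ Tok.idle.IsAct := by simp [Tok.IsAct]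

theorem PW_step (c) (s : St (2 ^ V)) (hs : s.ph ≠ .rel) :
    match mstep s with
    | .inl s' => Eqv (rho V) (PW false c s) (PW false c s')
    | .inr r => r = none ∧ Zr (rho V) (PW false c s) := by
  obtain ⟨ph, H, U⟩ := s
  obtain ⟨γ, t, ht, hr⟩ := target ph H hs
  have h1 := Wd_act (c γ) (U γ) γ ph H ht (hr _ _)
  rw [link ht (hr (c γ) (U γ))]
  cases ho : cstep (cell (c γ) (U γ) t).1 (cell (c γ) (U γ) t).2 ph H with
  | none =>
    rw [ho] at h1
    refine ⟨rfl, Zr.of_eqv (PW_hand _ γ _ _) ?_⟩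
    cases γ
    · exact h1.append_right _
    · exact h1.append_left _
  | some o =>
    rw [ho] at h1
    refine ((PW_hand _ γ _ _).trans ?_).trans (PW_hand γ _ _ _)
    cases γ
    · exact h1.append (Wd_setH ⟨c true, U true, .park true, H⟩ (not_act_park _) _)
    · exact (Wd_setH ⟨c false, U false, .park false, H⟩ (not_act_park _) _).append h1

/-- Simulation of a run. -/
theorem sim (c) (s : St (2 ^ V)) :
    match res s with
    | some y => Eqv (rho V) (PW false c s)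
        (Wd ⟨c false, y false, .idle, H0 _⟩ ++ Wd ⟨c true, y true, .idle, H0 _⟩)
    | none => Zr (rho V) (PW false c s) := by
  induction s using St.ind with
  | stop s r h =>
    rw [res_stop h]
    by_cases hs : s.ph = .rel
    · obtain ⟨ph, H, U⟩ := s
      subst hs
      simp only [mstep, Sum.inr.injEq] at h
      subst h
      exact Wd_bdry _ _ _ _ _ _ (.rel _ _ (HD_can _ _) (HD_can _ _) ⟨rfl, rfl, rfl⟩
        ⟨rfl, rfl, rfl⟩ (HD_can ⟨_, _, .idle, _⟩ _) (HD_can ⟨_, _, .idle, _⟩ _))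
    · have := PW_step c s hs
      rw [h] at this
      rw [this.1]; exact this.2
  | step s s' h ih =>
    have hs : s.ph ≠ .rel := fun hs => by simp [mstep, hs] at h
    have := PW_step c s hs
    rw [h] at this
    rw [res_step h]
    cases hr : res s' with
    | none => rw [hr] at ih; exact Zr.of_eqv this ih
    | some y => rw [hr] at ih; exact this.trans ih

/-- The colour of an upper letter. -/
def col {h : ℕ} (y : Let h) : Fin 1024 := ⟨rv (adr y) % 1024, Nat.mod_lt _ (by norm_num)⟩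

/-- The block that represents an upper letter. -/
noncomputable def tau (y : Let (2 ^ 2 ^ V)) : List (Let (2 ^ V)) := Wd ⟨col y, y, .idle, H0 _⟩

theorem tau_rule {y0 y1 : Let (2 ^ 2 ^ V)} {r} (h : rho (2 ^ V) y0 y1 r) :
    (∀ z0 z1, r = some (z0, z1) → Eqv (rho V) (tau y0 ++ tau y1) (tau z0 ++ tau z1)) ∧
      (r = none → Zr (rho V) (tau y0 ++ tau y1)) := by
  obtain ⟨H, h1, h2, rfl⟩ := h
  have e : Eqv (rho V) (tau y0 ++ tau y1) (PW false (pair (col y0) (col y1)) ⟨.F, H, pair y0 y1⟩) :=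
    Wd_bdry _ _ _ _ _ _ (.cap _ _ (HD_can _ _) (HD_can _ _) ⟨rfl, rfl, rfl⟩
      ⟨rfl, rfl, rfl⟩ (HD_can ⟨_, _, .act false .F, _⟩ _) (HD_can ⟨_, _, .park true, _⟩ _) h1 h2)
  have := sim (pair (col y0) (col y1)) ⟨.F, H, pair y0 y1⟩
  cases hr : res ⟨.F, H, pair y0 y1⟩ with
  | none => rw [hr] at this; exact ⟨by simp, fun _ => Zr.of_eqv e this⟩
  | some y =>
    rw [hr] at this
    refine ⟨?_, by simp⟩
    simp only [Option.map_some, Option.some.injEq, Prod.mk.injEq]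
    rintro _ _ ⟨rfl, rfl⟩
    have c0 : col y0 = col (y false) := by simp [col, (res_static _ _ hr false).1]
    have c1 : col y1 = col (y true) := by simp [col, (res_static _ _ hr true).1]
    refine e.trans (this.trans (Eqv.of_eq ?_))
    simp only [pair_false, pair_true, c0, c1, tau]

theorem tau_mv (y0 y1 z0 z1 : Let (2 ^ 2 ^ V)) (h : rho (2 ^ V) y0 y1 (some (z0, z1))) :
    Eqv (rho V) (tau y0 ++ tau y1) (tau z0 ++ tau z1) := (tau_rule h).1 _ _ rfl

theorem tau_zr (y0 y1 : Let (2 ^ 2 ^ V)) (h : rho (2 ^ V) y0 y1 none) :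
    Zr (rho V) (tau y0 ++ tau y1) := (tau_rule h).2 rfl

end Crest.Agent.R176.M
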