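import Crest.Agent.R176.Defs

/-!
# 176-P: a hierarchy gives phases and long nonzero words

`long`: `u_n = ` a single letter at level `n` is nonzero (`not_zr_single`), apply `τ_nz` `n` times;
lengths multiply by `2h ≥ 128`.

`ph`: write `λ n = 2 * (L n).h`.  By recursion on `i`, for all `n`, define on skeleton words
`ψ n i : List (S n) → ℤ`, `N n i`, `m n i`:
* `ψ n 0 σ = pos (head σ)`, `N n 0 = 1024 λ n`, `m n 0 = 1`;
* `p0 σ = (λ - pos (head σ) % λ) % λ`, `K σ = (|σ| - p0) / λ`,
  `U σ = [up ((σ.drop (p0 + kλ)).take λ) | k = 1 .. K-2]`,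
  `ψ n (i+1) σ = λ (ψ (n+1) i (U σ) - 1) - p0 σ`, `N n (i+1) = λ N (n+1) i`,
  `m n (i+1) = λ (m (n+1) i + 4)`.
`φ i w = ψ 0 i (w.map sk)`; invariance by `Eqv.map_eq sk_inv`.
(E) by induction on `i` for all `n`, for skeletons of nonzero words.  In a nonzero word the letter
at place `t` has `pos ≡ pos(head) + t` mod `1024 λ`.  Key lemma: for nonzero `w` with `K ≥ 3`,
`U (w.map sk) = u.map sk` for a nonzero upper word `u`: the complete blocks `b_0 .. b_{K-1}` satisfy
`IsBlk`; (parse) a list of blocks with nonzero concatenation, first role `≠ right`, last role `≠ left`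
is `Eqv` to `u.flatMap τ` with `|u|` = number of blocks (induction with `role_compat`, `idle`, `pair`),
`u` is nonzero (`Zr.flatMap`); drop `b_0` if its role is `right` and `b_{K-1}` if its role is `left`
(or: drop them unless the neighbour needs them); compare skeletons blockwise (`Eqv.map_eq`, `τ_len`,
`up_τ`); subwords of nonzero words are nonzero.  For `w = p q s`, `|q| ≥ λ (m'+4)`:
`|p| + p0 q = p0 w + k0 λ`, `U q` is the infix of `U w` at offset `k0` and has length `≥ m'`.
Bounds: `128 (m n (i+1) + 5) ≤ N n i` by induction; `N 0 (i+1) = N 0 i * λ (i+1)` (prove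
`N n (i+1) = N n i * λ (n+i+1)`), `λ ≥ 128`, `grow_h` gives `grow`.
-/

set_option autoImplicit false

namespace Crest.Agent.R176

namespace PhP

/-- The first `k` chunks of length `l`. -/
def chunks {α : Type} (l : ℕ) : ℕ → List α → List (List α)
  | 0, _ => []
  | k + 1, s => s.take l :: chunks l k (s.drop l)

section chunks
variable {α β : Type} {l : ℕ}

theorem chunks_length (k : ℕ) (s : List α) : (chunks l k s).length = k := by
  induction k generalizing s with
  | zero => rfl
  | succ k ih => simp [chunks, ih]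

theorem chunks_map (f : α → β) (k : ℕ) (s : List α) :
    chunks l k (s.map f) = (chunks l k s).map (List.map f) := by
  induction k generalizing s with
  | zero => rfl
  | succ k ih => simp only [chunks, List.map_cons, ← List.map_drop, ih, List.map_take]

theorem chunks_add (j k : ℕ) (s : List α) :
    chunks l (j + k) s = chunks l j s ++ chunks l k (s.drop (j * l)) := by
  induction j generalizing s with
  | zero => simp [chunks]
  | succ j ih =>
    rw [show j + 1 + k = (j + k) + 1 by ring]
    simp only [chunks, ih, List.drop_drop, List.cons_append]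
    rw [show l + j * l = (j + 1) * l by ring]

theorem chunks_append (k : ℕ) (s t : List α) (h : k * l ≤ s.length) :
    chunks l k (s ++ t) = chunks l k s := by
  induction k generalizing s with
  | zero => rfl
  | succ k ih =>
    have h1 : l ≤ s.length := by nlinarith
    simp only [chunks]
    rw [List.take_append_of_le_length h1, List.drop_append_of_le_length h1, ih]
    rw [List.length_drop]
    have : (k + 1) * l = k * l + l := by ring
    omega

theorem chunks_prefix (k : ℕ) (s : List α) : (chunks l k s).flatten <+: s := by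
  induction k generalizing s with
  | zero => simp [chunks]
  | succ k ih =>
    simp only [chunks, List.flatten_cons]
    conv_rhs => rw [← List.take_append_drop l s]
    exact (List.prefix_append_right_inj _).2 (ih _)

theorem mem_chunks {k : ℕ} {s b : List α} (h : b ∈ chunks l k s) :
    ∃ j < k, b = (s.drop (j * l)).take l := by
  induction k generalizing s with
  | zero => simp [chunks] at h
  | succ k ih =>
    simp only [chunks, List.mem_cons] at h
    rcases h with rfl | h
    · exact ⟨0, by omega, by simp⟩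
    · obtain ⟨j, hj, rfl⟩ := ih h
      exact ⟨j + 1, by omega, by rw [List.drop_drop, show l + j * l = (j + 1) * l by ring]⟩

theorem mid_append (A M C : List α) (h : 2 ≤ M.length) :
    ∃ A' C', (A ++ M ++ C).tail.dropLast = A' ++ M.tail.dropLast ++ C' ∧ A'.length = A.length := by
  obtain _ | ⟨x, M⟩ := M
  · simp at h
  obtain rfl | ⟨M, y, rfl⟩ := M.eq_nil_or_concat'
  · simp at h
  refine ⟨(A ++ [x]).tail, (y :: C).dropLast, ?_, by simp⟩
  have e : A ++ x :: (M ++ [y]) ++ C = (A ++ [x]) ++ (M ++ (y :: C)) := by simp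
  rw [e, List.tail_append_of_ne_nil (by simp), ← List.append_assoc,
    List.dropLast_append_of_ne_nil (by simp)]
  simp

end chunks

section lev
variable {X Y SX SY : Type} {ρ : Rules X} {σ : Rules Y} {sx : X → SX} {sy : Y → SY}
  (L : Lev ρ σ sx sy)

/-- Position of the first letter. -/
def hd : List SX → ℕ
  | [] => 0
  | x :: _ => L.pos x

/-- Offset of the first complete block. -/
def p0 (s : List SX) : ℕ := (2 * L.h - hd L s % (2 * L.h)) % (2 * L.h)

/-- Number of complete blocks. -/
def K (s : List SX) : ℕ := (s.length - p0 L s) / (2 * L.h)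

/-- The upper skeleton. -/
def U (s : List SX) : List SY :=
  (chunks (2 * L.h) (K L s) (s.drop (p0 L s))).tail.dropLast.map L.up

theorem lam_ge : 128 ≤ 2 * L.h := by have := L.h_ge; omega

theorem p0_lt (s : List SX) : p0 L s < 2 * L.h := Nat.mod_lt _ (by have := lam_ge L; omega)

theorem hd_add_p0 (s : List SX) : hd L s + p0 L s ≡ 0 [MOD 2 * L.h] := by
  have h0 : 0 < 2 * L.h := by have := lam_ge L; omega
  have h1 := Nat.mod_lt (hd L s) h0
  calc hd L s + p0 L s ≡ hd L s % (2 * L.h) + (2 * L.h - hd L s % (2 * L.h)) [MOD 2 * L.h] :=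
        (Nat.mod_modEq _ _).symm.add (Nat.mod_modEq _ _)
    _ = 2 * L.h := by omega
    _ ≡ 0 [MOD 2 * L.h] := by simp [Nat.ModEq]

theorem hd_append {a b : List X} (h : ¬ Zr ρ (a ++ b)) (hb : b ≠ []) :
    hd L (b.map sx) ≡ hd L ((a ++ b).map sx) + a.length [MOD 1024 * (2 * L.h)] := by
  induction a with
  | nil => simp [Nat.ModEq]
  | cons x a ih =>
    have h1 := ih fun hz => h (hz.cons x)
    obtain ⟨y, r, e⟩ : ∃ y r, a ++ b = y :: r := by
      cases a with
      | nil =>
        obtain _ | ⟨y, r⟩ := b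
        · exact absurd rfl hb
        · exact ⟨y, r, rfl⟩
      | cons y r => exact ⟨y, r ++ b, rfl⟩
    rw [List.cons_append, e] at h
    rw [List.cons_append, e]
    rw [e] at h1
    have h2 := L.pos_succ x y fun hz => h (hz.append_right r)
    refine h1.trans ?_
    simp only [List.map_cons, hd, List.length_cons]
    rw [show L.pos (sx x) + (a.length + 1) = L.pos (sx x) + 1 + a.length by ring]
    exact h2.add_right _

theorem parse (hsx : ∀ x y x' y', ρ x y (some (x', y')) → sx x' = sx x ∧ sx y' = sx y) :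
    ∀ (cs : List (List X)), (∀ b ∈ cs, IsBlk L.h (L.pos ∘ sx) b) → ¬ Zr ρ cs.flatten →
      (∀ b ∈ cs.head?, L.role b ≠ .right) →
      ∃ (u : List Y) (r : List X), Eqv ρ cs.flatten (u.flatMap L.τ ++ r) ∧
        cs.dropLast.map (fun b => L.up (b.map sx)) <+: u.map sy
  | [], _, _, _ => ⟨[], [], by simpa using Eqv.rfl, by simp⟩
  | [b], _, _, _ => ⟨[], b, by simpa using Eqv.rfl, by simp⟩
  | b :: b' :: cs, hb, hz, hr => by
    have hb1 := hb b (by simp)
    have hb2 := hb b' (by simp)
    simp only [List.flatten_cons] at hz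
    have hz12 : ¬ Zr ρ (b ++ b') := fun h => hz (by simpa using h.append_right cs.flatten)
    have hc := L.role_compat b b' hb1 hb2 hz12
    have hr1 : L.role b ≠ .right := hr b (by simp)
    by_cases hl : L.role b = .left
    · obtain ⟨y, y', e⟩ := L.pair b b' hb1 hb2 hl (hc.1 hl) hz12
      obtain ⟨u, r, e1, e2⟩ := parse hsx cs (fun c hc => hb c (by simp [hc]))
        (fun h => hz ((h.append_left b').append_left b)) (fun c hcs => by
          obtain _ | ⟨c', cs⟩ := cs
          · simp at hcs
          obtain rfl : c' = c := by simpa using hcs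
          intro h3
          have := (L.role_compat b' c' hb2 (hb c' (by simp)) fun h => hz (by
            simpa using (h.append_right cs.flatten).append_left b)).2 h3
          rw [hc.1 hl] at this
          cases this)
      have e3 := e.map_eq hsx
      rw [List.map_append, List.map_append] at e3
      obtain ⟨e4, e5⟩ := List.append_inj e3 (by simp [hb1.1, L.τ_len])
      refine ⟨y :: y' :: u, r, by simpa using e.append e1, ?_⟩
      rw [List.dropLast_cons_cons, List.map_cons, List.map_cons, List.map_cons, e4, L.up_τ,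
        List.prefix_cons_inj]
      obtain _ | ⟨c, cs⟩ := cs
      · simp
      · rw [List.dropLast_cons_cons, List.map_cons, e5, L.up_τ, List.prefix_cons_inj]
        exact e2
    · have hi : L.role b = .idle := by
        cases h : L.role b <;> simp_all
      obtain ⟨y, e⟩ := L.idle b hb1 hi fun h => hz (h.append_right _)
      obtain ⟨u, r, e1, e2⟩ := parse hsx (b' :: cs) (fun c hc => hb c (List.mem_cons_of_mem _ hc))
        (fun h => hz (h.append_left b)) (fun c hcs => by
          obtain rfl : b' = c := by simpa using hcs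
          exact fun h3 => hl (hc.2 h3))
      refine ⟨y :: u, r, by simpa using e.append e1, ?_⟩
      rw [List.dropLast_cons_cons, List.map_cons, List.map_cons, e.map_eq hsx, L.up_τ,
        List.prefix_cons_inj]
      exact e2

theorem parse' (hsx : ∀ x y x' y', ρ x y (some (x', y')) → sx x' = sx x ∧ sx y' = sx y)
    (cs : List (List X)) (hb : ∀ b ∈ cs, IsBlk L.h (L.pos ∘ sx) b) (hz : ¬ Zr ρ cs.flatten) :
    ∃ u : List Y, ¬ Zr σ u ∧ u.map sy = cs.tail.dropLast.map (fun b => L.up (b.map sx)) := by
  have key : ∀ cs : List (List X), (∀ b ∈ cs, IsBlk L.h (L.pos ∘ sx) b) → ¬ Zr ρ cs.flatten →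
      (∀ b ∈ cs.head?, L.role b ≠ .right) →
      ∃ u : List Y, ¬ Zr σ u ∧ u.map sy = cs.dropLast.map (fun b => L.up (b.map sx)) := by
    intro cs hb hz hr
    obtain ⟨u, r, e1, t, e2⟩ := parse L hsx cs hb hz hr
    obtain ⟨u1, u2, rfl, e3, -⟩ := List.map_eq_append_iff.1 e2.symm
    exact ⟨u1, fun h => hz (Zr.of_eqv e1
      (((h.append_right u2).flatMap L.τ_mv L.τ_zr).append_right r)), e3⟩
  obtain _ | ⟨b, _ | ⟨b', cs⟩⟩ := cs
  · exact ⟨[], not_zr_nil, rfl⟩
  · exact ⟨[], not_zr_nil, rfl⟩
  by_cases hr : L.role b = .right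
  · refine key (b' :: cs) (fun c hc => hb c (List.mem_cons_of_mem _ hc))
      (fun h => hz (h.append_left b)) fun c hcs => ?_
    obtain rfl : b' = c := by simpa using hcs
    intro h3
    have := (L.role_compat b b' (hb b (by simp)) (hb b' (by simp)) fun h => hz (by
      simpa using h.append_right cs.flatten)).2 h3
    rw [hr] at this
    cases this
  · obtain ⟨u, h1, h2⟩ := key _ hb hz fun c hcs => by
      obtain rfl : b = c := by simpa using hcs
      exact hr
    rw [List.dropLast_cons_cons, List.map_cons] at h2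
    obtain ⟨y, u, rfl, -, h3⟩ := List.map_eq_cons_iff.1 h2
    exact ⟨u, fun h => h1 (h.cons y), h3⟩

theorem exists_up (hsx : ∀ x y x' y', ρ x y (some (x', y')) → sx x' = sx x ∧ sx y' = sx y)
    {w : List X} (hw : ¬ Zr ρ w) : ∃ u : List Y, ¬ Zr σ u ∧ u.map sy = U L (w.map sx) := by
  have h0 : 0 < 2 * L.h := by have := lam_ge L; omega
  obtain ⟨u, h1, h2⟩ := parse' L hsx
    (chunks (2 * L.h) (K L (w.map sx)) (w.drop (p0 L (w.map sx)))) (fun b hb => by
      obtain ⟨j, hj, rfl⟩ := mem_chunks hb
      rw [List.drop_drop]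
      have h3 : (j + 1) * (2 * L.h) ≤ w.length - p0 L (w.map sx) := by
        have := (Nat.le_div_iff_mul_le h0).1 (show j + 1 ≤ K L (w.map sx) from hj)
        simpa using this
      have h4 : (j + 1) * (2 * L.h) = j * (2 * L.h) + 2 * L.h := by ring
      set t := p0 L (w.map sx) + j * (2 * L.h) with ht
      have h5 : t + 2 * L.h ≤ w.length := by omega
      refine ⟨by simp; omega, ?_⟩
      have h6 := hd_append L (a := w.take t) (b := w.drop t) (by simpa using hw)
        (by simp; omega)
      rw [List.take_append_drop, List.length_take, min_eq_left (by omega)] at h6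
      obtain ⟨x, r, e⟩ : ∃ x r, w.drop t = x :: r := by
        cases h : w.drop t with
        | nil => simp at h; omega
        | cons x r => exact ⟨x, r, rfl⟩
      rw [e] at h6 ⊢
      obtain ⟨l, hl⟩ : ∃ l, 2 * L.h = l + 1 := ⟨2 * L.h - 1, by omega⟩
      refine ⟨x, r.take l, by rw [hl]; rfl, ?_⟩
      have h7 : L.pos (sx x) ≡ 0 [MOD 2 * L.h] := by
        refine (h6.of_mul_left 1024).trans ?_
        rw [ht, ← add_assoc]
        simpa using (hd_add_p0 L (w.map sx)).add
          (show j * (2 * L.h) ≡ 0 [MOD 2 * L.h] by simp [Nat.ModEq])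
      simpa [Nat.ModEq] using h7)
    (fun h => hw (h.of_infix ((chunks_prefix _ _).isInfix.trans (List.drop_suffix _ _).isInfix)))
  refine ⟨u, h1, ?_⟩
  rw [h2, U, ← List.map_drop, chunks_map, ← List.map_tail, ← List.map_dropLast, List.map_map]
  rfl

theorem U_infix {a b c : List SX} {m : ℕ} (hm : 2 * L.h * (m + 4) ≤ b.length)
    (h : hd L b ≡ hd L (a ++ b ++ c) + a.length [MOD 2 * L.h]) :
    ∃ A C, U L (a ++ b ++ c) = A ++ U L b ++ C ∧ m ≤ (U L b).length ∧
      a.length + p0 L b = p0 L (a ++ b ++ c) + A.length * (2 * L.h) := by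
  have h0 : 0 < 2 * L.h := by have := lam_ge L; omega
  have h1 := p0_lt L b
  have h2 := p0_lt L (a ++ b ++ c)
  have h3 : a.length + p0 L b ≡ p0 L (a ++ b ++ c) [MOD 2 * L.h] := by
    refine Nat.ModEq.add_left_cancel' (hd L (a ++ b ++ c)) ?_
    rw [← add_assoc]
    exact ((h.symm.add_right _).trans (hd_add_p0 L b)).trans (hd_add_p0 L _).symm
  obtain ⟨k, hk⟩ : ∃ k, a.length + p0 L b = p0 L (a ++ b ++ c) + k * (2 * L.h) := by
    refine ⟨(a.length + p0 L b) / (2 * L.h), ?_⟩
    have h4 : (a.length + p0 L b) % (2 * L.h) = p0 L (a ++ b ++ c) := by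
      rw [h3, Nat.mod_eq_of_lt h2]
    rw [← h4, Nat.mod_add_div']
  have h4 : K L b * (2 * L.h) ≤ b.length - p0 L b := Nat.div_mul_le_self _ _
  have h5 : m + 3 ≤ K L b := by
    refine (Nat.le_div_iff_mul_le h0).2 ?_
    have : 2 * L.h * (m + 4) = (m + 3) * (2 * L.h) + 2 * L.h := by ring
    omega
  have h6 : p0 L b ≤ b.length := by
    have : 2 * L.h * (m + 4) = (m + 3) * (2 * L.h) + 2 * L.h := by ring
    omega
  obtain ⟨r, hr⟩ : ∃ r, K L (a ++ b ++ c) = k + (K L b + r) := by
    have : k + K L b ≤ K L (a ++ b ++ c) := by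
      refine (Nat.le_div_iff_mul_le h0).2 ?_
      rw [add_mul]
      simp only [List.length_append]
      omega
    exact ⟨K L (a ++ b ++ c) - (k + K L b), by omega⟩
  have h7 : ((a ++ b ++ c).drop (p0 L (a ++ b ++ c))).drop (k * (2 * L.h)) =
      b.drop (p0 L b) ++ c := by
    rw [List.drop_drop, ← hk, List.append_assoc, ← List.drop_drop, List.drop_left,
      List.drop_append_of_le_length h6]
  obtain ⟨A, C, e1, e2⟩ := mid_append
    (chunks (2 * L.h) k ((a ++ b ++ c).drop (p0 L (a ++ b ++ c))))
    (chunks (2 * L.h) (K L b) (b.drop (p0 L b)))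
    (chunks (2 * L.h) r ((b.drop (p0 L b) ++ c).drop (K L b * (2 * L.h))))
    (by rw [chunks_length]; omega)
  refine ⟨A.map L.up, C.map L.up, ?_, ?_, ?_⟩
  · rw [U, hr, chunks_add, chunks_add, h7, chunks_append _ _ _ (by simpa using h4),
      ← List.append_assoc, e1, List.map_append, List.map_append, U]
  · simp [U, chunks_length]; omega
  · rw [List.length_map, e2, chunks_length, hk]

end lev

variable (H : Hier)

/-- Phase functions. -/
def psi : ℕ → (n : ℕ) → List (H.S n) → ℤ
  | 0, n, s => hd (H.L n) s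
  | i + 1, n, s => (2 * (H.L n).h : ℕ) * (psi i (n + 1) (U (H.L n) s) - 1) - p0 (H.L n) s

/-- Moduli. -/
def NN : ℕ → ℕ → ℕ
  | 0, n => 1024 * (2 * (H.L n).h)
  | i + 1, n => 2 * (H.L n).h * NN i (n + 1)

/-- Length thresholds. -/
def mm : ℕ → ℕ → ℕ
  | 0, _ => 1
  | i + 1, n => 2 * (H.L n).h * (mm i (n + 1) + 4)

theorem psi_E : ∀ (i n : ℕ) (w : List (H.X n)) (a b c : List (H.S n)), ¬ Zr (H.ρ n) w →
    w.map (H.sk n) = a ++ b ++ c → mm H i n ≤ b.length →
    psi H i n b ≡ psi H i n (a ++ b ++ c) + a.length [ZMOD NN H i n] := by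
  have key : ∀ (n : ℕ) (w : List (H.X n)) (a b c : List (H.S n)), ¬ Zr (H.ρ n) w →
      w.map (H.sk n) = a ++ b ++ c → 1 ≤ b.length →
      hd (H.L n) b ≡ hd (H.L n) (a ++ b ++ c) + a.length [MOD 1024 * (2 * (H.L n).h)] := by
    intro n w a b c hw e hb
    rw [List.append_assoc] at e ⊢
    obtain ⟨a', d, rfl, rfl, e2⟩ := List.map_eq_append_iff.1 e
    obtain _ | ⟨x, b⟩ := b
    · simp at hb
    have := hd_append (H.L n) hw (by rintro rfl; simp at e2)
    rw [List.map_append, e2] at this
    simpa [hd] using this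
  intro i
  induction i with
  | zero =>
    intro n w a b c hw e hb
    have := Int.natCast_modEq_iff.2 (key n w a b c hw e hb)
    simpa [psi, NN] using this
  | succ i ih =>
    intro n w a b c hw e hb
    have h0 := lam_ge (H.L n)
    have hb' : 2 * (H.L n).h * (mm H i (n + 1) + 4) ≤ b.length := hb
    obtain ⟨A, C, e1, e2, e3⟩ := U_infix (H.L n) hb'
      ((key n w a b c hw e (by nlinarith)).of_mul_left 1024)
    obtain ⟨u, hu, e4⟩ := exists_up (H.L n) (H.sk_inv n) hw
    rw [e, e1] at e4
    have h1 := ih (n + 1) u A _ C hu e4 e2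
    rw [← e1] at h1
    simp only [psi, NN]
    have e5 : (a.length : ℤ) = p0 (H.L n) (a ++ b ++ c) + A.length * (2 * (H.L n).h : ℕ) -
        p0 (H.L n) b := by
      rw [eq_sub_iff_add_eq]; exact_mod_cast e3
    have h2 := ((h1.sub_right 1).mul_left' (c := ((2 * (H.L n).h : ℕ) : ℤ))).sub_right
      (p0 (H.L n) b : ℤ)
    rw [Nat.cast_mul (2 * (H.L n).h), e5]
    convert h2 using 1
    ring

theorem mm_le : ∀ i n, 128 * (mm H (i + 1) n + 5) ≤ NN H i n := by
  intro i
  induction i with
  | zero => intro n; have := lam_ge (H.L n); simp only [mm, NN]; omega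
  | succ i ih =>
    intro n
    have h0 := lam_ge (H.L n)
    have h1 := Nat.mul_le_mul_left (2 * (H.L n).h) (ih (n + 1))
    rw [NN, mm]
    nlinarith

theorem mm_lt : ∀ i n, mm H i n < mm H (i + 1) n := by
  intro i
  induction i with
  | zero => intro n; have := lam_ge (H.L n); simp only [mm]; omega
  | succ i ih =>
    intro n
    have h0 := lam_ge (H.L n)
    rw [mm, mm]
    exact Nat.mul_lt_mul_of_pos_left (by have := ih (n + 1); omega) (by omega)

theorem NN_succ : ∀ i n, NN H (i + 1) n = NN H i n * (2 * (H.L (n + i + 1)).h) := by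
  intro i
  induction i with
  | zero => intro n; simp only [NN]; ring
  | succ i ih =>
    intro n
    rw [NN, ih, NN, mul_assoc (2 * (H.L n).h), show n + 1 + i + 1 = n + (i + 1) + 1 by ring]

theorem NN_dvd : ∀ i n, 16 ∣ NN H i n := by
  intro i
  induction i with
  | zero => intro n; simp only [NN]; omega
  | succ i ih => intro n; exact (ih (n + 1)).mul_left _

end PhP

theorem Hier.long (H : Hier) : Long (H.ρ 0) := by
  have key : ∀ k n, ∃ w : List (H.X n), k ≤ w.length ∧ w ≠ [] ∧ ¬ Zr (H.ρ n) w := by
    intro k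
    induction k with
    | zero =>
      intro n
      obtain ⟨x⟩ := H.ne n
      exact ⟨[x], by simp, by simp, not_zr_single x⟩
    | succ k ih =>
      intro n
      obtain ⟨u, h1, h2, h3⟩ := ih (n + 1)
      have h4 : (u.flatMap (H.L n).τ).length = u.length * (2 * (H.L n).h) := by
        simp [List.length_flatMap, (H.L n).τ_len]
      have h5 := PhP.lam_ge (H.L n)
      have h6 := List.length_pos_iff.2 h2
      have h7 : k + 1 ≤ (u.flatMap (H.L n).τ).length := by rw [h4]; nlinarith
      exact ⟨u.flatMap (H.L n).τ, h7, List.length_pos_iff.1 (by omega), (H.L n).τ_nz u h3⟩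
  intro k
  obtain ⟨w, h1, -, h2⟩ := key k 0
  exact ⟨w, h1, h2⟩

theorem Hier.ph (H : Hier) : Nonempty (Ph (H.ρ 0)) := by
  refine ⟨{ φ := fun i w => PhP.psi H i 0 (w.map (H.sk 0))
            m := fun i => PhP.mm H i 0
            N := fun i => PhP.NN H i 0
            m0 := rfl
            m_lt := fun i => PhP.mm_lt H i 0
            mN := fun i => by have := PhP.mm_le H i 0; omega
            NN := fun i => ?_
            dvd := fun i => PhP.NN_dvd H i 0
            grow := fun c => ?_
            inv := fun i w w' h => by rw [h.map_eq (H.sk_inv 0)]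
            E := fun i p q s hz hq => ?_ }⟩
  · rw [PhP.NN_succ, mul_comm]
    exact Nat.mul_le_mul_left _ (PhP.lam_ge _)
  · obtain ⟨n, hn⟩ := H.grow_h c
    refine ⟨n, ?_⟩
    have := PhP.mm_le H n 0
    rw [PhP.NN_succ, mul_comm (PhP.NN H n 0), zero_add]
    exact Nat.mul_lt_mul_of_pos_right hn (by omega)
  · have := PhP.psi_E H i 0 _ (p.map (H.sk 0)) (q.map (H.sk 0)) (s.map (H.sk 0)) hz (by simp)
      (by simpa using hq)
    simpa using this

end Crest.Agent.R176
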