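import Crest.Agent.R176.RuleC

/-!
# 176-R: the rules of `rho V` in terms of the content of the cells

Plan (`W = 2^V`, `E ≤ V`).
1. **Macro semantics.** For `I : Ins`, `n < 2^V`, `x : Bool → Let W`, `A = x I.β I.rd`, `B = x I.β' I.wr`,
   `e j = I.tr.isSome && n.testBit j`: `car 0 = I.c0`, `car (j+1) = (I.δ (car j) (bit A j) (bit B j) (e j)).1`,
   `newB j = (I.δ (car j) ..).2.1`, `newP : Reg V`, `newP i = I.tr.isSome && (I.δ (car i) ..).2.2`.
   Loop lemma (downward induction on `j < W`, `res_step`): the state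
   `⟨S1 I (car j), ⟨pc, ro V n, ro V j, ro V (2^j), newP below j⟩, putR x β' wr (newB below j, B from j on)⟩`
   has the same `res` as: `⟨F, ⟨inc pc, _, _, _, newP⟩, putR x β' wr newB⟩` if `I.out (car W) = cont`,
   `some (putR ..)` if `abort`, `none` if `zero`.  (Bit `j` of `A` is still the original one at step `j`,
   also when `rd`, `wr` are the same register. `∃ i, ro V n i ∧ ro V (2^j) i ↔ n.testBit j`.)
2. `mrun : Prog → ℕ → (Bool → Let W) → Option _`, `mrun [] _ x = some x`,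
   `mrun ((I,n)::l) P x` executes `I` with `immv I.src (n % 2^E) P` (`< 2^E`).
   `res ⟨F,H,x⟩ = mrun ((prog (pc % 2^E / 64)).drop (pc % 64)) (rv H.pp) x` by induction on that list
   (`prog_len`; empty list: `fetch = END`).  So `rho V x0 x1 r ↔ (∃ i, r = (mrun (sch i) 0 (pair x0 x1)).map _)
   ∨ r = some (x0,x1)` (for `←` take `pc = ro V (64 * enc i)`, `64 * card Idx ≤ 2^E`).
3. One `mrun` lemma for each of `tB`, `wB`, `iInc`, `iShl`, `iLd`, `iGe`, `iLx`, `iLe`, e.g.
   `mrun (iEq β τ n w :: l) P x = if (x β (some τ) = ro W n ↔ w) then mrun l 0 x else some x` (`n < 2^E`),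
   `mrun (iSet β t n :: l) P x = mrun l 0 (putR x β (some (.d t)) (ro W n))`,
   `mrun (iLd β t :: l) P x = mrun l (rv (x β (some (.d t))) % 2^V) x`; `fetch (v % 2^V) = fetch v`.
   `testBit (n+1) j = xor (testBit n j) (∀ i<j, testBit n i)` (induction on `j` with `n/2`);
   for `iGe`: `car j = decide (rv B % 2^j < n % 2^j)`.
4. For each program: if a test fails the letters are unchanged up to `opr` (`VR.junk`); otherwise the
   result is the corresponding constructor of `VR`/`VZ`.  `enc` values are `< 2^E`, so `HS`, `HD`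
   determine `s`, `d` (`ro_inj`, `enc_inj`).
   For `VR.eqv`: first `Same x y → Eqv [x,z] [y,z]` and `Eqv [z,x] [z,y]` (programs `clO`, `clH`:
   both letters clean to the same letter); then the result of the program is `Same` as the given one.
   For `cap` first replace the head registers of `x0` by `hd y0` (`Same`, the token is idle).
-/

set_option autoImplicit false

open Function

namespace Crest.Agent.R176.M

namespace RA

variable {V : ℕ} [Fact (E ≤ V)]

theorem good_sch (x : Bool → Let (2 ^ V)) (i : Idx) : Good x (mrun V (sch i) 0 x) := by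
  cases i with
  | badS β =>
    rw [run_badS]
    split_ifs with h
    · exact good_self x
    · cases β
      exacts [VZ.badS0 h, VZ.badS1 h]
  | badD β =>
    rw [run_badD]
    split_ifs with h
    · exact good_self x
    · cases β
      exacts [VZ.badD0 h, VZ.badD1 h]
  | succ =>
    rw [run_succ]
    split_ifs with h
    · exact good_same (same_opr _ _)
    · exact VZ.succ h
  | compat s0 d0 s1 d1 z0 z1 o1 =>
    rw [run_compat]
    split_ifs with h
    · obtain ⟨h, a, b, c, d, e, f, g⟩ := h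
      refine VZ.compat s0 d0 s1 d1 a b c d ?_
      rwa [e, f, g]
    · exact good_self x
  | cb s j =>
    rw [run_cb]
    split_ifs with h
    · exact VZ.cb s j h.2.1 j.2 h.2.2 h.1.1 h.1.2
    · exact good_self x
  | clO β =>
    rw [run_clO]
    exact good_same (same_opr _ _)
  | clH β d =>
    by_cases h : ¬ d.mark.IsAct ∧ HD (x β) d
    · obtain ⟨y, h1, h2, h3, -⟩ := clH_ok β h.1 h.2
      rw [h1]
      exact good_same ⟨h2, h3.trans h.2.symm, Or.inr ⟨d, h.2, h.1⟩⟩
    · rw [clH_no β h]; exact good_self x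
  | move a0 a1 t =>
    by_cases h : HD (x false) ⟨a0, .tok t⟩ ∧ HD (x true) ⟨a1, .L⟩
    · obtain ⟨y, h1, h2, h3, h4, h5, h6⟩ := two_cp (e0 := ⟨a0, .R⟩) (e1 := ⟨a1, .tok t⟩) h.1 h.2
      rw [sch, h1]
      exact VR.move a0 a1 t h.1 h.2 h2 h3 h4 h5 (fun _ => h6)
    · rw [sch, List.cons_append, List.cons_append, two_no h]; exact good_self x
  | cap a0 a1 =>
    by_cases h : HD (x false) ⟨a0, .tok .idle⟩ ∧ HD (x true) ⟨a1, .tok .idle⟩ ∧
      rv (hd (x false)).pc % 64 = 0
    · obtain ⟨y, h1, h2, h3, h4, h5, h6⟩ := cap_ok h.1 h.2.1 h.2.2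
      rw [h1]
      exact VR.cap a0 a1 h.1 h.2.1 h2 h3 h4 h5 (by rw [h6]; exact h.2.2) (by rw [h6])
    · rw [cap_no h]; exact good_self x
  | hand a0 a1 ph =>
    by_cases h : HD (x false) ⟨a0, .tok (.act false ph)⟩ ∧ HD (x true) ⟨a1, .tok (.park true)⟩
    · obtain ⟨y, h1, h2, h3, h4, h5, h6⟩ := two_cp (e0 := ⟨a0, .tok (.park false)⟩)
        (e1 := ⟨a1, .tok (.act true ph)⟩) h.1 h.2
      rw [sch, h1]
      exact VR.hand a0 a1 ph h.1 h.2 h2 h3 h4 h5 h6
    · rw [sch, List.cons_append, List.cons_append, two_no h]; exact good_self x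
  | rel a0 a1 =>
    by_cases h : HD (x false) ⟨a0, .tok (.act false .rel)⟩ ∧ HD (x true) ⟨a1, .tok (.park true)⟩
    · obtain ⟨y, h1, h2, h3, h4, h5⟩ := two_w (e0 := ⟨a0, .tok .idle⟩)
        (e1 := ⟨a1, .tok .idle⟩) h.1 h.2
      rw [sch, h1]
      exact VR.rel a0 a1 h.1 h.2 h2 h3 h4 h5
    · rw [sch, two_no h]; exact good_self x
  | fe β s a γ I =>
    by_cases h : HS (x β) s ∧ HD (x β) ⟨a, .tok (.act γ .F)⟩ ∧ (fetch (rv (hd (x β)).pc)).1 = I
    · obtain ⟨y, h1, h2, h3, h4⟩ := fe_ok β h.1 h.2.1 h.2.2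
      rw [h1]
      exact good_act ⟨s, a, γ, .F, a, _, h.1, h.2.1, trivial, by rw [cstep, h.2.2, h3], h2, h4⟩
    · obtain ⟨y, h1, h2⟩ := fe_no β h
      rw [h1]; exact good_same h2
  | s1 β s a I c =>
    by_cases h : s.kind = I.tr.isSome ∧ HS (x β) s ∧ HD (x β) ⟨a, .tok (.act I.β (.S1 I c))⟩ ∧
      (hd (x β)).jj = adr (x β)
    · obtain ⟨hk, h0, h1, h2⟩ := h
      obtain ⟨y, h3, h4, h5, h6⟩ := s1_ok β hk h0 h1 h2
      rw [h3]
      exact good_act ⟨s, a, I.β, .S1 I c, a, _, h0, h1, ⟨rfl, hk, h2⟩, by rw [cstep, h5], h4, h6⟩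
    · rw [s1_no β h]; exact good_self x
  | s2 β s a I c b e last =>
    by_cases h : s.kind = I.tr.isSome ∧ HS (x β) s ∧ HD (x β) ⟨a, .tok (.act I.β' (.S2 I c b))⟩ ∧
      (hd (x β)).jj = adr (x β) ∧
      ((∃ i, (hd (x β)).imm i = true ∧ (hd (x β)).mask i = true) ↔ e = true) ∧
      ((hd (x β)).jj = ones _ ↔ last = true)
    · obtain ⟨hk, h0, h1, h2, h3, h4⟩ := h
      rcases s2_ok β hk h0 h1 h2 h3 h4 with ⟨h5, h6⟩ | ⟨y, a', ph', h5, h6, h7, h8⟩
      · rw [h6]
        exact good_actZ ⟨s, a, I.β', .S2 I c b, h0, h1, ⟨rfl, hk, h2⟩, h5⟩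
      · rw [h5]
        exact good_act ⟨s, a, I.β', .S2 I c b, a', ph', h0, h1, ⟨rfl, hk, h2⟩, h7, h6, h8⟩
    · rw [s2_no β h]; exact good_self x
  | lsw =>
    rw [run_lsw]
    split_ifs with h
    · exact VR.lsw h rfl rfl
    · exact good_self x
  | leq =>
    rw [run_leq]
    split_ifs with h
    · exact VZ.leq h.1 h.2
    · exact good_self x

theorem eqv_run {x y : Bool → Let (2 ^ V)} {i : Idx} (h : mrun V (sch i) 0 x = some y) :
    Eqv (rho V) [x false, x true] [y false, y true] := by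
  have := rho_sch (x false) (x true) i
  rw [pair_eta, h] at this
  exact Eqv.of_rule this

theorem zr_run {x : Bool → Let (2 ^ V)} {i : Idx} (h : mrun V (sch i) 0 x = none) :
    Zr (rho V) [x false, x true] := by
  have := rho_sch (x false) (x true) i
  rw [pair_eta, h] at this
  exact Zr.of_rule this

/-- The word of a pair of letters. -/
def wrd {α : Type} (x : Bool → α) : List α := [x false, x true]

theorem eqv_opr (x : Bool → Let (2 ^ V)) (β : Bool) {y : Let (2 ^ V)} (h1 : Keep (x β) y)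
    (h2 : y (some (.d .dyn)) = x β (some (.d .dyn))) (h3 : hd y = hd (x β)) :
    Eqv (rho V) (wrd x) (wrd (update x β y)) := by
  have e1 := eqv_run (run_clO (x := x) β)
  have e2 := eqv_run (run_clO (x := update x β y) β)
  have e3 : update y (some (.d .opr)) (ro _ 0) = update (x β) (some (.d .opr)) (ro _ 0) := by
    obtain ⟨k1, k2, k3⟩ := h1
    simp only [hd, Hd.mk.injEq] at h3
    obtain ⟨p1, p2, p3, p4, p5⟩ := h3
    funext τ
    rcases τ with _ | _ | _ | t
    · simpa using k3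
    · simpa using k1
    · simpa using k2
    · cases t <;> simp [*]
  rw [update_self, update_idem, e3] at e2
  exact e1.trans e2.symm

theorem eqv_same (x : Bool → Let (2 ^ V)) (β : Bool) {y : Let (2 ^ V)} (h : Same (x β) y) :
    Eqv (rho V) (wrd x) (wrd (update x β y)) := by
  obtain ⟨h1, h2, h3 | ⟨d, h3, h4⟩⟩ := h
  · exact eqv_opr x β h1 h2 h3
  · have h5 : HD (update x β y β) d := by rw [update_self]; exact h2.trans h3
    obtain ⟨u, a1, a2, a3, a4⟩ := clH_ok β h4 h3
    obtain ⟨v, b1, b2, b3, b4⟩ := clH_ok β h4 h5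
    rw [update_self] at b2
    rw [update_idem] at b1
    have e1 : Eqv (rho V) (wrd x) (wrd (update x β u)) := eqv_run a1
    have e2 : Eqv (rho V) (wrd (update x β y)) (wrd (update x β v)) := eqv_run b1
    have e3 := eqv_opr (update x β u) β (y := v)
      (by
        rw [update_self]
        exact ⟨b2.1.trans (h1.1.trans a2.1.symm), b2.2.1.trans (h1.2.1.trans a2.2.1.symm),
          b2.2.2.trans (h1.2.2.trans a2.2.2.symm)⟩)
      (by rw [update_self]; exact b3.trans a3.symm) (by rw [update_self, a4, b4])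
    rw [update_idem] at e3
    exact (e1.trans e3).trans e2.symm

theorem eqv_same2 {x0 x1 y0 y1 : Let (2 ^ V)} (h0 : Same x0 y0) (h1 : Same x1 y1) :
    Eqv (rho V) [x0, x1] [y0, y1] := by
  have e1 := eqv_same (pair x0 x1) false (y := y0) h0
  have e2 := eqv_same (pair y0 x1) true (y := y1) h1
  simp only [wrd, update_self, ne_eq, Bool.true_eq_false, not_false_eq_true, update_of_ne,
    pair_false, pair_true, Bool.false_eq_true] at e1 e2
  exact e1.trans e2

omit [Fact (E ≤ V)] in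
theorem same_of {x u y : Let (2 ^ V)} {d : Dyn} (h1 : Keep x u) (h2 : Keep x y) (h3 : HD u d)
    (h4 : HD y d) (h5 : d.mark.IsAct → hd y = hd u) : Same u y := by
  refine ⟨⟨h2.1.trans h1.1.symm, h2.2.1.trans h1.2.1.symm, h2.2.2.trans h1.2.2.symm⟩,
    h4.trans h3.symm, ?_⟩
  by_cases h : d.mark.IsAct
  · exact Or.inl (h5 h)
  · exact Or.inr ⟨d, h3, h⟩

theorem eqv_act (x : Bool → Let (2 ^ V)) (β : Bool) {y : Let (2 ^ V)} (h : Act (x β) y) :
    Eqv (rho V) (wrd x) (wrd (update x β y)) := by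
  classical
  obtain ⟨s, a, γ, ph, a', ph', h0, h1, h2, h3, h4, h5⟩ := h
  have key : ∃ i u, mrun V (sch i) 0 x = some (update x β u) ∧ Keep (x β) u ∧ hd y = hd u ∧
      HD u ⟨a', .tok (.act γ ph')⟩ := by
    cases ph with
    | F =>
      obtain ⟨u, b1, b2, b3, b4⟩ := fe_ok β h0 h1 rfl
      simp only [cstep, Option.some.injEq, Prod.mk.injEq] at h3
      obtain ⟨rfl, rfl, h3⟩ := h3
      exact ⟨_, u, b1, b2, h3.symm.trans b3.symm, b4⟩
    | S1 I c =>
      obtain ⟨rfl, hk, h2⟩ := h2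
      obtain ⟨u, b1, b2, b3, b4⟩ := s1_ok β hk h0 h1 h2
      simp only [cstep, Option.some.injEq, Prod.mk.injEq] at h3
      obtain ⟨rfl, rfl, h3⟩ := h3
      exact ⟨_, u, b1, b2, h3.symm.trans b3.symm, b4⟩
    | S2 I c b =>
      obtain ⟨rfl, hk, h2⟩ := h2
      rcases s2_ok β hk h0 h1 h2 (decide_eq_true_iff).symm (decide_eq_true_iff).symm with
        ⟨b1, -⟩ | ⟨u, a'', ph'', b1, b2, b3, b4⟩
      · rw [b1] at h3; exact absurd h3 (by simp)
      · rw [b3] at h3
        simp only [Option.some.injEq, Prod.mk.injEq] at h3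
        obtain ⟨rfl, rfl, h3⟩ := h3
        exact ⟨_, u, b1, b2, h3.symm, b4⟩
    | rel => exact h2.elim
  obtain ⟨i, u, b1, b2, b3, b4⟩ := key
  have e1 : Eqv (rho V) (wrd x) (wrd (update x β u)) := eqv_run b1
  have e2 := eqv_same (update x β u) β (y := y)
    (by rw [update_self]; exact same_of b2 h4 b4 h5 (fun _ => b3))
  rw [update_idem] at e2
  exact e1.trans e2

theorem zr_act (x : Bool → Let (2 ^ V)) (β : Bool) (h : ActZ (x β)) :
    Zr (rho V) [x false, x true] := by
  classical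
  obtain ⟨s, a, γ, ph, h0, h1, h2, h3⟩ := h
  cases ph with
  | F => simp [cstep] at h3
  | S1 I c => simp [cstep] at h3
  | S2 I c b =>
    obtain ⟨rfl, hk, h2⟩ := h2
    rcases s2_ok β hk h0 h1 h2 (decide_eq_true_iff).symm (decide_eq_true_iff).symm with
      ⟨-, b1⟩ | ⟨u, a'', ph'', b1, b2, b3, b4⟩
    · exact zr_run b1
    · rw [b3] at h3; exact absurd h3 (by simp)
  | rel => exact h2.elim

/-- Replacing the head registers. -/
def setH {W : ℕ} (x : Let W) (H : Hd W) : Let W :=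
  update (update (update (update (update x (some (.d .pc)) H.pc) (some (.d .imm)) H.imm)
    (some (.d .jj)) H.jj) (some (.d .mask)) H.mask) (some (.d .pp)) H.pp

theorem not_act_idle : ¬ (Mark.tok .idle).IsAct := by simp [Mark.IsAct]
theorem not_act_park (β : Bool) : ¬ (Mark.tok (.park β)).IsAct := by simp [Mark.IsAct]
theorem not_act_R : ¬ Mark.R.IsAct := by simp [Mark.IsAct]

end RA

open RA

variable {V : ℕ} [Fact (E ≤ V)] {x0 x1 y0 y1 : Let (2 ^ V)}

theorem rho_some (h : rho V x0 x1 (some (y0, y1))) : VR x0 x1 y0 y1 := by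
  rcases rho_iff _ _ _ h with ⟨i, h⟩ | h
  · have hg := good_sch (pair x0 x1) i
    cases hr : mrun V (sch i) 0 (pair x0 x1) with
    | none => rw [hr] at h; simp at h
    | some y =>
      rw [hr] at h hg
      simp only [Option.map_some, Option.some.injEq, Prod.mk.injEq] at h
      obtain ⟨rfl, rfl⟩ := h
      exact hg
  · simp only [Option.some.injEq, Prod.mk.injEq] at h
    obtain ⟨rfl, rfl⟩ := h
    exact VR.junk (same_refl _) (same_refl _)

theorem rho_none (h : rho V x0 x1 none) : VZ x0 x1 := by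
  rcases rho_iff _ _ _ h with ⟨i, h⟩ | h
  · have hg := good_sch (pair x0 x1) i
    cases hr : mrun V (sch i) 0 (pair x0 x1) with
    | none => rw [hr] at hg; exact hg
    | some y => rw [hr] at h; simp at h
  · simp at h

theorem VR.eqv (h : VR x0 x1 y0 y1) : Eqv (rho V) [x0, x1] [y0, y1] := by
  cases h with
  | junk h0 h1 => exact eqv_same2 h0 h1
  | act0 h0 h1 => subst h1; simpa [wrd] using eqv_act (pair x0 y1) false h0
  | act1 h0 h1 => subst h0; simpa [wrd] using eqv_act (pair y0 x1) true h1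
  | move a0 a1 t h0 h1 k0 k1 d0 d1 hh =>
    obtain ⟨y, b1, b2, b3, b4, b5, b6⟩ := two_cp (x := pair x0 x1) (e0 := ⟨a0, .R⟩)
      (e1 := ⟨a1, .tok t⟩) h0 h1
    refine (eqv_run (i := .move a0 a1 t) b1).trans (eqv_same2
      (same_of b2 k0 b4 d0 fun h => (not_act_R h).elim) (same_of b3 k1 b5 d1 fun h => ?_))
    obtain ⟨β, ph, h⟩ := h
    exact (hh ⟨β, ph, by simpa using h⟩).trans b6.symm
  | cap a0 a1 h0 h1 k0 k1 d0 d1 p1 p2 =>
    have s1 : Same x0 (setH x0 (hd y0)) :=
      ⟨by simp [Keep, setH], by simp [setH], Or.inr ⟨_, h0, not_act_idle⟩⟩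
    have s2 : hd (setH x0 (hd y0)) = hd y0 := by simp [setH, hd]
    obtain ⟨y, b1, b2, b3, b4, b5, b6⟩ := cap_ok (x := pair (setH x0 (hd y0)) x1) (a0 := a0)
      (a1 := a1) (s1.2.1.trans h0) h1 (by simpa [s2] using p1)
    refine (eqv_same2 s1 (same_refl x1)).trans ((eqv_run b1).trans (eqv_same2
      (same_of (x := x0) ?_ k0 b4 d0 fun _ => ?_)
      (same_of b3 k1 b5 d1 fun h => (not_act_park _ h).elim)))
    · exact ⟨b2.1.trans s1.1.1, b2.2.1.trans s1.1.2.1, b2.2.2.trans s1.1.2.2⟩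
    · rw [b6, pair_false, s2, ← p2]
  | hand a0 a1 ph h0 h1 k0 k1 d0 d1 hh =>
    obtain ⟨y, b1, b2, b3, b4, b5, b6⟩ := two_cp (x := pair x0 x1)
      (e0 := ⟨a0, .tok (.park false)⟩) (e1 := ⟨a1, .tok (.act true ph)⟩) h0 h1
    exact (eqv_run (i := .hand a0 a1 ph) b1).trans (eqv_same2
      (same_of b2 k0 b4 d0 fun h => (not_act_park _ h).elim)
      (same_of b3 k1 b5 d1 fun _ => hh.trans b6.symm))
  | rel a0 a1 h0 h1 k0 k1 d0 d1 =>
    obtain ⟨y, b1, b2, b3, b4, b5⟩ := two_w (x := pair x0 x1)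
      (e0 := ⟨a0, .tok .idle⟩) (e1 := ⟨a1, .tok .idle⟩) h0 h1
    exact (eqv_run (i := .rel a0 a1) b1).trans (eqv_same2
      (same_of b2 k0 b4 d0 fun h => (not_act_idle h).elim)
      (same_of b3 k1 b5 d1 fun h => (not_act_idle h).elim))
  | lsw h e0 e1 =>
    subst e0 e1
    exact eqv_run ((run_lsw (x := pair x0 x1)).trans (if_pos h))

theorem VZ.zr (h : VZ x0 x1) : Zr (rho V) [x0, x1] := by
  classical
  cases h with
  | badS0 h => exact zr_run (x := pair x0 x1) ((run_badS false).trans (if_neg h))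
  | badS1 h => exact zr_run (x := pair x0 x1) ((run_badS true).trans (if_neg h))
  | badD0 h => exact zr_run (x := pair x0 x1) ((run_badD false).trans (if_neg h))
  | badD1 h => exact zr_run (x := pair x0 x1) ((run_badD true).trans (if_neg h))
  | succ h => exact zr_run (x := pair x0 x1) (run_succ.trans (if_neg h))
  | compat s0 d0 s1 d1 a b c d h =>
    refine zr_run (x := pair x0 x1) ((run_compat s0 d0 s1 d1 (decide (adr x0 = ro _ 0))
      (decide (adr x1 = ro _ 0)) (decide (adr x1 = ones _))).trans (if_pos ?_))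
    simp only [decide_eq_true_eq]
    exact ⟨h, a, b, c, d, Iff.rfl, Iff.rfl, Iff.rfl⟩
  | cb s j a hj b c d =>
    exact zr_run (x := pair x0 x1) ((run_cb s ⟨j, hj⟩).trans (if_pos ⟨⟨c, d⟩, a, b⟩))
  | leq a b => exact zr_run (x := pair x0 x1) (run_leq.trans (if_pos ⟨a, b⟩))
  | act0 h => exact zr_act (pair x0 x1) false h
  | act1 h => exact zr_act (pair x0 x1) true h

end Crest.Agent.R176.M
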