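import Crest.Agent.R176.Mach

/-!
# 176-R, part A: macro semantics of the bit-serial interpreter
-/

set_option autoImplicit false

namespace Crest.Agent.R176.M.RA

/-- The carry before step `j`. -/
def car (I : Ins) (A B : ℕ → Bool) (n : ℕ) : ℕ → Bool
  | 0 => I.c0
  | j + 1 => (I.δ (car I A B n j) (A j) (B j) (I.tr.isSome && n.testBit j)).1

/-- The output of step `j`. -/
def outp (I : Ins) (A B : ℕ → Bool) (n j : ℕ) : Bool × Bool × Bool :=
  I.δ (car I A B n j) (A j) (B j) (I.tr.isSome && n.testBit j)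

theorem car_succ (I : Ins) (A B : ℕ → Bool) (n j : ℕ) :
    car I A B n (j + 1) = (outp I A B n j).1 := by rw [car, outp]

section
variable {W : ℕ}

def rdA (I : Ins) (x : Bool → Let W) : ℕ → Bool := bit (x I.β I.rd)
def rdB (I : Ins) (x : Bool → Let W) : ℕ → Bool := bit (x I.β' I.wr)

def newB (I : Ins) (n : ℕ) (x : Bool → Let W) : Reg W :=
  fun j => (outp I (rdA I x) (rdB I x) n j).2.1

def newP (V : ℕ) (I : Ins) (n : ℕ) (x : Bool → Let W) : Reg V :=
  fun i => I.tr.isSome && (outp I (rdA I x) (rdB I x) n i).2.2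

def parB (I : Ins) (n : ℕ) (x : Bool → Let W) (j : ℕ) : Reg W :=
  fun k => if (k : ℕ) < j then newB I n x k else x I.β' I.wr k

def parP (V : ℕ) (I : Ins) (n : ℕ) (x : Bool → Let W) (j : ℕ) : Reg V :=
  fun i => decide ((i : ℕ) < j) && newP V I n x i

theorem putR_read (x : Bool → Let W) (β' : Bool) (τ' : Option Tr) (r : Reg W) (β : Bool)
    (τ : Option Tr) (k : Fin W) (h : r k = x β' τ' k) : putR x β' τ' r β τ k = x β τ k := by
  unfold putR
  split_ifs
  · rfl
  · by_cases h1 : β = β'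
    · subst h1
      by_cases h2 : τ = τ'
      · subst h2; simp [h]
      · simp [Function.update_of_ne h2]
    · simp [Function.update_of_ne h1]

theorem putR_putR (x : Bool → Let W) (β : Bool) (τ : Option Tr) (r : Reg W) (k : Fin W)
    (b : Bool) :
    putR (putR x β τ r) β τ (Function.update (putR x β τ r β τ) k b) =
      putR x β τ (Function.update r k b) := by
  unfold putR
  split_ifs
  · rfl
  · simp

theorem putR_self (x : Bool → Let W) (β : Bool) (τ : Option Tr) : putR x β τ (x β τ) = x := by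
  unfold putR
  split_ifs
  · rfl
  · simp

theorem parB_zero (I : Ins) (n : ℕ) (x : Bool → Let W) : parB I n x 0 = x I.β' I.wr := by
  funext k; simp [parB]

theorem parB_full (I : Ins) (n : ℕ) (x : Bool → Let W) : parB I n x W = newB I n x := by
  funext k; simp [parB]

theorem parB_succ (I : Ins) (n : ℕ) (x : Bool → Let W) (j : ℕ) (hj : j < W) :
    Function.update (parB I n x j) ⟨j, hj⟩ (outp I (rdA I x) (rdB I x) n j).2.1 =
      parB I n x (j + 1) := by
  funext k
  by_cases h : k = ⟨j, hj⟩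
  · subst h; simp [parB, newB]
  · rw [Function.update_of_ne h]
    have : (k : ℕ) ≠ j := fun hh => h (Fin.ext hh)
    have h2 : ((k : ℕ) < j + 1) ↔ ((k : ℕ) < j) := by omega
    simp [parB, h2]

theorem parP_zero (V : ℕ) (I : Ins) (n : ℕ) (x : Bool → Let W) : parP V I n x 0 = ro V 0 := by
  funext i; simp [parP, ro]

theorem parP_full (V : ℕ) (I : Ins) (n : ℕ) (x : Bool → Let W) :
    parP V I n x (2 ^ V) = newP V I n x := by
  funext i
  have : (i : ℕ) < 2 ^ V := i.2.trans Nat.lt_two_pow_self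
  simp [parP, this]

theorem parP_succ (V : ℕ) (I : Ins) (n : ℕ) (x : Bool → Let W) (j : ℕ) :
    (if (I.tr.isSome && (outp I (rdA I x) (rdB I x) n j).2.2) = true then
      orr (parP V I n x j) (ro V (2 ^ j)) else parP V I n x j) = parP V I n x (j + 1) := by
  funext i
  by_cases h : (i : ℕ) = j
  · have h1 : newP V I n x i = (I.tr.isSome && (outp I (rdA I x) (rdB I x) n j).2.2) := by
      simp [newP, h]
    split_ifs with h2
    · simp [orr, parP, ro, h, h1, h2]
    · simp only [Bool.not_eq_true] at h2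
      simp [parP, h, h1, h2]
  · have h2 : ((i : ℕ) < j + 1) ↔ ((i : ℕ) < j) := by omega
    have h3 : (2 ^ j).testBit i = false := by
      rw [Nat.testBit_two_pow]; simp; omega
    split_ifs <;> simp [orr, parP, ro, h2, h3]

end

theorem idx_ro {V j : ℕ} (hj : j < 2 ^ V) : idx (ro V j) = ⟨j, hj⟩ :=
  Fin.ext (rv_ro_of_lt hj)

theorem ex_mask {V n : ℕ} (hn : n < 2 ^ V) (j : ℕ) :
    (∃ i, ro V n i = true ∧ ro V (2 ^ j) i = true) ↔ n.testBit j = true := by
  constructor
  · rintro ⟨i, h1, h2⟩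
    simp only [ro, Nat.testBit_two_pow, decide_eq_true_eq] at h1 h2
    rwa [h2]
  · intro h
    have hj : j < V := by
      by_contra hh
      have : n < 2 ^ j := hn.trans_le (Nat.pow_le_pow_right (by norm_num) (by omega))
      rw [Nat.testBit_lt_two_pow this] at h
      exact absurd h (by simp)
    exact ⟨⟨j, hj⟩, h, by simp [ro]⟩

theorem ro_eq_ones {V j : ℕ} (hj : j < 2 ^ V) : ro V j = ones V ↔ j + 1 = 2 ^ V := by
  rw [ones_eq]
  constructor
  · intro h
    have := ro_inj hj (by omega) h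
    omega
  · intro h
    rw [show j = 2 ^ V - 1 by omega]

theorem shl_ro (V v : ℕ) : shl (ro V v) = ro V (2 * v) := by
  rw [shl, rv_ro, ro_eq_iff]; simp

variable {V : ℕ} [Fact (E ≤ V)]

/-- The result of an instruction, given the continuation. -/
def fin (o : Out) (k : Option (Bool → Let (2 ^ V))) (y : Bool → Let (2 ^ V)) :
    Option (Bool → Let (2 ^ V)) :=
  match o with
  | .cont => k
  | .abort => some y
  | .zero => none

theorem loop (I : Ins) (pc : Reg V) {n : ℕ} (hn : n < 2 ^ V) (x : Bool → Let (2 ^ V)) (d : ℕ) :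
    ∀ j, j + d + 1 = 2 ^ V →
      res ⟨.S1 I (car I (rdA I x) (rdB I x) n j),
          ⟨pc, ro V n, ro V j, ro V (2 ^ j), parP V I n x j⟩, putR x I.β' I.wr (parB I n x j)⟩ =
        fin (I.out (car I (rdA I x) (rdB I x) n (2 ^ V)))
          (res ⟨.F, ⟨inc pc, ro V n, ro V (2 ^ V), ro V (2 ^ (2 ^ V)), newP V I n x⟩,
            putR x I.β' I.wr (newB I n x)⟩) (putR x I.β' I.wr (newB I n x)) := by
  have key : ∀ j (hj : j < 2 ^ V),
      res ⟨.S1 I (car I (rdA I x) (rdB I x) n j),
          ⟨pc, ro V n, ro V j, ro V (2 ^ j), parP V I n x j⟩, putR x I.β' I.wr (parB I n x j)⟩ =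
      res ⟨.S2 I (car I (rdA I x) (rdB I x) n j) (rdA I x j),
          ⟨pc, ro V n, ro V j, ro V (2 ^ j), parP V I n x j⟩, putR x I.β' I.wr (parB I n x j)⟩ := by
    intro j hj
    apply res_step
    simp only [mstep, idx_ro hj]
    rw [putR_read _ _ _ _ _ _ _ (by simp [parB]), rdA, bit_lt _ hj]
  have key2 : ∀ j (hj : j < 2 ^ V),
      mstep ⟨.S2 I (car I (rdA I x) (rdB I x) n j) (rdA I x j),
          ⟨pc, ro V n, ro V j, ro V (2 ^ j), parP V I n x j⟩, putR x I.β' I.wr (parB I n x j)⟩ =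
      if j + 1 = 2 ^ V ∧ I.out (car I (rdA I x) (rdB I x) n (j + 1)) = .zero then .inr none else
        .inl ⟨if j + 1 = 2 ^ V then
            (if I.out (car I (rdA I x) (rdB I x) n (j + 1)) = .cont then .F else .rel)
            else .S1 I (car I (rdA I x) (rdB I x) n (j + 1)),
          ⟨if j + 1 = 2 ^ V ∧ I.out (car I (rdA I x) (rdB I x) n (j + 1)) = .cont then inc pc
            else pc, ro V n, ro V (j + 1), ro V (2 ^ (j + 1)), parP V I n x (j + 1)⟩,
          putR x I.β' I.wr (parB I n x (j + 1))⟩ := by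
    intro j hj
    simp only [mstep, idx_ro hj, fin2, fin2b, ex_mask hn, ro_eq_ones hj]
    rw [putR_read _ _ _ _ _ _ _ (by simp [parB])]
    have hB : x I.β' I.wr ⟨j, hj⟩ = rdB I x j := (bit_lt _ hj).symm
    have ho : I.δ (car I (rdA I x) (rdB I x) n j) (rdA I x j) (rdB I x j)
      (I.tr.isSome && n.testBit j) = outp I (rdA I x) (rdB I x) n j := rfl
    simp only [hB, Bool.decide_eq_true, decide_eq_true_eq, ho, car_succ]
    by_cases h1 : j + 1 = 2 ^ V ∧ I.out (outp I (rdA I x) (rdB I x) n j).1 = .zero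
    · simp only [if_pos h1, Option.map_none]
    · simp only [if_neg h1, Option.map_some, putR_putR, parB_succ, parP_succ, inc_ro, shl_ro]
      simp only [Bool.and_eq_true, decide_eq_true_eq, pow_succ']
  induction d with
  | zero =>
    intro j hj
    have hj' : j < 2 ^ V := by omega
    have h1 : j + 1 = 2 ^ V := by omega
    rw [key j hj']
    have h2 := key2 j hj'
    simp only [h1, true_and, if_true, parB_full, parP_full] at h2
    cases ho : I.out (car I (rdA I x) (rdB I x) n (2 ^ V)) with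
    | cont =>
      simp only [ho, reduceCtorEq, if_false, if_true] at h2
      rw [res_step h2]; rfl
    | abort =>
      simp only [ho, reduceCtorEq, if_false] at h2
      rw [res_step h2, res_stop (r := some (putR x I.β' I.wr (newB I n x))) rfl]; rfl
    | zero =>
      simp only [ho, if_true] at h2
      rw [res_stop h2]; rfl
  | succ d ih =>
    intro j hj
    have hj' : j < 2 ^ V := by omega
    have h1 : ¬ j + 1 = 2 ^ V := by omega
    rw [key j hj']
    have h2 := key2 j hj'
    simp only [h1, false_and, if_false] at h2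
    rw [res_step h2, ih (j + 1) (by omega)]

/-- Macro semantics of programs. -/
noncomputable def mrun (V : ℕ) : Prog → ℕ → (Bool → Let (2 ^ V)) → Option (Bool → Let (2 ^ V))
  | [], _, x => some x
  | (I, n) :: l, P, x =>
    fin (I.out (car I (rdA I x) (rdB I x) (immv I.src (n % 2 ^ E) P) (2 ^ V)))
      (mrun V l (rv (newP V I (immv I.src (n % 2 ^ E) P) x))
        (putR x I.β' I.wr (newB I (immv I.src (n % 2 ^ E) P) x)))
      (putR x I.β' I.wr (newB I (immv I.src (n % 2 ^ E) P) x))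

theorem lt_E {n : ℕ} (h : n ≤ E) : n < 2 ^ E := h.trans_lt Nat.lt_two_pow_self

theorem enc_ins_lt (I : Ins) : enc I < 2 ^ E :=
  lt_E ((enc_lt I).le.trans (by unfold E; omega))
theorem enc_stat_lt (s : Stat) : enc s < 2 ^ E :=
  lt_E ((enc_lt s).le.trans (by unfold E; omega))
theorem enc_dyn_lt (d : Dyn) : enc d < 2 ^ E :=
  lt_E ((enc_lt d).le.trans (by unfold E; omega))
theorem card_stat_lt : Nat.card Stat < 2 ^ E := lt_E (by unfold E; omega)
theorem card_dyn_lt : Nat.card Dyn < 2 ^ E := lt_E (by unfold E; omega)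

theorem immv_lt (s : Src) (n P : ℕ) : immv s (n % 2 ^ E) P < 2 ^ E := by
  cases s
  · exact Nat.mod_lt _ (Nat.two_pow_pos _)
  · exact enc_ins_lt _
  · exact Nat.mod_lt _ (Nat.two_pow_pos _)

theorem E_le_V : 2 ^ E ≤ 2 ^ V := Nat.pow_le_pow_right (by norm_num) Fact.out

theorem res_F (H : Hd V) (x : Bool → Let (2 ^ V)) :
    res ⟨.F, H, x⟩ =
      fin ((fetch (rv H.pc)).1.out (car (fetch (rv H.pc)).1 (rdA (fetch (rv H.pc)).1 x)
          (rdB (fetch (rv H.pc)).1 x)
          (immv (fetch (rv H.pc)).1.src ((fetch (rv H.pc)).2 % 2 ^ E) (rv H.pp)) (2 ^ V)))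
        (res ⟨.F, ⟨inc H.pc, ro V (immv (fetch (rv H.pc)).1.src
            ((fetch (rv H.pc)).2 % 2 ^ E) (rv H.pp)), ro V (2 ^ V), ro V (2 ^ (2 ^ V)),
            newP V (fetch (rv H.pc)).1
              (immv (fetch (rv H.pc)).1.src ((fetch (rv H.pc)).2 % 2 ^ E) (rv H.pp)) x⟩,
          putR x (fetch (rv H.pc)).1.β' (fetch (rv H.pc)).1.wr (newB (fetch (rv H.pc)).1
            (immv (fetch (rv H.pc)).1.src ((fetch (rv H.pc)).2 % 2 ^ E) (rv H.pp)) x)⟩)
        (putR x (fetch (rv H.pc)).1.β' (fetch (rv H.pc)).1.wr (newB (fetch (rv H.pc)).1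
            (immv (fetch (rv H.pc)).1.src ((fetch (rv H.pc)).2 % 2 ^ E) (rv H.pp)) x)) := by
  have h := loop (fetch (rv H.pc)).1 H.pc
    ((immv_lt (fetch (rv H.pc)).1.src (fetch (rv H.pc)).2 (rv H.pp)).trans_le (E_le_V (V := V)))
    x (2 ^ V - 1) 0 (by have := Nat.two_pow_pos V; omega)
  rw [← h, parB_zero, parP_zero, putR_self]
  exact res_step rfl

theorem res_eq_mrun (l : Prog) : ∀ (H : Hd V) (x : Bool → Let (2 ^ V)),
    (prog (rv H.pc % 2 ^ E / 64)).drop (rv H.pc % 64) = l →
      res ⟨.F, H, x⟩ = mrun V l (rv H.pp) x := by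
  induction l with
  | nil =>
    intro H x h
    have h1 : fetch (rv H.pc) = (END, 0) := by
      have : (prog (rv H.pc % 2 ^ E / 64))[rv H.pc % 64]? = none := by
        rw [List.getElem?_eq_none_iff]; exact List.drop_eq_nil_iff.1 h
      simp [fetch, this]
    rw [res_F, h1]
    simp [END, tB, fin, mrun, putR, Ins.wr]
  | cons a l ih =>
    intro H x h
    obtain ⟨I, n⟩ := a
    have hlt : rv H.pc % 64 < (prog (rv H.pc % 2 ^ E / 64)).length := by
      by_contra hh
      rw [List.drop_eq_nil_iff.2 (by omega)] at h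
      exact absurd h (by simp)
    have h1 : fetch (rv H.pc) = (I, n) := by
      have : (prog (rv H.pc % 2 ^ E / 64))[rv H.pc % 64]? = some (I, n) := by
        have h2 := congrArg (fun l => l[0]?) h
        simpa using h2
      simp [fetch, this]
    rw [res_F, h1, mrun]
    congr 1
    apply ih
    have hlen := prog_len (rv H.pc % 2 ^ E / 64)
    have h64 : 64 ∣ 2 ^ E := (pow_dvd_pow 2 six_le_E : 2 ^ 6 ∣ 2 ^ E)
    have h64' : 64 ∣ 2 ^ V := (pow_dvd_pow 2 (six_le_E.trans Fact.out) : 2 ^ 6 ∣ 2 ^ V)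
    have hpc := rv_lt H.pc
    have h3 : rv (inc H.pc) = rv H.pc + 1 := by
      rw [rv_inc, Nat.mod_eq_of_lt]; omega
    have h4 : (rv H.pc + 1) % 2 ^ E / 64 = rv H.pc % 2 ^ E / 64 := by
      have h5 := Nat.mod_mod_of_dvd (rv H.pc) h64
      have h6 := Nat.mod_lt (rv H.pc) (Nat.two_pow_pos E)
      have h7 : (rv H.pc + 1) % 2 ^ E = rv H.pc % 2 ^ E + 1 := by
        rw [Nat.add_mod, Nat.mod_eq_of_lt (a := 1) (by omega), Nat.mod_eq_of_lt]; omega
      omega
    have h8 : (rv H.pc + 1) % 64 = rv H.pc % 64 + 1 := by omega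
    simp only [h3, h4, h8]
    rw [← List.drop_drop, h]; rfl

theorem prog_enc (i : Idx) : prog (enc i) = sch i := by
  have h := enc_lt i
  unfold prog
  rw [dif_pos h]
  congr 1
  simp [enc]

theorem rho_iff (x0 x1 : Let (2 ^ V)) (r : Option (Let (2 ^ V) × Let (2 ^ V))) :
    rho V x0 x1 r → (∃ i, r = (mrun V (sch i) 0 (pair x0 x1)).map fun y => (y false, y true)) ∨
      r = some (x0, x1) := by
  rintro ⟨H, h1, h2, rfl⟩
  rw [res_eq_mrun _ H _ rfl, h1, h2, List.drop_zero, rv_ro_of_lt (Nat.two_pow_pos V)]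
  unfold prog
  split_ifs
  · exact Or.inl ⟨_, rfl⟩
  · exact Or.inr rfl

theorem rho_sch (x0 x1 : Let (2 ^ V)) (i : Idx) :
    rho V x0 x1 ((mrun V (sch i) 0 (pair x0 x1)).map fun y => (y false, y true)) := by
  have h0 : 64 * enc i < 2 ^ E := by
    have h1 := enc_lt i
    have h2 : Nat.card Idx < 2 ^ Nat.card Idx := Nat.lt_two_pow_self
    have h3 : 2 ^ (6 + Nat.card Idx) ≤ 2 ^ E :=
      Nat.pow_le_pow_right (by norm_num) (by unfold E; omega)
    rw [pow_add] at h3
    omega
  have h4 : rv (ro V (64 * enc i)) = 64 * enc i := rv_ro_of_lt (h0.trans_le E_le_V)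
  refine ⟨⟨ro V (64 * enc i), ro V 0, ro V 0, ro V 0, ro V 0⟩, by simp [h4], rfl, ?_⟩
  rw [res_eq_mrun _ _ _ rfl]
  simp only [h4, Nat.mod_eq_of_lt h0, rv_ro_of_lt (Nat.two_pow_pos V)]
  rw [Nat.mul_div_cancel_left _ (by norm_num), Nat.mul_mod_right, List.drop_zero, prog_enc]

end Crest.Agent.R176.M.RA
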