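import Crest.Agent.R176.RuleA

/-!
# 176-R, part B: the macro semantics of each instruction
-/

set_option autoImplicit false

open Function

namespace Crest.Agent.R176.M.RA

theorem putR_d {W : ℕ} (x : Bool → Let W) (β : Bool) (t : DT) (r : Reg W) :
    putR x β (some (.d t)) r = update x β (update (x β) (some (.d t)) r) := by
  simp [putR]

theorem putR_none {W : ℕ} (x : Bool → Let W) (β : Bool) (r : Reg W) :
    putR x β none r = update x β (update (x β) none r) := by
  simp [putR]

theorem rv_false (V : ℕ) : rv (fun _ : Fin V => false) = 0 := by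
  have : (fun _ : Fin V => false) = ro V 0 := by funext i; simp [ro]
  rw [this, rv_ro_of_lt (Nat.two_pow_pos V)]

theorem fin_want {V : ℕ} (w c : Bool) (k : Option (Bool → Let (2 ^ V))) (y : Bool → Let (2 ^ V)) :
    fin (want w c) k y = if c = w then k else some y := by
  unfold want; split_ifs <;> rfl

/-! ### Tests -/

theorem car_and (I : Ins) (A B : ℕ → Bool) (n : ℕ) (f : ℕ → Bool) (h0 : I.c0 = true)
    (h : ∀ c j, (I.δ c (A j) (B j) (I.tr.isSome && n.testBit j)).1 = (c && f j)) (j : ℕ) :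
    car I A B n j = decide (∀ i < j, f i = true) := by
  induction j with
  | zero => simp [car, h0]
  | succ j ih =>
    rw [car, h, ih]
    simp only [Nat.forall_lt_succ_right, Bool.decide_and, Bool.decide_eq_true]

variable {V : ℕ}

theorem mrun_tB (f : Bool → Bool → Bool → Bool) (β : Bool) (τ : Tr) (β' : Bool) (τ' : Tr)
    (o : Bool → Out) (n : ℕ) (l : Prog) (P : ℕ) (x : Bool → Let (2 ^ V)) :
    mrun V ((tB f β τ β' τ' o, n) :: l) P x =
      fin (o (decide (∀ j : Fin (2 ^ V),
        f (x β (some τ) j) (x β' (some τ') j) ((n % 2 ^ E).testBit j) = true))) (mrun V l 0 x) x := by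
  have h1 : newB (tB f β τ β' τ' o) (n % 2 ^ E) x = x β' (some τ') := by
    funext j; simp [newB, outp, tB, rdB, Ins.wr]
  have h2 : newP V (tB f β τ β' τ' o) (n % 2 ^ E) x = fun _ => false := by
    funext j; simp [newP, outp, tB]
  have h3 : (tB f β τ β' τ' o).wr = some τ' := rfl
  have h4 : (tB f β τ β' τ' o).β' = β' := rfl
  have h5 : immv (tB f β τ β' τ' o).src (n % 2 ^ E) P = n % 2 ^ E := rfl
  rw [mrun, h5, h1, h2, h3, h4, putR_self, rv_false,
    car_and _ _ _ _ (fun j => f (bit (x β (some τ)) j) (bit (x β' (some τ')) j)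
      ((n % 2 ^ E).testBit j)) rfl (fun c j => rfl)]
  have h6 : (tB f β τ β' τ' o).out = o := rfl
  rw [h6]
  congr 2
  apply decide_eq_decide.2
  constructor
  · intro h j; simpa using h j j.2
  · intro h j hj; simpa [bit_lt _ hj] using h ⟨j, hj⟩

theorem mrun_test (f : Bool → Bool → Bool → Bool) (β : Bool) (τ : Tr) (β' : Bool) (τ' : Tr)
    (w : Bool) (n : ℕ) (l : Prog) (P : ℕ) (x : Bool → Let (2 ^ V)) (Q : Prop)
    [Decidable (Q ↔ w = true)] (hQ : (∀ j : Fin (2 ^ V),
        f (x β (some τ) j) (x β' (some τ') j) ((n % 2 ^ E).testBit j) = true) ↔ Q) :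
    mrun V ((tB f β τ β' τ' (want w), n) :: l) P x =
      if (Q ↔ w = true) then mrun V l 0 x else some x := by
  rw [mrun_tB, fin_want]
  refine if_congr ?_ rfl rfl
  rw [← hQ]
  cases w <;> simp

theorem mrun_iZero (l : Prog) (P : ℕ) (x : Bool → Let (2 ^ V)) :
    mrun V (iZero :: l) P x = none := by
  rw [iZero, mrun_tB]; rfl

open Classical in
theorem mrun_iEq (β : Bool) (τ : Tr) {n : ℕ} (hn : n < 2 ^ E) (w : Bool) (l : Prog) (P : ℕ)
    (x : Bool → Let (2 ^ V)) :
    mrun V (iEq β τ n w :: l) P x =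
      if (x β (some τ) = ro _ n ↔ w = true) then mrun V l 0 x else some x := by
  rw [iEq]
  apply mrun_test
  simp [Nat.mod_eq_of_lt hn, funext_iff, ro]

open Classical in
theorem mrun_iEqR (β : Bool) (τ : Tr) (β' : Bool) (τ' : Tr) (w : Bool) (l : Prog) (P : ℕ)
    (x : Bool → Let (2 ^ V)) :
    mrun V (iEqR β τ β' τ' w :: l) P x =
      if (x β (some τ) = x β' (some τ') ↔ w = true) then mrun V l 0 x else some x := by
  rw [iEqR]
  apply mrun_test
  simp [funext_iff]

open Classical in
theorem mrun_iOnes (β : Bool) (τ : Tr) (w : Bool) (l : Prog) (P : ℕ) (x : Bool → Let (2 ^ V)) :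
    mrun V (iOnes β τ w :: l) P x =
      if (x β (some τ) = ones _ ↔ w = true) then mrun V l 0 x else some x := by
  rw [iOnes]
  apply mrun_test
  simp [funext_iff, ones]

open Classical in
theorem mrun_iAnd (β : Bool) (w : Bool) (l : Prog) (P : ℕ) (x : Bool → Let (2 ^ V)) :
    mrun V (iAnd β w :: l) P x =
      if ((∃ i, x β (some (.d .imm)) i = true ∧ x β (some (.d .mask)) i = true) ↔ w = true) then
        mrun V l 0 x else some x := by
  rw [iAnd, mrun_test _ _ _ _ _ _ _ _ _ _
    (¬ ∃ i, x β (some (.d .imm)) i = true ∧ x β (some (.d .mask)) i = true) (by simp; grind)]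
  refine if_congr ?_ rfl rfl
  cases w <;> simp

theorem low_iff {W : ℕ} (r : Reg W) :
    (∀ j : Fin W, (!(r j && (63 : ℕ).testBit j)) = true) ↔ rv r % 64 = 0 := by
  have h63 : ∀ j, (63 : ℕ).testBit j = decide (j < 6) := fun j =>
    Nat.testBit_two_pow_sub_one 6 j
  have h1 : rv r % 64 = 0 ↔ ∀ j, j < 6 → bit r j = false := by
    constructor
    · intro h j hj
      have := Nat.testBit_mod_two_pow (rv r) 6 j
      rw [show 2 ^ 6 = 64 from rfl, h] at this
      simpa [hj, bit] using this
    · intro h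
      apply Nat.zero_of_testBit_eq_false
      intro j
      rw [show 64 = 2 ^ 6 from rfl, Nat.testBit_mod_two_pow]
      by_cases hj : j < 6
      · simpa [hj, bit] using h j hj
      · simp [hj]
  rw [h1]
  simp only [h63]
  constructor
  · intro h j hj
    by_cases hW : j < W
    · have := h ⟨j, hW⟩
      simpa [hj, bit_lt _ hW] using this
    · exact bit_ge _ (by omega)
  · intro h j
    by_cases hj : (j : ℕ) < 6
    · have := h j hj
      simpa [hj] using this
    · simp [hj]

theorem lt63 : 63 < 2 ^ E := by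
  have : 2 ^ 6 ≤ 2 ^ E := Nat.pow_le_pow_right (by norm_num) six_le_E
  omega

open Classical in
theorem mrun_iLow (l : Prog) (P : ℕ) (x : Bool → Let (2 ^ V)) :
    mrun V (iLow :: l) P x =
      if rv (x false (some (.d .pc))) % 64 = 0 then mrun V l 0 x else some x := by
  rw [iLow, mrun_test _ _ _ _ _ _ _ _ _ _ (rv (x false (some (.d .pc))) % 64 = 0)
    (by rw [Nat.mod_eq_of_lt lt63]; exact low_iff _)]
  simp

/-! ### Writes -/

theorem mrun_wB (f : Bool → Bool → Bool → Bool) (β : Bool) (τ : Tr) (β' : Bool) (t : DT) (s : Src)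
    (n : ℕ) (l : Prog) (P : ℕ) (x : Bool → Let (2 ^ V)) :
    mrun V ((wB f β τ β' t s, n) :: l) P x =
      mrun V l 0 (update x β' (update (x β') (some (.d t)) fun j =>
        f (x β (some τ) j) (x β' (some (.d t)) j) ((immv s (n % 2 ^ E) P).testBit j))) := by
  have h1 : newB (wB f β τ β' t s) (immv s (n % 2 ^ E) P) x = fun j =>
      f (x β (some τ) j) (x β' (some (.d t)) j) ((immv s (n % 2 ^ E) P).testBit j) := by
    funext j; simp [newB, outp, wB, rdA, rdB, Ins.wr, Ins.rd]
  have h2 : newP V (wB f β τ β' t s) (immv s (n % 2 ^ E) P) x = fun _ => false := by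
    funext j; simp [newP, outp, wB]
  have h3 : (wB f β τ β' t s).wr = some (.d t) := rfl
  have h4 : (wB f β τ β' t s).β' = β' := rfl
  have h5 : (wB f β τ β' t s).src = s := rfl
  rw [mrun, h5, h1, h2, h3, h4, putR_d, rv_false]
  rfl

theorem mrun_iSet (β : Bool) (t : DT) {n : ℕ} (hn : n < 2 ^ E) (l : Prog) (P : ℕ)
    (x : Bool → Let (2 ^ V)) :
    mrun V (iSet β t n :: l) P x =
      mrun V l 0 (update x β (update (x β) (some (.d t)) (ro _ n))) := by
  rw [iSet, mrun_wB, Nat.mod_eq_of_lt hn]; rfl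

theorem mrun_iSt0 (β : Bool) (t : DT) (l : Prog) (P : ℕ) (x : Bool → Let (2 ^ V)) :
    mrun V (iSt β t .t0 :: l) P x =
      mrun V l 0 (update x β (update (x β) (some (.d t)) (ro _ (T0 P)))) := by
  rw [iSt, mrun_wB]; rfl

theorem mrun_iSt1 (β : Bool) (t : DT) (l : Prog) (P : ℕ) (x : Bool → Let (2 ^ V)) :
    mrun V (iSt β t .t1 :: l) P x =
      mrun V l 0 (update x β (update (x β) (some (.d t)) (ro _ (T1 P)))) := by
  rw [iSt, mrun_wB]; rfl

theorem mrun_iCp (β : Bool) (τ : Tr) (β' : Bool) (t : DT) (l : Prog) (P : ℕ)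
    (x : Bool → Let (2 ^ V)) :
    mrun V (iCp β τ β' t :: l) P x =
      mrun V l 0 (update x β' (update (x β') (some (.d t)) (x β (some τ)))) := by
  rw [iCp, mrun_wB]

theorem mrun_iOr (β : Bool) (l : Prog) (P : ℕ) (x : Bool → Let (2 ^ V)) :
    mrun V (iOr β :: l) P x =
      mrun V l 0 (update x β (update (x β) (some (.d .pp))
        (orr (x β (some (.d .pp))) (x β (some (.d .mask)))))) := by
  rw [iOr, mrun_wB]; rfl

theorem testBit_succ' (j : ℕ) : ∀ n : ℕ,
    (n + 1).testBit j = xor (n.testBit j) (decide (∀ i < j, n.testBit i = true)) := by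
  induction j with
  | zero =>
    intro n
    simp only [Nat.testBit_zero, Nat.not_lt_zero, false_imp_iff, implies_true, decide_true,
      Bool.xor_true]
    rcases Nat.mod_two_eq_zero_or_one n with h | h <;> simp [Nat.add_mod, h]
  | succ j ih =>
    intro n
    simp only [Nat.testBit_add_one, Nat.forall_lt_succ_left, Nat.testBit_zero]
    rcases Nat.mod_two_eq_zero_or_one n with h | h
    · rw [show (n + 1) / 2 = n / 2 by omega]; simp [h]
    · rw [show (n + 1) / 2 = n / 2 + 1 by omega, ih]; simp [h]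

theorem mrun_iInc (β : Bool) (t : DT) (l : Prog) (P : ℕ) (x : Bool → Let (2 ^ V)) :
    mrun V (iInc β t :: l) P x =
      mrun V l 0 (update x β (update (x β) (some (.d t)) (inc (x β (some (.d t)))))) := by
  have h1 : ∀ m, newB (iInc β t).1 m x = inc (x β (some (.d t))) := by
    intro m
    funext j
    rw [newB, outp, car_and _ _ _ _ (bit (x β (some (.d t)))) rfl (fun c j => rfl)]
    simp only [inc, ro, testBit_succ']
    rfl
  have h2 : ∀ m, newP V (iInc β t).1 m x = fun _ => false := by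
    intro m; funext j; simp [newP, outp, iInc]
  change mrun V (((iInc β t).1, 0) :: l) P x = _
  rw [mrun, h1, h2, rv_false, ← putR_d]
  rfl

theorem mrun_iShl (β : Bool) (t : DT) (l : Prog) (P : ℕ) (x : Bool → Let (2 ^ V)) :
    mrun V (iShl β t :: l) P x =
      mrun V l 0 (update x β (update (x β) (some (.d t)) (shl (x β (some (.d t)))))) := by
  have h1 : ∀ m, newB (iShl β t).1 m x = shl (x β (some (.d t))) := by
    intro m
    funext j
    obtain ⟨j, hj⟩ := j
    rw [newB, outp]
    cases j with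
    | zero => simp [iShl, car, shl, ro]
    | succ j =>
      simp only [shl, ro, Nat.testBit_add_one]
      rw [Nat.mul_div_cancel_left _ (by norm_num)]
      rfl
  have h2 : ∀ m, newP V (iShl β t).1 m x = fun _ => false := by
    intro m; funext j; simp [newP, outp, iShl]
  change mrun V (((iShl β t).1, 0) :: l) P x = _
  rw [mrun, h1, h2, rv_false, ← putR_d]
  rfl

theorem mrun_iLd (β : Bool) (t : DT) (l : Prog) (P : ℕ) (x : Bool → Let (2 ^ V)) :
    mrun V (iLd β t :: l) P x = mrun V l (rv (x β (some (.d t))) % 2 ^ V) x := by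
  have h1 : ∀ m, newB (iLd β t).1 m x = x β (some (.d t)) := by
    intro m; funext j; simp [newB, outp, iLd, rdB, Ins.wr]
  have h2 : ∀ m, newP V (iLd β t).1 m x = ro V (rv (x β (some (.d t)))) := by
    intro m; funext j; simp [newP, outp, iLd, rdB, Ins.wr, ro, bit]
  change mrun V (((iLd β t).1, 0) :: l) P x = _
  rw [mrun, h1, h2, rv_ro]
  have : putR x (iLd β t).1.β' (iLd β t).1.wr (x β (some (.d t))) = x := putR_self x β _
  rw [this]
  rfl

theorem car_ge (β : Bool) (τ : Tr) (n : ℕ) (A : ℕ → Bool) (b m j : ℕ) :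
    car (iGe β τ n).1 A b.testBit m j = decide (b % 2 ^ j < m % 2 ^ j) := by
  induction j with
  | zero => simp [car, iGe, Nat.mod_one]
  | succ j ih =>
    rw [car, ih]
    simp only [iGe, Option.isSome_some, Bool.true_and]
    rw [Nat.mod_pow_succ, Nat.mod_pow_succ, Nat.testBit_eq_decide_div_mod_eq,
      Nat.testBit_eq_decide_div_mod_eq]
    have h1 := Nat.mod_lt b (Nat.two_pow_pos j)
    have h2 := Nat.mod_lt m (Nat.two_pow_pos j)
    rcases Nat.mod_two_eq_zero_or_one (b / 2 ^ j) with h | h <;>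
      rcases Nat.mod_two_eq_zero_or_one (m / 2 ^ j) with h' | h' <;> simp [h, h'] <;> omega

theorem mrun_iGe [Fact (E ≤ V)] (β : Bool) (τ : Tr) {n : ℕ} (hn : n < 2 ^ E) (l : Prog) (P : ℕ)
    (x : Bool → Let (2 ^ V)) :
    mrun V (iGe β τ n :: l) P x =
      if n ≤ rv (x β (some τ)) then mrun V l 0 x else some x := by
  have h1 : ∀ m, newB (iGe β τ n).1 m x = x β (some τ) := by
    intro m; funext j; simp [newB, outp, iGe, rdB, Ins.wr]
  have h2 : ∀ m, newP V (iGe β τ n).1 m x = fun _ => false := by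
    intro m; funext j; simp [newP, outp, iGe]
  change mrun V (((iGe β τ n).1, n) :: l) P x = _
  rw [mrun, h1, h2, rv_false]
  have h3 : putR x (iGe β τ n).1.β' (iGe β τ n).1.wr (x β (some τ)) = x := putR_self x β _
  have h4 : rdB (iGe β τ n).1 x = (rv (x β (some τ))).testBit := rfl
  have h5 : immv (iGe β τ n).1.src (n % 2 ^ E) P = n := Nat.mod_eq_of_lt hn
  have h6 : (iGe β τ n).1.out = want false := rfl
  have h7 : n < 2 ^ 2 ^ V := hn.trans_le (E_le_V (V := 2 ^ V))
  rw [h3, h4, h5, car_ge, h6, fin_want, Nat.mod_eq_of_lt (rv_lt _), Nat.mod_eq_of_lt h7]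
  simp

theorem mrun_iLx (β : Bool) (l : Prog) (P : ℕ) (x : Bool → Let (2 ^ V)) :
    mrun V (iLx β :: l) P x =
      mrun V l 0 (update x (!β) (update (x (!β)) none
        fun j => xor (x β none j) (x (!β) none j))) := by
  have h1 : ∀ m, newB (iLx β).1 m x = fun j => xor (x β none j) (x (!β) none j) := by
    intro m; funext j; simp [newB, outp, iLx, rdA, rdB, Ins.wr, Ins.rd]
  have h2 : ∀ m, newP V (iLx β).1 m x = fun _ => false := by
    intro m; funext j; simp [newP, iLx]
  change mrun V (((iLx β).1, 0) :: l) P x = _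
  rw [mrun, h1, h2, rv_false, ← putR_none]
  rfl

open Classical in
theorem mrun_iLe (l : Prog) (P : ℕ) (x : Bool → Let (2 ^ V)) :
    mrun V (iLe :: l) P x = if x false none = x true none then mrun V l 0 x else some x := by
  have h1 : ∀ m, newB iLe.1 m x = x true none := by
    intro m; funext j; simp [newB, outp, iLe, rdB, Ins.wr]
  have h2 : ∀ m, newP V iLe.1 m x = fun _ => false := by
    intro m; funext j; simp [newP, iLe]
  change mrun V ((iLe.1, 0) :: l) P x = _
  rw [mrun, h1, h2, rv_false]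
  have h3 : putR x iLe.1.β' iLe.1.wr (x true none) = x := putR_self x true _
  have h6 : iLe.1.out = want true := rfl
  rw [h3, h6, car_and _ _ _ _ (fun j => bit (x false none) j == bit (x true none) j) rfl
    (fun c j => rfl), fin_want]
  refine if_congr ?_ rfl rfl
  simp only [decide_eq_true_eq, beq_iff_eq, funext_iff]
  constructor
  · intro h j; simpa using h j j.2
  · intro h j hj; simpa [bit_lt _ hj] using h ⟨j, hj⟩

open Classical in
theorem mrun_iS (β : Bool) (s : Stat) (l : Prog) (P : ℕ) (x : Bool → Let (2 ^ V)) :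
    mrun V (iS β s :: l) P x = if HS (x β) s then mrun V l 0 x else some x := by
  rw [iS, mrun_iEq _ _ (enc_stat_lt s)]; exact if_congr (by simp [HS]) rfl rfl

open Classical in
theorem mrun_iD (β : Bool) (d : Dyn) (l : Prog) (P : ℕ) (x : Bool → Let (2 ^ V)) :
    mrun V (iD β d :: l) P x = if HD (x β) d then mrun V l 0 x else some x := by
  rw [iD, mrun_iEq _ _ (enc_dyn_lt d)]; exact if_congr (by simp [HD]) rfl rfl

theorem mrun_iW (β : Bool) (d : Dyn) (l : Prog) (P : ℕ) (x : Bool → Let (2 ^ V)) :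
    mrun V (iW β d :: l) P x =
      mrun V l 0 (update x β (update (x β) (some (.d .dyn)) (ro _ (enc d)))) := by
  rw [iW, mrun_iSet _ _ (enc_dyn_lt d)]

theorem mrun_nil (P : ℕ) (x : Bool → Let (2 ^ V)) : mrun V [] P x = some x := by rw [mrun]

theorem fetch_mod [Fact (E ≤ V)] (v : ℕ) : fetch (v % 2 ^ V) = fetch v := by
  have h1 : 2 ^ E ∣ 2 ^ V := pow_dvd_pow 2 Fact.out
  have h2 : 64 ∣ 2 ^ V := (pow_dvd_pow 2 (six_le_E.trans Fact.out) : 2 ^ 6 ∣ 2 ^ V)
  rw [fetch, fetch, Nat.mod_mod_of_dvd _ h1, Nat.mod_mod_of_dvd _ h2]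

theorem T0_mod [Fact (E ≤ V)] (v : ℕ) : T0 (v % 2 ^ V) = T0 v := by rw [T0, fetch_mod, T0]
theorem T1_mod [Fact (E ≤ V)] (v : ℕ) : T1 (v % 2 ^ V) = T1 v := by rw [T1, fetch_mod, T1]

end Crest.Agent.R176.M.RA
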