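import Crest.Agent.R176.RuleB

/-!
# 176-R, part C: the programs
-/

set_option autoImplicit false

open Function

namespace Crest.Agent.R176.M.RA

section
variable {W : ℕ}

theorem keep_refl (x : Let W) : Keep x x := ⟨rfl, rfl, rfl⟩
theorem same_refl (x : Let W) : Same x x := ⟨keep_refl x, rfl, Or.inl rfl⟩
theorem same_opr (x : Let W) (r : Reg W) : Same x (update x (some (.d .opr)) r) := by
  simp [Same, Keep, hd]

/-- The result of a program is one of the rules. -/
def Good (x : Bool → Let W) : Option (Bool → Let W) → Prop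
  | some y => VR (x false) (x true) (y false) (y true)
  | none => VZ (x false) (x true)

theorem good_self (x : Bool → Let W) : Good x (some x) := VR.junk (same_refl _) (same_refl _)

theorem good_same {x : Bool → Let W} {β : Bool} {y : Let W} (h : Same (x β) y) :
    Good x (some (update x β y)) := by
  cases β
  · exact VR.junk (by simpa using h) (by simpa using same_refl _)
  · exact VR.junk (by simpa using same_refl _) (by simpa using h)

theorem good_act {x : Bool → Let W} {β : Bool} {y : Let W} (h : Act (x β) y) :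
    Good x (some (update x β y)) := by
  cases β
  · exact VR.act0 (by simpa using h) (by simp)
  · exact VR.act1 (by simp) (by simpa using h)

theorem good_actZ {x : Bool → Let W} {β : Bool} (h : ActZ (x β)) : Good x none := by
  cases β
  · exact VZ.act0 h
  · exact VZ.act1 h

theorem ex_ro_iff {α : Type} [Finite α] (r : Reg W) (h : Nat.card α ≤ 2 ^ W) :
    (∃ a : α, r = ro W (enc a)) ↔ rv r < Nat.card α := by
  constructor
  · rintro ⟨a, rfl⟩
    rw [rv_ro_of_lt ((enc_lt a).trans_le h)]; exact enc_lt a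
  · intro hr
    obtain ⟨a, ha⟩ := exists_enc hr
    exact ⟨a, by rw [ha, ro_rv]⟩

end

variable {V : ℕ} [Fact (E ≤ V)] {x : Bool → Let (2 ^ V)}

theorem E_lt_W {n : ℕ} (h : n < 2 ^ E) : n < 2 ^ 2 ^ V := h.trans_le (E_le_V (V := 2 ^ V))

theorem small_lt {n : ℕ} (h : n ≤ 63) : n < 2 ^ E := h.trans_lt lt63

open Classical in
theorem run_badS (β : Bool) :
    mrun V (sch (.badS β)) 0 x = if ∃ s, HS (x β) s then some x else none := by
  simp only [sch, mrun_iGe _ _ card_stat_lt, mrun_iZero, HS,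
    ex_ro_iff _ (E_lt_W (V := V) card_stat_lt).le]
  split_ifs <;> first | rfl | omega

open Classical in
theorem run_badD (β : Bool) :
    mrun V (sch (.badD β)) 0 x = if ∃ d, HD (x β) d then some x else none := by
  simp only [sch, mrun_iGe _ _ card_dyn_lt, mrun_iZero, HD,
    ex_ro_iff _ (E_lt_W (V := V) card_dyn_lt).le]
  split_ifs <;> first | rfl | omega

omit [Fact (E ≤ V)] in
open Classical in
theorem run_succ :
    mrun V (sch .succ) 0 x = if adr (x true) = inc (adr (x false)) then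
      some (update x false (update (x false) (some (.d .opr)) (inc (adr (x false))))) else none := by
  simp only [sch, mrun_iCp, mrun_iInc, mrun_iEqR, mrun_iZero, update_self, update_idem]
  simp only [Bool.false_eq_true, iff_false, ne_eq, Bool.true_eq_false, not_false_eq_true,
    update_of_ne, adr]
  by_cases h : x true (some .addr) = inc (x false (some .addr))
  · rw [if_neg (not_not.2 h.symm), if_pos h]
  · rw [if_pos (fun h' => h h'.symm), if_neg h]

omit [Fact (E ≤ V)] in
open Classical in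
theorem run_compat (s0 : Stat) (d0 : Dyn) (s1 : Stat) (d1 : Dyn) (z0 z1 o1 : Bool) :
    mrun V (sch (.compat s0 d0 s1 d1 z0 z1 o1)) 0 x =
      if ¬ Compat s0 d0 s1 d1 (z0 = true) (z1 = true) (o1 = true) ∧ HS (x false) s0 ∧
        HD (x false) d0 ∧ HS (x true) s1 ∧ HD (x true) d1 ∧
        (adr (x false) = ro _ 0 ↔ z0 = true) ∧ (adr (x true) = ro _ 0 ↔ z1 = true) ∧
        (adr (x true) = ones _ ↔ o1 = true) then none else some x := by
  simp only [sch]
  split_ifs with h1 h2 h2
  · exact absurd h1 h2.1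
  · rw [mrun_nil]
  · obtain ⟨-, a, b, c, d, e, f, g⟩ := h2
    simp only [mrun_iS, mrun_iD, mrun_iEq _ _ (Nat.two_pow_pos E), mrun_iOnes, mrun_iZero]
    rw [if_pos a, if_pos b, if_pos c, if_pos d, if_pos e, if_pos f, if_pos g]
  · simp only [mrun_iS, mrun_iD, mrun_iEq _ _ (Nat.two_pow_pos E), mrun_iOnes, mrun_iZero]
    split_ifs with a b c d e f g
    · exact absurd ⟨h1, a, b, c, d, e, f, g⟩ h2
    all_goals rfl

omit [Fact (E ≤ V)] in
open Classical in
theorem run_cb (s : Stat) (j : Fin 10) :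
    mrun V (sch (.cb s j)) 0 x =
      if (s.kind = true ∧ s.sa ≠ (s.c : ℕ).testBit j) ∧ HS (x false) s ∧ adr (x false) = ro _ j
      then none else some x := by
  have hj : (j : ℕ) < 2 ^ E := small_lt (by omega)
  simp only [sch]
  split_ifs with h1 h2 h2
  · obtain ⟨-, a, b⟩ := h2
    simp only [mrun_iS, mrun_iEq _ _ hj, mrun_iZero, iff_true]
    rw [if_pos a, if_pos b]
  · simp only [mrun_iS, mrun_iEq _ _ hj, mrun_iZero, iff_true]
    split_ifs with a b
    · exact absurd ⟨h1, a, b⟩ h2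
    all_goals rfl
  · exact absurd h2.1 h1
  · rw [mrun_nil]

omit [Fact (E ≤ V)] in
theorem run_clO (β : Bool) :
    mrun V (sch (.clO β)) 0 x = some (update x β (update (x β) (some (.d .opr)) (ro _ 0))) := by
  simp only [sch, mrun_iSet _ _ (Nat.two_pow_pos E), mrun_nil]

omit [Fact (E ≤ V)] in
theorem clH_ok (β : Bool) {d : Dyn} (h1 : ¬ d.mark.IsAct) (h2 : HD (x β) d) :
    ∃ y, mrun V (sch (.clH β d)) 0 x = some (update x β y) ∧ Keep (x β) y ∧ HD y d ∧
      hd y = ⟨ro _ 0, ro _ 0, ro _ 0, ro _ 0, ro _ 0⟩ := by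
  simp only [sch, if_neg h1, mrun_iD, if_pos h2, mrun_iSet _ _ (Nat.two_pow_pos E), mrun_nil,
    update_self, update_idem]
  refine ⟨_, rfl, ?_, ?_, ?_⟩
  · simp [Keep]
  · simpa [HD] using h2
  · simp [hd]

omit [Fact (E ≤ V)] in
theorem clH_no (β : Bool) {d : Dyn} (h : ¬ (¬ d.mark.IsAct ∧ HD (x β) d)) :
    mrun V (sch (.clH β d)) 0 x = some x := by
  simp only [sch]
  split_ifs with h1
  · rw [mrun_nil]
  · rw [mrun_iD, if_neg (fun h2 => h ⟨h1, h2⟩)]

omit [Fact (E ≤ V)] in
theorem two_no {d0 d1 : Dyn} {l : Prog} (h : ¬ (HD (x false) d0 ∧ HD (x true) d1)) :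
    mrun V (iD false d0 :: iD true d1 :: l) 0 x = some x := by
  simp only [mrun_iD]
  split_ifs with h1 h2
  · exact absurd ⟨h1, h2⟩ h
  all_goals rfl

omit [Fact (E ≤ V)] in
theorem two_cp {d0 d1 e0 e1 : Dyn} (h0 : HD (x false) d0) (h1 : HD (x true) d1) :
    ∃ y, mrun V ([iD false d0, iD true d1, iW false e0, iW true e1] ++ cpH) 0 x = some y ∧
      Keep (x false) (y false) ∧ Keep (x true) (y true) ∧ HD (y false) e0 ∧ HD (y true) e1 ∧
      hd (y true) = hd (x false) := by
  simp only [cpH, List.cons_append, List.nil_append, mrun_iD, if_pos h0, if_pos h1, mrun_iW,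
    mrun_iCp, mrun_nil, update_self, update_idem]
  refine ⟨_, rfl, ?_, ?_, ?_, ?_, ?_⟩
  · simp [Keep]
  · simp [Keep]
  · simp [HD]
  · simp [HD]
  · simp [hd]

omit [Fact (E ≤ V)] in
theorem two_w {d0 d1 e0 e1 : Dyn} (h0 : HD (x false) d0) (h1 : HD (x true) d1) :
    ∃ y, mrun V [iD false d0, iD true d1, iW false e0, iW true e1] 0 x = some y ∧
      Keep (x false) (y false) ∧ Keep (x true) (y true) ∧ HD (y false) e0 ∧ HD (y true) e1 := by
  simp only [mrun_iD, if_pos h0, if_pos h1, mrun_iW, mrun_nil]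
  refine ⟨_, rfl, ?_, ?_, ?_, ?_⟩
  · simp [Keep]
  · simp [Keep]
  · simp [HD]
  · simp [HD]

omit [Fact (E ≤ V)] in
theorem cap_ok {a0 a1 : DT → Bool} (h0 : HD (x false) ⟨a0, .tok .idle⟩)
    (h1 : HD (x true) ⟨a1, .tok .idle⟩) (h2 : rv (hd (x false)).pc % 64 = 0) :
    ∃ y, mrun V (sch (.cap a0 a1)) 0 x = some y ∧
      Keep (x false) (y false) ∧ Keep (x true) (y true) ∧
      HD (y false) ⟨a0, .tok (.act false .F)⟩ ∧ HD (y true) ⟨a1, .tok (.park true)⟩ ∧
      hd (y false) = { hd (x false) with pp := ro _ 0 } := by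
  have h2' : rv (x false (some (.d .pc))) % 64 = 0 := h2
  simp only [sch, mrun_iD, if_pos h0, if_pos h1, mrun_iLow, if_pos h2',
    mrun_iSet _ _ (Nat.two_pow_pos E), mrun_iW, mrun_nil, update_self, update_idem]
  refine ⟨_, rfl, ?_, ?_, ?_, ?_, ?_⟩
  · simp [Keep]
  · simp [Keep]
  · simp [HD]
  · simp [HD]
  · simp [hd]

omit [Fact (E ≤ V)] in
theorem cap_no {a0 a1 : DT → Bool} (h : ¬ (HD (x false) ⟨a0, .tok .idle⟩ ∧
    HD (x true) ⟨a1, .tok .idle⟩ ∧ rv (hd (x false)).pc % 64 = 0)) :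
    mrun V (sch (.cap a0 a1)) 0 x = some x := by
  simp only [sch, mrun_iD, mrun_iLow]
  split_ifs with h1 h2 h3
  · exact absurd ⟨h1, h2, h3⟩ h
  all_goals rfl

theorem fe_ok (β : Bool) {s : Stat} {a : DT → Bool} {γ : Bool} {I : Ins} (h0 : HS (x β) s)
    (h1 : HD (x β) ⟨a, .tok (.act γ .F)⟩) (h2 : (fetch (rv (hd (x β)).pc)).1 = I) :
    ∃ y, mrun V (sch (.fe β s a γ I)) 0 x = some (update x β y) ∧ Keep (x β) y ∧
      hd y = hF (hd (x β)) ∧ HD y ⟨a, .tok (.act γ (.S1 I I.c0))⟩ := by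
  have h2' : (fetch (rv (x β (some (.d .pc))))).1 = I := h2
  have h3 : T0 (rv (x β (some (.d .pc)))) = enc I := by rw [T0, h2']
  cases hs : I.src <;>
  · simp only [sch, hs, mrun_iS, if_pos h0, mrun_iD, if_pos h1, mrun_iLd, mrun_iSt0, mrun_iSt1,
      T0_mod, T1_mod, h3, mrun_iEq _ _ (enc_ins_lt I), update_self, update_idem, if_true,
      reduceCtorEq, if_false, mrun_iSet _ _ (Nat.two_pow_pos E),
      mrun_iSet _ _ (small_lt (show 1 ≤ 63 by norm_num)), mrun_iW, mrun_nil]
    refine ⟨_, rfl, ?_, ?_, ?_⟩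
    · simp [Keep]
    · simp [hd, hF, h2', hs, immv]
    · simp [HD]

theorem fe_no (β : Bool) {s : Stat} {a : DT → Bool} {γ : Bool} {I : Ins}
    (h : ¬ (HS (x β) s ∧ HD (x β) ⟨a, .tok (.act γ .F)⟩ ∧ (fetch (rv (hd (x β)).pc)).1 = I)) :
    ∃ y, mrun V (sch (.fe β s a γ I)) 0 x = some (update x β y) ∧ Same (x β) y := by
  simp only [sch, mrun_iS, mrun_iD, mrun_iLd, mrun_iSt0, T0_mod, mrun_iEq _ _ (enc_ins_lt I),
    update_self, iff_true]
  by_cases h1 : HS (x β) s
  · by_cases h2 : HD (x β) ⟨a, .tok (.act γ .F)⟩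
    · have h3 : ¬ ro (2 ^ V) (T0 (rv (x β (some (.d .pc))))) = ro (2 ^ V) (enc I) := fun h3 =>
        h ⟨h1, h2, enc_inj (ro_inj (E_lt_W (enc_ins_lt _)) (E_lt_W (enc_ins_lt _)) h3)⟩
      rw [if_pos h1, if_pos h2, if_neg h3]
      exact ⟨_, rfl, same_opr _ _⟩
    · rw [if_pos h1, if_neg h2]
      exact ⟨x β, by simp, same_refl _⟩
  · rw [if_neg h1]
    exact ⟨x β, by simp, same_refl _⟩

omit [Fact (E ≤ V)] in
theorem s1_ok (β : Bool) {s : Stat} {a : DT → Bool} {I : Ins} {c : Bool}
    (hk : s.kind = I.tr.isSome) (h0 : HS (x β) s)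
    (h1 : HD (x β) ⟨a, .tok (.act I.β (.S1 I c))⟩) (h2 : (hd (x β)).jj = adr (x β)) :
    ∃ y, mrun V (sch (.s1 β s a I c)) 0 x = some (update x β y) ∧ Keep (x β) y ∧
      hd y = hd (x β) ∧ HD y ⟨a, .tok (.act I.β (.S2 I c (cbit s a I.rd)))⟩ := by
  have h2' : x β (some (.d .jj)) = x β (some .addr) := h2
  simp only [sch, if_pos hk, mrun_iS, if_pos h0, mrun_iD, if_pos h1, mrun_iEqR, h2', if_true,
    mrun_iW, mrun_nil]
  refine ⟨_, rfl, ?_, ?_, ?_⟩
  · simp [Keep]
  · simp [hd]
  · simp [HD]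

omit [Fact (E ≤ V)] in
theorem s1_no (β : Bool) {s : Stat} {a : DT → Bool} {I : Ins} {c : Bool}
    (h : ¬ (s.kind = I.tr.isSome ∧ HS (x β) s ∧ HD (x β) ⟨a, .tok (.act I.β (.S1 I c))⟩ ∧
      (hd (x β)).jj = adr (x β))) :
    mrun V (sch (.s1 β s a I c)) 0 x = some x := by
  simp only [sch]
  split_ifs with hk
  · simp only [mrun_iS, mrun_iD, mrun_iEqR, iff_true]
    split_ifs with h0 h1 h2
    · exact absurd ⟨hk, h0, h1, h2⟩ h
    all_goals rfl
  · rw [mrun_nil]

omit [Fact (E ≤ V)] in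
theorem s2_no (β : Bool) {s : Stat} {a : DT → Bool} {I : Ins} {c b e last : Bool}
    (h : ¬ (s.kind = I.tr.isSome ∧ HS (x β) s ∧ HD (x β) ⟨a, .tok (.act I.β' (.S2 I c b))⟩ ∧
      (hd (x β)).jj = adr (x β) ∧
      ((∃ i, (hd (x β)).imm i = true ∧ (hd (x β)).mask i = true) ↔ e = true) ∧
      ((hd (x β)).jj = ones _ ↔ last = true))) :
    mrun V (sch (.s2 β s a I c b e last)) 0 x = some x := by
  simp only [sch]
  split_ifs with hk
  · simp only [List.cons_append, List.nil_append, mrun_iS, mrun_iD, mrun_iEqR, iff_true, mrun_iAnd,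
      mrun_iOnes]
    split_ifs with h0 h1 h2 h3 h4
    · exact absurd ⟨hk, h0, h1, h2, h3, h4⟩ h
    all_goals rfl
  · rw [mrun_nil]

omit [Fact (E ≤ V)] in
theorem s2_ok (β : Bool) {s : Stat} {a : DT → Bool} {I : Ins} {c b e last : Bool}
    (hk : s.kind = I.tr.isSome) (h0 : HS (x β) s)
    (h1 : HD (x β) ⟨a, .tok (.act I.β' (.S2 I c b))⟩) (h2 : (hd (x β)).jj = adr (x β))
    (h3 : (∃ i, (hd (x β)).imm i = true ∧ (hd (x β)).mask i = true) ↔ e = true)
    (h4 : (hd (x β)).jj = ones _ ↔ last = true) :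
    (cstep s a (.S2 I c b) (hd (x β)) = none ∧ mrun V (sch (.s2 β s a I c b e last)) 0 x = none) ∨
    ∃ y a' ph', mrun V (sch (.s2 β s a I c b e last)) 0 x = some (update x β y) ∧ Keep (x β) y ∧
      cstep s a (.S2 I c b) (hd (x β)) = some (a', ph', hd y) ∧
      HD y ⟨a', .tok (.act I.β' ph')⟩ := by
  have h2' : x β (some (.d .jj)) = x β (some .addr) := h2
  have h3' : (∃ i, x β (some (.d .imm)) i = true ∧ x β (some (.d .mask)) i = true) ↔ e = true := h3
  have h4' : x β (some (.d .jj)) = ones _ ↔ last = true := h4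
  simp only [sch, if_pos hk, List.cons_append, List.nil_append, mrun_iS, if_pos h0, mrun_iD,
    if_pos h1, mrun_iEqR, iff_true, if_pos h2', mrun_iAnd, if_pos h3', mrun_iOnes, if_pos h4', cstep, fin2,
    h3, h4, Bool.decide_eq_true]
  cases hf : fin2b I c b (cbit s a I.wr) e last with
  | none => exact Or.inl ⟨rfl, mrun_iZero _ _ _⟩
  | some o =>
    obtain ⟨b', ph', p, z⟩ := o
    right
    cases p <;> cases z <;>
    · simp only [Bool.false_eq_true, if_false, if_true, List.cons_append, List.nil_append, mrun_iOr,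
        mrun_iInc, mrun_iShl, mrun_iW, mrun_nil, update_self, update_idem, Option.map_some]
      refine ⟨_, cput a I.wr b', ph', rfl, ?_, ?_, ?_⟩
      · simp [Keep]
      · simp [hd]
      · simp [HD]

omit [Fact (E ≤ V)] in
open Classical in
theorem run_lsw :
    mrun V (sch .lsw) 0 x = if adr (x true) ≠ ro _ 0 then
      some (pair (update (x false) none (lab (x true))) (update (x true) none (lab (x false))))
      else some x := by
  simp only [sch, mrun_iEq _ _ (Nat.two_pow_pos E), mrun_iLx, mrun_nil]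
  refine if_congr (by simp) ?_ rfl
  congr 1
  funext β
  cases β
  · simp only [Bool.not_true, Bool.not_false, ne_eq, Bool.false_eq_true, not_false_eq_true,
      update_of_ne, update_self, Bool.true_eq_false, pair_false, lab]
    congr 1
    funext j
    cases x false none j <;> cases x true none j <;> rfl
  · simp only [Bool.not_true, Bool.not_false, ne_eq, Bool.false_eq_true, not_false_eq_true,
      update_of_ne, update_self, Bool.true_eq_false, pair_true, lab, update_idem]
    congr 1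
    funext j
    cases x false none j <;> cases x true none j <;> rfl

omit [Fact (E ≤ V)] in
open Classical in
theorem run_leq :
    mrun V (sch .leq) 0 x = if adr (x true) ≠ ro _ 0 ∧ lab (x false) = lab (x true) then none
      else some x := by
  simp only [sch, mrun_iEq _ _ (Nat.two_pow_pos E), mrun_iLe, mrun_iZero, Bool.false_eq_true,
    iff_false]
  split_ifs <;> first | rfl | tauto

end Crest.Agent.R176.M.RA
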