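import Crest.Agent.R176.Norm

/-!
# 176-M: soundness of the simulation
-/

set_option autoImplicit false

namespace Crest.Agent.R176.M

section snd
variable {W : ℕ} [hW : Fact (E ≤ W)]

def PS (b0 b1 : BI W) (ph : Phs) (H : Hd W) : Prop :=
  (b0.tok = .act false ph ∧ b1.tok = .park true ∧ H = b0.H) ∨
    (b0.tok = .park false ∧ b1.tok = .act true ph ∧ H = b1.H)

def PV (b0 b1 : BI W) (y0 y1 : Let (2 ^ W)) : Prop :=
  ∃ ph H, PS b0 b1 ph H ∧ res ⟨ph, H, pair b0.u b1.u⟩ = some (pair y0 y1)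

def TV2 (b0 b1 : BI W) (y0 y1 : Let (2 ^ W)) : Prop :=
  (b0.tok = .idle ∧ b1.tok = .idle ∧ y0 = b0.u ∧ y1 = b1.u) ∨ PV b0 b1 y0 y1

omit hW in
theorem PS.rl {b0 b1 : BI W} {ph H} (h : PS b0 b1 ph H) :
    b0.tok.rl = .left ∧ b1.tok.rl = .right := by
  rcases h with ⟨h1, h2, -⟩ | ⟨h1, h2, -⟩ <;> simp [h1, h2, Tok.rl]

theorem PV.rl {b0 b1 : BI W} {y0 y1} (h : PV b0 b1 y0 y1) :
    b0.tok.rl = .left ∧ b1.tok.rl = .right := by
  obtain ⟨_, _, h, -⟩ := h; exact h.rl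

theorem rl_idle {k : Tok} : k.rl = .idle ↔ k = .idle := by
  rcases k with _ | ⟨_ | _⟩ | ⟨_ | _, _⟩ <;> simp [Tok.rl]

theorem PV_act {b : BI W} {γ ph ph' u' H'} (hb : b.tok = .act γ ph)
    (h : ∀ U : Bool → Let (2 ^ W), U γ = b.u →
      res ⟨ph, b.H, U⟩ = res ⟨ph', H', Function.update U γ u'⟩) :
    (∀ b1 y0 y1, PV b b1 y0 y1 → PV ⟨b.c, u', .act γ ph', H'⟩ b1 y0 y1) ∧
      ∀ b0 y0 y1, PV b0 b y0 y1 → PV b0 ⟨b.c, u', .act γ ph', H'⟩ y0 y1 := by
  constructor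
  · rintro b1 y0 y1 ⟨q, H, ⟨h1, h2, rfl⟩ | ⟨h1, -⟩, hr⟩
    · simp only [hb, Tok.act.injEq] at h1
      obtain ⟨rfl, rfl⟩ := h1
      refine ⟨ph', H', .inl ⟨rfl, h2, rfl⟩, ?_⟩
      rw [← hr, h _ rfl]; congr 2; funext β; cases β <;> simp
    · simp [hb] at h1
  · rintro b0 y0 y1 ⟨q, H, ⟨-, h1, -⟩ | ⟨h2, h1, rfl⟩, hr⟩
    · simp [hb] at h1
    · simp only [hb, Tok.act.injEq] at h1
      obtain ⟨rfl, rfl⟩ := h1
      refine ⟨ph', H', .inr ⟨h2, rfl, rfl⟩, ?_⟩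
      rw [← hr, h _ rfl]; congr 2; funext β; cases β <;> simp

structure Valid (n : ℕ) (f : ℕ → Let W) (bs : ℕ → BI W) (ps : ℕ → ℕ) (u : ℕ → Let (2 ^ W)) :
    Prop where
  vb : ∀ k < n, VB (fun t => f (k * (2 * 2 ^ W) + t)) (bs k) (ps k)
  good : ∀ k < n, Good (bs k)
  chain : ∀ k, k + 1 < n → ((bs (k + 1)).c : ℕ) = ((bs k).c + 1) % 1024
  idle : ∀ k < n, (bs k).tok = .idle → u k = (bs k).u
  left : ∀ k < n, (bs k).tok.rl = .left → k + 1 < n ∧ PV (bs k) (bs (k + 1)) (u k) (u (k + 1))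
  right : ∀ k < n, (bs k).tok.rl = .right → ∃ j, k = j + 1 ∧ (bs j).tok.rl = .left
  nz : ¬ Zr (rho W) (wl n u)

def PF (n : ℕ) (f : ℕ → Let W) : Prop := ∃ bs ps u, Valid n f bs ps u

variable {n : ℕ} {f f' : ℕ → Let W} {bs : ℕ → BI W} {ps : ℕ → ℕ} {u : ℕ → Let (2 ^ W)}

theorem blk_ne {L k j t t' : ℕ} (ht : t < L) (ht' : t' < L) (h : j ≠ k) :
    j * L + t ≠ k * L + t' := by
  intro e
  have := congrArg (· / L) e
  have hL : 0 < L := by omega
  simp only [mul_comm _ L, Nat.mul_add_div hL, Nat.div_eq_of_lt ht, Nat.div_eq_of_lt ht'] at this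
  exact h (by omega)

theorem blk_lt {L n k t : ℕ} (hk : k < n) (ht : t < L) : k * L + t < n * L := by
  have := Nat.mul_le_mul_right L (show k + 1 ≤ n from hk)
  rw [add_mul] at this; omega

theorem blk_dec {L n i : ℕ} (hi : i < n * L) : ∃ k t, k < n ∧ t < L ∧ i = k * L + t := by
  have hL : 0 < L := Nat.pos_of_ne_zero (by rintro rfl; simp at hi)
  exact ⟨i / L, i % L, (Nat.div_lt_iff_lt_mul hL).2 hi, Nat.mod_lt _ hL,
    by rw [mul_comm, Nat.div_add_mod]⟩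

/-- Two consecutive places are in one block or at a boundary. -/
theorem blk_dec2 {L n i : ℕ} (hi : i + 1 < n * L) : ∃ k t, k < n ∧ t < L ∧ i = k * L + t ∧
    (t + 1 < L ∨ (t + 1 = L ∧ k + 1 < n ∧ i + 1 = (k + 1) * L + 0)) := by
  obtain ⟨k, t, hk, ht, rfl⟩ := blk_dec (n := n) (L := L) (i := i) (by omega)
  refine ⟨k, t, hk, ht, rfl, ?_⟩
  by_cases h : t + 1 < L
  · exact .inl h
  · refine .inr ⟨by omega, ?_, by rw [add_mul]; omega⟩
    by_contra h'
    obtain rfl : n = k + 1 := by omega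
    rw [add_mul] at hi; omega

theorem Valid.upd1 (h : Valid n f bs ps u) {k : ℕ} (hk : k < n) {b' : BI W} {p' : ℕ}
    (e : ∀ j, j ≠ k → ∀ t < 2 * 2 ^ W, f' (j * (2 * 2 ^ W) + t) = f (j * (2 * 2 ^ W) + t))
    (v : VB (fun t => f' (k * (2 * 2 ^ W) + t)) b' p') (hc : b'.c = (bs k).c)
    (ha : adr b'.u = adr (bs k).u) (hr : b'.tok.rl = (bs k).tok.rl)
    (hi : b'.tok = .idle → b'.u = (bs k).u)
    (h0 : ∀ b1 y0 y1, PV (bs k) b1 y0 y1 → PV b' b1 y0 y1)
    (h1 : ∀ b0 y0 y1, PV b0 (bs k) y0 y1 → PV b0 b' y0 y1) : PF n f' := by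
  have c : ∀ j, (Function.update bs k b' j).c = (bs j).c := fun j => by
    rcases eq_or_ne j k with rfl | hj
    · simp [hc]
    · simp [hj]
  have r : ∀ j, (Function.update bs k b' j).tok.rl = (bs j).tok.rl := fun j => by
    rcases eq_or_ne j k with rfl | hj
    · simp [hr]
    · simp [hj]
  refine ⟨Function.update bs k b', Function.update ps k p', u, fun j hj => ?_, fun j hj => ?_,
    fun j hj => by simpa only [c] using h.chain j hj, fun j hj hi' => ?_, fun j hj hl => ?_,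
    fun j hj hl => by simpa only [r] using h.right j hj (by rwa [r] at hl), h.nz⟩
  · rcases eq_or_ne j k with rfl | hjk
    · simpa using v
    · simpa [hjk] using (h.vb j hj).congr (e j hjk)
  · rcases eq_or_ne j k with rfl | hjk
    · simpa [Good, hc, ha] using h.good j hj
    · simpa [hjk] using h.good j hj
  · rcases eq_or_ne j k with rfl | hjk
    · simp only [Function.update_self] at hi' ⊢
      rw [hi hi', h.idle j hj (by rw [← rl_idle, ← hr, rl_idle, hi'])]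
    · simp only [Function.update_of_ne hjk] at hi' ⊢; exact h.idle j hj hi'
  · obtain ⟨l1, l2⟩ := h.left j hj (by rwa [r] at hl)
    refine ⟨l1, ?_⟩
    rcases eq_or_ne j k with rfl | hjk
    · simpa using h0 _ _ _ l2
    · rcases eq_or_ne (j + 1) k with rfl | hjk'
      · simpa using h1 _ _ _ l2
      · simpa [hjk, hjk'] using l2

theorem Valid.upd0 (h : Valid n f bs ps u) {k : ℕ} (hk : k < n) {p' : ℕ}
    (e : ∀ j, j ≠ k → ∀ t < 2 * 2 ^ W, f' (j * (2 * 2 ^ W) + t) = f (j * (2 * 2 ^ W) + t))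
    (v : VB (fun t => f' (k * (2 * 2 ^ W) + t)) (bs k) p') : PF n f' :=
  h.upd1 hk e v rfl rfl rfl (fun _ => rfl) (fun _ _ _ h => h) fun _ _ _ h => h

theorem PF.same (h : PF n f) (e : ∀ i, Same (f i) (f' i)) : PF n f' := by
  obtain ⟨bs, ps, u, h⟩ := h
  exact ⟨bs, ps, u, fun k hk => (h.vb k hk).same hW.out fun _ _ => e _, h.good, h.chain, h.idle,
    h.left, h.right, h.nz⟩

theorem PF.act {i : ℕ} (hi : i < n * (2 * 2 ^ W)) (ha : Act (f i) (f' i))
    (e : ∀ j, j ≠ i → f' j = f j) : PF n f ↔ PF n f' := by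
  obtain ⟨k, t, hk, ht, rfl⟩ := blk_dec hi
  obtain ⟨s, a, γ, ph, a', ph', h1, h2, h3, h4, h5, h6⟩ := ha
  constructor
  · rintro ⟨bs, ps, u, h⟩
    have v := h.vb k hk
    obtain ⟨rfl, e1, rfl⟩ := v.tok_at hW.out ht h2
    obtain rfl := h1.uniq hW.out (v.hs _ ht)
    have e2 : hd (f (k * (2 * 2 ^ W) + ps k)) = (bs k).H := v.hd ⟨_, _, e1⟩
    have e3 : adr (f (k * (2 * 2 ^ W) + ps k)) = _ := v.adr _ ht
    rw [e2] at h3 h4
    rw [e3] at h3
    have pv := PV_act (ph' := ph') (u' := setc (bs k).u (ps k) a')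
      (H' := hd (f' (k * (2 * 2 ^ W) + ps k))) e1 fun U hU => by
        rw [← hU] at h3 h4 ⊢
        exact res_step (by rw [link ht h3, h4])
    exact h.upd1 hk (fun j hj t' ht' => e _ (blk_ne ht' ht hj))
      (v.setTok h5 h6 ((cstep_okq h3 h4).1 (cell_okq _ _ _)) (fun _ => rfl)
        (fun t' _ h => e _ (by omega)) rfl) rfl rfl (by rw [e1]; cases γ <;> rfl) (by simp)
        pv.1 pv.2
  · rintro ⟨bs, ps, u, h⟩
    have v := h.vb k hk
    obtain ⟨rfl, e1, rfl⟩ := v.tok_at hW.out ht h6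
    obtain rfl := (h5.hs h1).uniq hW.out (v.hs _ ht)
    have e2 : hd (f' (k * (2 * 2 ^ W) + ps k)) = (bs k).H := v.hd ⟨_, _, e1⟩
    have e3 : adr (f (k * (2 * 2 ^ W) + ps k)) = _ := h5.1.symm.trans (v.adr _ ht)
    rw [e2] at h4
    rw [e3] at h3
    have ok := (cstep_okq h3 h4).2 (cell_okq _ _ _)
    have pv := PV_act (ph' := ph) (u' := setc (bs k).u (ps k) a)
      (H' := hd (f (k * (2 * 2 ^ W) + ps k))) e1 fun U hU => by
        have e4 := cell_setc_self (bs k).c (bs k).u ht ok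
        have l := link (c := (bs k).c) (U := Function.update U γ (setc (bs k).u (ps k) a))
          (γ := γ) (ph := ph) (H := hd (f (k * (2 * 2 ^ W) + ps k))) ht
          (by rwa [Function.update_self, e4])
        rw [Function.update_self, e4, h4] at l
        rw [res_step l]
        simp [setc_setc, setc_cell, ← hU]
    exact h.upd1 hk (fun j hj t' ht' => (e _ (blk_ne ht' ht hj)).symm)
      (v.setTok h5.symm h2 ok (fun _ => rfl) (fun t' _ h => (e _ (by omega)).symm) rfl)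
      rfl rfl (by rw [e1]; cases γ <;> rfl) (by simp) pv.1 pv.2

theorem PF.move {i : ℕ} (hi : i + 1 < n * (2 * 2 ^ W)) {a0 a1 k} (h1 : HD (f i) ⟨a0, .tok k⟩)
    (h2 : HD (f (i + 1)) ⟨a1, .L⟩) (h3 : Keep (f i) (f' i)) (h4 : Keep (f (i + 1)) (f' (i + 1)))
    (h5 : HD (f' i) ⟨a0, .R⟩) (h6 : HD (f' (i + 1)) ⟨a1, .tok k⟩)
    (h7 : k.IsAct → hd (f' (i + 1)) = hd (f i))
    (e : ∀ j, j ≠ i → j ≠ i + 1 → f' j = f j) : PF n f ↔ PF n f' := by
  obtain ⟨j, t, hj, ht, rfl, ht' | ⟨ht', hj', e'⟩⟩ := blk_dec2 hi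
  · constructor
    · rintro ⟨bs, ps, u, h⟩
      have v := h.vb j hj
      obtain ⟨rfl, rfl, rfl⟩ := v.tok_at hW.out ht h1
      have := h2.uniq hW.out (v.hD _ ht')
      simp only [Dyn.mk.injEq] at this
      obtain ⟨rfl, -⟩ := this
      exact h.upd0 hj (fun l hl t' h => e _ (blk_ne h ht hl) (blk_ne h ht' hl))
        (v.move ht' (.inl rfl) h3 h4 (by rwa [mrk_eq_R.2 (by omega)]) h6 h7
          fun t' _ _ _ => e _ (by omega) (by omega))
    · rintro ⟨bs, ps, u, h⟩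
      have v := h.vb j hj
      obtain ⟨e1, rfl, rfl⟩ := v.tok_at hW.out ht' h6
      have := h5.uniq hW.out (v.hD _ ht)
      simp only [Dyn.mk.injEq] at this
      obtain ⟨rfl, -⟩ := this
      rw [← e1] at v
      exact h.upd0 hj (fun l hl t' h => (e _ (blk_ne h ht hl) (blk_ne h ht' hl)).symm)
        (v.move ht (.inr rfl) h4.symm h3.symm (by rwa [mrk_eq_L.2 (by omega)]) h1
          (fun ha => (h7 ha).symm) fun t' _ _ _ => (e _ (by omega) (by omega)).symm)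
  · constructor
    · rintro ⟨bs, ps, u, h⟩
      rw [e'] at h2
      have := congrArg Dyn.mark (h2.uniq hW.out ((h.vb _ hj').hD 0 (by omega)))
      simp [eq_comm (a := Mark.L), mrk_eq_L] at this
    · rintro ⟨bs, ps, u, h⟩
      have := congrArg Dyn.mark (h5.uniq hW.out ((h.vb _ hj).hD t ht))
      have l := (h.vb _ hj).lt
      simp only [eq_comm (a := Mark.R), mrk_eq_R] at this
      omega

theorem PF.lsw {i : ℕ} (hi : i + 1 < n * (2 * 2 ^ W)) (h1 : adr (f (i + 1)) ≠ ro W 0)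
    (h2 : f' i = setL (f i) (lab (f (i + 1)))) (h3 : f' (i + 1) = setL (f (i + 1)) (lab (f i)))
    (e : ∀ j, j ≠ i → j ≠ i + 1 → f' j = f j) (h : PF n f) : PF n f' := by
  obtain ⟨bs, ps, u, h⟩ := h
  obtain ⟨j, t, hj, ht, rfl, ht' | ⟨ht', hj', e'⟩⟩ := blk_dec2 hi
  · have v := h.vb j hj
    have h4 : t + 1 ≠ 2 ^ W := fun h' => h1 ((v.adr _ ht').trans ((ro_eq_zero ht').2 (.inr h')))
    refine h.upd0 hj (fun l hl t' h => e _ (blk_ne h ht hl) (blk_ne h ht' hl))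
      (v.relab (fun s => lab (f (j * (2 * 2 ^ W) + Equiv.swap t (t + 1) s))) (fun s _ => ?_)
        fun s hs s' hs' h5 h6 => ?_)
    · rcases eq_or_ne s t with rfl | s1
      · simpa [add_assoc] using h2
      rcases eq_or_ne s (t + 1) with rfl | s2
      · simpa [add_assoc] using h3
      rw [Equiv.swap_apply_of_ne_of_ne s1 s2, setL_lab]
      exact e _ (by omega) (by omega)
    · refine (Equiv.swap t (t + 1)).injective (v.lab _ ?_ _ ?_ ?_ h6) <;>
        simp only [Equiv.swap_apply_def] <;> split_ifs <;> omega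
  · rw [e'] at h1
    exact (h1 ((h.vb _ hj').adr 0 (by omega))).elim

theorem TV2.cl {b0 b1 : BI W} {y0 y1} (h : TV2 b0 b1 y0 y1) :
    b0.tok.rl ≠ .right ∧ b1.tok.rl ≠ .left := by
  rcases h with ⟨h1, h2, -⟩ | h
  · simp [h1, h2, Tok.rl]
  · simp [h.rl]

theorem PF.retok {i : ℕ} (hi : i + 1 < n * (2 * 2 ^ W)) {a0 a1 k0 k1 k0' k1'}
    (h1 : HD (f i) ⟨a0, .tok k0⟩) (h2 : HD (f (i + 1)) ⟨a1, .tok k1⟩) (h3 : Keep (f i) (f' i))
    (h4 : Keep (f (i + 1)) (f' (i + 1))) (h5 : HD (f' i) ⟨a0, .tok k0'⟩)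
    (h6 : HD (f' (i + 1)) ⟨a1, .tok k1'⟩) (e : ∀ j, j ≠ i → j ≠ i + 1 → f' j = f j)
    (hk : (k0 = .idle ∧ k1 = .idle) ∨ k0.rl = .left)
    (tr : ∀ (b0 b1 : BI W) y0 y1, b0.tok = k0 → b1.tok = k1 → (k0.IsAct → hd (f i) = b0.H) →
      (k1.IsAct → hd (f (i + 1)) = b1.H) → TV2 b0 b1 y0 y1 → ¬ Zr (rho W) [y0, y1] →
      ∃ z0 z1, Eqv (rho W) [y0, y1] [z0, z1] ∧
        TV2 ⟨b0.c, b0.u, k0', hd (f' i)⟩ ⟨b1.c, b1.u, k1', hd (f' (i + 1))⟩ z0 z1)
    (h : PF n f) : PF n f' := by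
  obtain ⟨bs, ps, u, h⟩ := h
  obtain ⟨k, t, hj, ht, rfl, ht' | ⟨ht', hj', e'⟩⟩ := blk_dec2 hi
  · have := ((h.vb k hj).tok_at hW.out ht h1).1
    have := ((h.vb k hj).tok_at hW.out ht' h2).1
    omega
  have v0 := h.vb k hj
  have v1 := h.vb _ hj'
  rw [e'] at h2 h4 h6 tr e
  obtain ⟨rfl, rfl, rfl⟩ := v0.tok_at hW.out ht h1
  obtain ⟨p1, rfl, rfl⟩ := v1.tok_at hW.out (by omega) h2
  rw [← p1] at v1
  have old : TV2 (bs k) (bs (k + 1)) (u k) (u (k + 1)) := by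
    rcases hk with hk | hk
    · exact .inl ⟨hk.1, hk.2, h.idle _ hj hk.1, h.idle _ hj' hk.2⟩
    · exact .inr (h.left k hj hk).2
  obtain ⟨z0, z1, ez, new⟩ := tr _ _ _ _ rfl rfl v0.hd v1.hd old fun hz => h.nz (Zr.wl hj' hz)
  have w0 := v0.setTok' (f' := fun t => f' (k * (2 * 2 ^ W) + t)) h3 h5 (fun _ => rfl)
    (fun s hs h => e _ (by omega) (blk_ne hs (by omega) (by omega))) rfl
  have w1 := v1.setTok' (f' := fun t => f' ((k + 1) * (2 * 2 ^ W) + t)) h4 h6 (fun _ => rfl)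
    (fun s hs h => e _ (blk_ne hs ht (by omega)) (by omega)) rfl
  generalize hb0 : (⟨(bs k).c, (bs k).u, k0', _⟩ : BI W) = b0 at new w0
  generalize hb1 : (⟨(bs (k + 1)).c, (bs (k + 1)).u, k1', _⟩ : BI W) = b1 at new w1
  have c0 : b0.c = (bs k).c ∧ b0.u = (bs k).u := by subst hb0; exact ⟨rfl, rfl⟩
  have c1 : b1.c = (bs (k + 1)).c ∧ b1.u = (bs (k + 1)).u := by subst hb1; exact ⟨rfl, rfl⟩
  have cs : ∀ j, j = k ∨ j = k + 1 ∨ (j ≠ k ∧ j ≠ k + 1) := fun j => by omega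
  have c : ∀ j, (Function.update (Function.update bs k b0) (k + 1) b1 j).c = (bs j).c ∧
      (Function.update (Function.update bs k b0) (k + 1) b1 j).u = (bs j).u := fun j => by
    rcases cs j with rfl | rfl | ⟨j1, j2⟩
    · simpa using c0
    · simpa using c1
    · simp [j1, j2]
  refine ⟨Function.update (Function.update bs k b0) (k + 1) b1,
    Function.update ps (k + 1) 0, Function.update (Function.update u k z0) (k + 1) z1,
    fun j hj => ?_, fun j hj => by simpa only [Good, c] using h.good j hj,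
    fun j hj => by simpa only [c] using h.chain j hj, fun j hj => ?_, fun j hj => ?_,
    fun j hj => ?_, fun hz => h.nz (Zr.of_eqv (Eqv.wl hj' (by simpa using ez)
      fun j _ j1 j2 => by simp [j1, j2]) hz)⟩
  · rcases cs j with rfl | rfl | ⟨j1, j2⟩
    · simpa using w0
    · simpa using w1
    · simpa [j1, j2] using (h.vb j hj).congr
        fun s hs => e _ (blk_ne hs ht j1) (blk_ne hs (by omega) j2)
  · rcases cs j with rfl | rfl | ⟨j1, j2⟩
    · rcases new with new | new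
      · simpa using fun _ => new.2.2.1
      · have := new.rl.1
        simpa using fun h : b0.tok = .idle => by simp [h, Tok.rl] at this
    · rcases new with new | new
      · simpa using fun _ => new.2.2.2
      · have := new.rl.2
        simpa using fun h : b1.tok = .idle => by simp [h, Tok.rl] at this
    · simpa [j1, j2] using h.idle j hj
  · rcases cs j with rfl | rfl | ⟨j1, j2⟩
    · rcases new with new | new
      · simp [new.1, Tok.rl]
      · simpa using fun _ => ⟨hj', new⟩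
    · simp [new.cl.2]
    · simp only [Function.update_of_ne j1, Function.update_of_ne j2]
      intro hl
      obtain ⟨l1, l2⟩ := h.left j hj hl
      have j3 : j + 1 ≠ k := fun e => old.cl.1 (e ▸ l2.rl.2)
      have j4 : j + 1 ≠ k + 1 := by omega
      simp only [Function.update_of_ne j3, Function.update_of_ne j4]
      exact ⟨l1, l2⟩
  · rcases cs j with rfl | rfl | ⟨j1, j2⟩
    · simp [new.cl.1]
    · rcases new with new | new
      · simp [new.2.1, Tok.rl]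
      · exact fun _ => ⟨k, rfl, by simpa using new.rl.1⟩
    · simp only [Function.update_of_ne j1, Function.update_of_ne j2]
      intro hl
      obtain ⟨l, rfl, l2⟩ := h.right j hj hl
      have j3 : l ≠ k + 1 := fun e => old.cl.2 (e ▸ l2)
      have j4 : l ≠ k := by omega
      exact ⟨l, rfl, by simpa [j3, j4] using l2⟩

theorem pair_inj {α : Type} {a b c d : α} (h : pair a b = pair c d) : a = c ∧ b = d :=
  ⟨congrFun h false, congrFun h true⟩

theorem PF.vr {i : ℕ} (hi : i + 1 < n * (2 * 2 ^ W))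
    (h : VR (f i) (f (i + 1)) (f' i) (f' (i + 1)))
    (e : ∀ j, j ≠ i → j ≠ i + 1 → f' j = f j) : PF n f ↔ PF n f' := by
  have e' : ∀ j, j ≠ i → j ≠ i + 1 → f j = f' j := fun j a b => (e j a b).symm
  cases h with
  | junk h0 h1 =>
    have : ∀ j, Same (f j) (f' j) := fun j => by
      rcases eq_or_ne j i with rfl | j1
      · exact h0
      rcases eq_or_ne j (i + 1) with rfl | j2
      · exact h1
      rw [e j j1 j2]; exact Same.refl _
    exact ⟨fun h => h.same this, fun h => h.same fun j => (this j).symm⟩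
  | act0 h0 h1 =>
    refine PF.act (by omega) h0 fun j j1 => ?_
    rcases eq_or_ne j (i + 1) with rfl | j2
    exacts [h1, e j j1 j2]
  | act1 h0 h1 =>
    refine PF.act hi h1 fun j j1 => ?_
    rcases eq_or_ne j i with rfl | j2
    exacts [h0, e j j2 j1]
  | move a0 a1 k h1 h2 h3 h4 h5 h6 h7 => exact PF.move hi h1 h2 h3 h4 h5 h6 h7 e
  | lsw h1 h2 h3 =>
    exact ⟨PF.lsw hi h1 h2 h3 e, PF.lsw hi (by rwa [h3, adr_setL]) (by simp [h2, h3])
      (by simp [h2, h3]) e'⟩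
  | cap a0 a1 h1 h2 h3 h4 h5 h6 h7 h8 =>
    refine ⟨PF.retok hi h1 h2 h3 h4 h5 h6 e (.inl ⟨rfl, rfl⟩) ?_,
      PF.retok hi h5 h6 h3.symm h4.symm h1 h2 e' (.inr rfl) ?_⟩
    · rintro b0 b1 y0 y1 t0 t1 - - (⟨-, -, rfl, rfl⟩ | hv) hz
      · have r : rho W b0.u b1.u _ := ⟨_, h7, h8, rfl⟩
        cases hr : res ⟨.F, hd (f' i), pair b0.u b1.u⟩ with
        | none => rw [hr] at r; exact (hz (Zr.of_rule r)).elim
        | some y =>
          rw [hr] at r
          exact ⟨_, _, Eqv.of_rule r, .inr ⟨.F, _, .inl ⟨rfl, rfl, rfl⟩, by rw [hr, pair_eta]⟩⟩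
      · simpa [t0, Tok.rl] using hv.rl.1
    · rintro b0 b1 y0 y1 t0 t1 e0 - (⟨h, -⟩ | ⟨ph, H, ⟨s0, -, rfl⟩ | ⟨s0, -⟩, hr⟩) hz
      · simp [t0] at h
      · simp only [t0, Tok.act.injEq, true_and] at s0
        subst s0
        have r : rho W b0.u b1.u _ := ⟨_, h7, h8, rfl⟩
        rw [e0 ⟨_, _, rfl⟩, hr] at r
        exact ⟨_, _, (Eqv.of_rule r).symm, .inl ⟨rfl, rfl, rfl, rfl⟩⟩
      · simp [t0] at s0
  | hand a0 a1 ph h1 h2 h3 h4 h5 h6 h7 =>
    refine ⟨PF.retok hi h1 h2 h3 h4 h5 h6 e (.inr rfl) ?_,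
      PF.retok hi h5 h6 h3.symm h4.symm h1 h2 e' (.inr rfl) ?_⟩
    · rintro b0 b1 y0 y1 t0 t1 e0 - (⟨h, -⟩ | ⟨q, H, ⟨s0, -, rfl⟩ | ⟨s0, -⟩, hr⟩) hz
      · simp [t0] at h
      · simp only [t0, Tok.act.injEq, true_and] at s0
        subst s0
        exact ⟨_, _, Eqv.rfl, .inr ⟨ph, _, .inr ⟨rfl, rfl, (h7.trans (e0 ⟨_, _, rfl⟩)).symm⟩, hr⟩⟩
      · simp [t0] at s0
    · rintro b0 b1 y0 y1 t0 t1 - e1 (⟨h, -⟩ | ⟨q, H, ⟨s0, -⟩ | ⟨-, s0, rfl⟩, hr⟩) hz
      · simp [t0] at h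
      · simp [t0] at s0
      · simp only [t1, Tok.act.injEq, true_and] at s0
        subst s0
        exact ⟨_, _, Eqv.rfl, .inr ⟨ph, _, .inl ⟨rfl, rfl, (e1 ⟨_, _, rfl⟩).symm.trans h7⟩, hr⟩⟩
  | rel a0 a1 h1 h2 h3 h4 h5 h6 =>
    refine ⟨PF.retok hi h1 h2 h3 h4 h5 h6 e (.inr rfl) ?_,
      PF.retok hi h5 h6 h3.symm h4.symm h1 h2 e' (.inl ⟨rfl, rfl⟩) ?_⟩
    · rintro b0 b1 y0 y1 t0 t1 e0 - (⟨h, -⟩ | ⟨q, H, ⟨s0, -, rfl⟩ | ⟨s0, -⟩, hr⟩) hz
      · simp [t0] at h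
      · simp only [t0, Tok.act.injEq, true_and] at s0
        subst s0
        rw [res_rel, Option.some.injEq] at hr
        exact ⟨_, _, Eqv.rfl, .inl ⟨rfl, rfl, (pair_inj hr).1.symm, (pair_inj hr).2.symm⟩⟩
      · simp [t0] at s0
    · rintro b0 b1 y0 y1 t0 t1 - - (⟨-, -, rfl, rfl⟩ | hv) hz
      · exact ⟨_, _, Eqv.rfl, .inr ⟨.rel, _, .inl ⟨rfl, rfl, rfl⟩, res_rel _ _⟩⟩
      · simpa [t0, Tok.rl] using hv.rl.1

theorem PF.not_actZ {i : ℕ} (hi : i < n * (2 * 2 ^ W)) (h : PF n f) : ¬ ActZ (f i) := by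
  obtain ⟨bs, ps, u, h⟩ := h
  obtain ⟨k, t, hk, ht, rfl⟩ := blk_dec hi
  rintro ⟨s, a, γ, ph, h1, h2, h3, h4⟩
  have v := h.vb k hk
  obtain ⟨rfl, e1, rfl⟩ := v.tok_at hW.out ht h2
  obtain rfl := h1.uniq hW.out (v.hs _ ht)
  have e2 : hd (f (k * (2 * 2 ^ W) + ps k)) = (bs k).H := v.hd ⟨_, _, e1⟩
  have e3 : adr (f (k * (2 * 2 ^ W) + ps k)) = _ := v.adr _ ht
  rw [e2] at h3 h4
  rw [e3] at h3
  have key : ∀ U : Bool → Let (2 ^ W), U γ = (bs k).u → res ⟨ph, (bs k).H, U⟩ = none := by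
    intro U hU
    rw [← hU] at h3 h4
    exact res_stop (by rw [link ht h3, h4])
  cases γ
  · obtain ⟨-, q, H, ⟨s0, -, rfl⟩ | ⟨s0, -⟩, hr⟩ := h.left k hk (by rw [e1]; rfl)
    · simp only [e1, Tok.act.injEq, true_and] at s0
      subst s0
      rw [key _ (by rfl)] at hr
      simp at hr
    · simp [e1] at s0
  · obtain ⟨j, rfl, hj⟩ := h.right k hk (by rw [e1]; rfl)
    obtain ⟨-, q, H, ⟨-, s0, -⟩ | ⟨-, s0, rfl⟩, hr⟩ := h.left j (by omega) hj
    · simp [e1] at s0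
    · simp only [e1, Tok.act.injEq, true_and] at s0
      subst s0
      rw [key _ (by rfl)] at hr
      simp at hr

theorem Valid.tc (h : Valid n f bs ps u) {k : ℕ} (hk : k + 1 < n) :
    TC (bs k).tok (bs (k + 1)).tok := by
  by_cases hl : (bs k).tok.rl = .left
  · obtain ⟨-, q, H, ⟨s0, s1, -⟩ | ⟨s0, s1, -⟩, -⟩ := h.left k (by omega) hl
    · exact .inl ⟨_, s0, s1⟩
    · exact .inr (.inl ⟨_, s0, s1⟩)
  · refine .inr (.inr ⟨hl, fun hr => ?_⟩)
    obtain ⟨j, e, hj⟩ := h.right _ hk hr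
    obtain rfl : j = k := by omega
    exact hl hj

theorem PF.not_vz {i : ℕ} (hi : i + 1 < n * (2 * 2 ^ W)) (h : PF n f) :
    ¬ VZ (f i) (f (i + 1)) := by
  intro hz
  have a0 := h.not_actZ (i := i) (by omega)
  have a1 := h.not_actZ hi
  obtain ⟨bs, ps, u, h⟩ := h
  have h10 : 1024 ≤ 2 ^ W := Nat.pow_le_pow_right (n := 2) two_pos (ten_le_E.trans hW.out)
  obtain ⟨k, t, hk, ht, rfl, hc⟩ := blk_dec2 hi
  obtain ⟨k', t', hk', ht', e', hc⟩ : ∃ k' t', k' < n ∧ t' < 2 * 2 ^ W ∧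
      k * (2 * 2 ^ W) + t + 1 = k' * (2 * 2 ^ W) + t' ∧
      ((k' = k ∧ t' = t + 1) ∨ (k' = k + 1 ∧ t' = 0 ∧ t + 1 = 2 * 2 ^ W)) := by
    rcases hc with hc | ⟨h1, h2, h3⟩
    · exact ⟨k, t + 1, hk, hc, rfl, .inl ⟨rfl, rfl⟩⟩
    · exact ⟨k + 1, 0, h2, by omega, h3, .inr ⟨rfl, rfl, h1⟩⟩
  rw [e'] at hz a1
  have v := h.vb k hk
  have v' := h.vb k' hk'
  have A : adr (f (k * (2 * 2 ^ W) + t)) = _ := v.adr t ht
  have A' : adr (f (k' * (2 * 2 ^ W) + t')) = _ := v'.adr t' ht'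
  cases hz with
  | badS0 h => exact h ⟨_, v.hs t ht⟩
  | badS1 h => exact h ⟨_, v'.hs t' ht'⟩
  | badD0 h => exact h ⟨_, v.hD t ht⟩
  | badD1 h => exact h ⟨_, v'.hD t' ht'⟩
  | act0 h => exact a0 h
  | act1 h => exact a1 h
  | succ h =>
    apply h
    rw [A, A', inc_ro]
    rcases hc with ⟨-, rfl⟩ | ⟨-, rfl, e⟩
    · rfl
    · rw [e, ro_eq_iff]; simp
  | leq h1 h2 =>
    rw [A', Ne, ro_eq_zero ht'] at h1
    rcases hc with ⟨rfl, rfl⟩ | ⟨-, rfl, e⟩
    · have := v.lab t ht _ ht' (by omega) h2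
      omega
    · exact h1 (.inl rfl)
  | cb s j h1 h2 h3 h4 h5 =>
    obtain rfl := h1.uniq hW.out (v.hs t ht)
    rw [cell_kind, decide_eq_true_eq] at h4
    obtain rfl : t = j := ro_inj h4 (by omega) (A.symm.trans h3)
    apply h5
    rw [cell_c, h.good k hk, show 1024 = 2 ^ 10 from rfl, Nat.testBit_mod_two_pow]
    simp [cell, h4, h2, Stat.sa, bit]
  | compat s0 d0 s1 d1 h1 h2 h3 h4 h5 =>
    obtain rfl := h1.uniq hW.out (v.hs t ht)
    obtain rfl := h2.uniq hW.out (v.hD t ht)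
    obtain rfl := h3.uniq hW.out (v'.hs t' ht')
    obtain rfl := h4.uniq hW.out (v'.hD t' ht')
    apply h5
    have l := v.lt
    have l' := v'.lt
    have o : ro W t' = ones W → ¬ t' < 2 ^ W → t' + 1 = 2 * 2 ^ W := fun h1 h2 => by
      have : ro W t' = ro W (2 * 2 ^ W - 1) := by
        rw [h1, ones_eq, ro_eq_iff, show 2 * 2 ^ W - 1 = 2 ^ W - 1 + 2 ^ W by omega]; simp
      have := ro_half ht' (by omega) (by omega) this
      omega
    rw [A, A', ro_eq_zero ht, ro_eq_zero ht']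
    refine ⟨cell_okq _ _ _, cell_okq _ _ _, ?_, ?_, ?_, ?_, ?_⟩
    · simp only [cell_kind, decide_eq_true_eq, Ne, mrk_eq_L]; omega
    · simp only [cell_kind, decide_eq_false_iff_not, Ne, mrk_eq_R]
      intro h1 h2; have := o h1 h2; omega
    · simp only [cell_kind, Ne, decide_eq_decide]; omega
    · simp only [cell_kind, decide_eq_true_eq, cell_c]
      intro h1 h2
      rcases hc with ⟨-, rfl⟩ | ⟨rfl, rfl, e⟩
      · omega
      · refine ⟨h.chain k hk', fun t0 t1 e0 e1 => ?_⟩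
        rw [← (mrk_eq_tok e0).2, ← (mrk_eq_tok e1).2]
        exact h.tc hk'
    · simp only [cell_kind, decide_eq_true_eq, cell_c]
      intro h1
      rcases hc with ⟨rfl, rfl⟩ | ⟨rfl, rfl, e⟩
      · refine ⟨rfl, ?_⟩
        simp only [Arrows, Ne, mrk_eq_L, mrk_eq_R]; omega
      · omega

end snd

variable {V : ℕ} [hV : Fact (E ≤ V)]

theorem getD_mid {X : Type} (p s : List X) (x y x' y' d : X) (j : ℕ) (h1 : j ≠ p.length)
    (h2 : j ≠ p.length + 1) : (p ++ x' :: y' :: s).getD j d = (p ++ x :: y :: s).getD j d := by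
  simp only [List.getD_eq_getElem?_getD, List.getElem?_append]
  split_ifs with h
  · rfl
  · obtain ⟨i, rfl⟩ : ∃ i, j = p.length + (i + 2) := ⟨j - p.length - 2, by omega⟩
    simp

theorem flatMap_wl {X Y : Type} (L : ℕ) (g : Y → ℕ → X) (n : ℕ) (u : ℕ → Y) :
    (wl n u).flatMap (fun y => wl L (g y)) = wl (n * L) fun i => g (u (i / L)) (i % L) := by
  induction n with
  | zero => simp [wl]
  | succ n ih =>
    rw [wl_succ, List.flatMap_append, ih, add_mul, one_mul, wl_add]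
    simp only [List.flatMap_cons, List.flatMap_nil, List.append_nil]
    congr 1
    refine wl_congr fun t ht => ?_
    have hL : 0 < L := by omega
    rw [mul_comm n L, Nat.mul_add_div hL, Nat.div_eq_of_lt ht, Nat.mul_add_mod,
      Nat.mod_eq_of_lt ht, add_zero]

theorem tau_nz (w : List (Let (2 ^ 2 ^ V))) (hw : ¬ Zr (rho (2 ^ V)) w) :
    ¬ Zr (rho V) (w.flatMap tau) := by
  let d : Let (2 ^ V) := fun _ _ => false
  let d' : Let (2 ^ 2 ^ V) := fun _ _ => false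
  refine not_zr_of_inv (P := fun z => z.length = w.length * (2 * 2 ^ 2 ^ V) ∧
    PF w.length fun i => z.getD i d) ?_ ?_ ?_
  · rintro _ _ ⟨p, s, x, y, x', y', h⟩
    have e : (p ++ x' :: y' :: s).length = (p ++ x :: y :: s).length := by simp
    rw [e]
    refine and_congr_right fun h1 => PF.vr (i := p.length) (by rw [← h1]; simp) ?_
      fun j j1 j2 => getD_mid _ _ _ _ _ _ _ _ j1 j2
    simpa using rho_some h
  · rintro p s x y h ⟨h1, h2⟩
    refine h2.not_vz (i := p.length) (by rw [← h1]; simp) ?_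
    simpa using rho_none h
  · have e : w.flatMap tau = wl (w.length * (2 * 2 ^ 2 ^ V)) fun i =>
        can ⟨col (w.getD (i / (2 * 2 ^ 2 ^ V)) d'), w.getD (i / (2 * 2 ^ 2 ^ V)) d', .idle, H0 _⟩ 0
          (i % (2 * 2 ^ 2 ^ V)) := by
      conv_lhs => rw [← wl_getD w d']
      exact flatMap_wl _ (fun y => can ⟨col y, y, .idle, H0 _⟩ 0) _ _
    have hL : 0 < 2 * 2 ^ 2 ^ V := by positivity
    rw [← wl_getD w d'] at hw
    refine ⟨by simp [e], fun k => ⟨col (w.getD k d'), w.getD k d', .idle, H0 _⟩, fun _ => 0,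
      fun k => w.getD k d', fun k hk => (VB.can _ hL).congr fun t ht => ?_, fun k _ => rfl,
      fun k hk => ?_, fun _ _ _ => rfl, by simp [Tok.rl], by simp [Tok.rl], hw⟩
    · rw [e, wl_getD' _ _ (blk_lt hk ht), mul_comm k, Nat.mul_add_div hL, Nat.div_eq_of_lt ht,
        Nat.mul_add_mod, Nat.mod_eq_of_lt ht, add_zero]
    · have := adr_succ (V := 2 ^ V) fun hz => hw (Zr.wl hk hz)
      have h10 : 1024 ∣ 2 ^ 2 ^ 2 ^ V :=
        (pow_dvd_pow 2 (ten_le_E.trans (EW (V := 2 ^ V))) : 2 ^ 10 ∣ _)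
      simp only [col, this, rv_inc, Nat.mod_mod_of_dvd _ h10, Nat.mod_add_mod]

end Crest.Agent.R176.M
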